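import Vale.Agent.P236SY.ST

/-!
# P236, synthetic calculus: uniqueness of cones and the octahedron
-/

open CategoryTheory Limits Pretriangulated

universe v u

namespace Vale.Agent.P236SY

open GData Vale.Agent.P251.H

variable {T : Type u} [Category.{v} T] [Preadditive T] [HasZeroObject T] [HasShift T ℤ]
  [∀ n : ℤ, (shiftFunctor T n).Additive] [Pretriangulated T]
  {a b a' b' : ℤ} {X Y Z X' Y' Z' : Gr T} {f : X ⟶ Y} {g : Y ⟶ Z} {h : Z ⟶ X}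

/-- The five lemma. -/
theorem DT.isIso₃ {f' : X' ⟶ Y'} {g' : Y' ⟶ Z'} {h' : Z' ⟶ X'} (H : DT a b f g h)
    (H' : DT a' b' f' g' h') (u : X ≅ X') (w : Y ≅ Y') {z : Z ⟶ Z'}
    (c₁ : f ≫ w.hom = u.hom ≫ f') (c₂ : g ≫ z = w.hom ≫ g') {e : ℤˣ}
    (c₃ : h ≫ u.hom = e • z ≫ h') : IsIso z := by
  have hm : Mono z := Preadditive.mono_of_cancel_zero z fun x hx => by
    obtain ⟨y, rfl⟩ := H.rot.co x (by
      rw [← cancel_mono u.hom, Category.assoc, c₃, Linear.comp_units_smul, reassoc_of% hx,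
        zero_comp, smul_zero, zero_comp])
    obtain ⟨y', hy⟩ := H'.co (y ≫ w.hom) (by rw [Category.assoc, ← c₂, ← Category.assoc, hx])
    rw [← Category.comp_id y, ← w.hom_inv_id, reassoc_of% hy, ← u.inv_hom_id_assoc f',
      ← c₁]
    simp [H.zero]
  obtain ⟨y, hy⟩ := H.rot'.co (h' ≫ u.inv) (by
    rw [← cancel_mono w.hom, Category.assoc, Category.assoc, c₁, u.inv_hom_id_assoc, H'.zero₃,
      zero_comp])
  obtain ⟨y', hy'⟩ := H'.rot.co (𝟙 _ - e • y ≫ z) (by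
    rw [Preadditive.sub_comp, Linear.units_smul_comp, Category.assoc, ← Linear.comp_units_smul,
      ← c₃, ← reassoc_of% hy]
    simp)
  have hs : (e • y + y' ≫ w.inv ≫ g) ≫ z = 𝟙 _ := by
    rw [Preadditive.add_comp, Category.assoc, Category.assoc, c₂, w.inv_hom_id_assoc, ← hy',
      Linear.units_smul_comp, add_sub_cancel]
  exact ⟨_, by rw [← cancel_mono z, Category.assoc, hs]; simp, hs⟩

/-- Uniqueness of the cone. -/
theorem DT.uniq {f' : X' ⟶ Y'} {g' : Y' ⟶ Z'} {h' : Z' ⟶ X'} (H : DT a b f g h)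
    (H' : DT a' b' f' g' h') (u : X ≅ X') (w : Y ≅ Y') {k l m : ℤ} (hu : Deg k u.hom)
    (hw : Deg l w.hom) (c : f ≫ w.hom = u.hom ≫ f') (h1 : a + l = k + a') (h2 : b + m = l + b') :
    ∃ (z : Z ≅ Z') (e : ℤˣ), Deg m z.hom ∧ g ≫ z.hom = w.hom ≫ g' ∧
      h ≫ u.hom = e • z.hom ≫ h' := by
  obtain ⟨z, e, dz, c₂, c₃⟩ := H.fill H' hu hw c h1 h2
  have := H.isIso₃ H' u w c c₂ c₃
  exact ⟨asIso z, e, dz, c₂, c₃⟩

/-- The octahedron. -/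
theorem DT.octa [IsTriangulated T] {W Z'' : Gr T} {f' : Y ⟶ W} {g' : W ⟶ Z'} {h' : Z' ⟶ Y}
    {g'' : W ⟶ Z''} {h'' : Z'' ⟶ X} {b'' k l : ℤ} (H₁ : DT a b f g h) (H₂ : DT a' b' f' g' h')
    (H₃ : DT (a + a') b'' (f ≫ f') g'' h'') (hk : b + k = a' + b'') (hl : b'' + l = b') :
    ∃ (m₁ : Z ⟶ Z'') (m₃ : Z'' ⟶ Z') (e e' : ℤˣ), DT k l m₁ m₃ (h' ≫ g) ∧ g ≫ m₁ = f' ≫ g'' ∧
      m₁ ≫ h'' = e • h ∧ g'' ≫ m₃ = g' ∧ h'' ≫ f = e' • m₃ ≫ h' := by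
  let e₂ : Y ≅ ob (Y.obj⟦a⟧) := (ush Y.obj a).symm
  let e₃ : W ≅ ob (W.obj⟦a + a'⟧) := (ush W.obj (a + a')).symm
  have d₂ : Deg (-a) e₂.hom := deg_ush_inv _ _
  have d₃ : Deg (-(a + a')) e₃.hom := deg_ush_inv _ _
  obtain ⟨f₀, hf₀⟩ := Deg.exists_io (X := X.obj) (H₁.deg₁.comp d₂ (add_neg_cancel a))
  obtain ⟨f₁, hf₁⟩ := Deg.exists_io (d₂.inv.comp (H₂.deg₁.comp d₃ rfl) (by omega))
  have c₁ : f' ≫ e₃.hom = e₂.hom ≫ io f₁ := by rw [← hf₁, e₂.hom_inv_id_assoc]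
  obtain ⟨A, g₁, h₁, D₁⟩ := exists_cone f₀
  obtain ⟨B, g₂, h₂, D₂⟩ := exists_cone f₁
  obtain ⟨A', g₃, h₃, D₃⟩ := exists_cone (f₀ ≫ f₁)
  obtain ⟨z₁, u₁, k₁, p₁, q₁⟩ := H₁.uniq (dt_of_dist D₁) (Iso.refl _) e₂ (m := -a - b) (deg_id _)
    d₂ (hf₀.trans (Category.id_comp _).symm) (by omega) (by omega)
  obtain ⟨z₂, u₂, k₂, p₂, q₂⟩ := H₂.uniq (dt_of_dist D₂) e₂ e₃ (m := -(a + a') - b') d₂ d₃ c₁
    (by omega) (by omega)
  obtain ⟨z₃, u₃, k₃, p₃, q₃⟩ := H₃.uniq (dt_of_dist D₃) (Iso.refl _) e₃ (m := -(a + a') - b'')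
    (deg_id _) d₃ (by rw [Category.assoc, c₁, reassoc_of% hf₀, io_comp]; simp) (by omega)
    (by omega)
  let O := Triangulated.someOctahedron rfl D₁ D₂ D₃
  rw [Iso.refl_hom, Category.comp_id] at q₁ q₃
  refine ⟨z₁.hom ≫ io O.m₁ ≫ z₃.inv, z₃.hom ≫ io O.m₃ ≫ z₂.inv, u₃ * u₁, u₃ * u₂, ?_, ?_, ?_, ?_,
    ?_⟩
  · refine ((dt_of_dist O.mem).usmul₃ u₂).iso z₁ z₃ z₂ k₁ k₃ k₂ (by simp) (by simp) ?_ (by omega)
      (by omega)
    rw [Category.assoc, p₁, reassoc_of% q₂, Linear.units_smul_comp, Category.assoc, sm_io,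
      Linear.comp_units_smul]
  · rw [reassoc_of% p₁, ← io_comp_assoc, O.comm₁, io_comp_assoc, ← reassoc_of% c₁,
      ← reassoc_of% p₃]
    simp
  · rw [q₃, q₁, smul_smul, mul_assoc, Int.units_mul_self, mul_one, Linear.comp_units_smul]
    simp only [Category.assoc, Iso.inv_hom_id_assoc]
    rw [io_sm, O.comm₂]
  · rw [reassoc_of% p₃, ← io_comp_assoc, O.comm₃, ← reassoc_of% p₂]
    simp
  · rw [← cancel_mono e₂.hom, Category.assoc, hf₀, Linear.units_smul_comp, Category.assoc, q₂, q₃,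
      Linear.comp_units_smul, smul_smul, mul_assoc, Int.units_mul_self, mul_one,
      Linear.units_smul_comp]
    simp only [Category.assoc, Iso.inv_hom_id_assoc]
    rw [sm_io, io_sm, O.comm₄]

end Vale.Agent.P236SY
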