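import Vale.Agent.P236SY.Low
import Vale.Agent.P236SY.Oct

/-!
# P236, synthetic calculus: the complexes `C α` and `Y`
-/

open CategoryTheory MonoidalCategory Limits Pretriangulated MonObj

namespace Vale.Agent.P236SY

open GData Vale.Agent.P251 Vale.Agent.P251.T Vale.Agent.P251.S Vale.Agent.P251.H Vale.Agent.P251.M
  Vale.Agent.P251.F Vale.Agent.P251.I TD Vale.Agent.P236EL
open Vale.Agent.P251.St (SHCat)

namespace TD

variable {O : Type*} {D : GData O} (E : TD D) {V W Z : D.Cat} {t : ℕ}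

theorem act_add (e : V ⟶ E.K.M.obj Z) (c c' : Z ⟶ E.K.Q (t + 1) W) :
    E.act e (c + c') = E.act e c + E.act e c' := by
  rw [act, act, act, Functor.map_add, Preadditive.add_comp, Preadditive.comp_add]

theorem act_neg (e : V ⟶ E.K.M.obj Z) (c : Z ⟶ E.K.Q (t + 1) W) : E.act e (-c) = -E.act e c := by
  rw [← neg_one_zsmul, act_zsmul, neg_one_zsmul]

theorem act_sub (e : V ⟶ E.K.M.obj Z) (c c' : Z ⟶ E.K.Q (t + 1) W) :
    E.act e (c - c') = E.act e c - E.act e c' := by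
  rw [sub_eq_add_neg, act_add, act_neg, sub_eq_add_neg]

variable {E} in
theorem Rep.comp_even {n m l : ℤ} {x : E.so V ⟶ E.so Z} {c : V ⟶ E.K.Q (t + 1) Z}
    (h : E.Rep n t x c) {f : Z ⟶ W} (hf : Deg (-m) f) (hm : Even m) (e : n + m = l) :
    E.Rep l t (x ≫ E.ι f) (c ≫ E.K.Qm (t + 1) f) := by
  simpa only [Int.negOnePow_even _ (hm.mul_left _), one_smul] using h.comp_ι hf e

end TD

theorem dF_nonneg {n : ℕ} (c : Fin n) : 0 ≤ dF n c := Int.natCast_nonneg _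

variable {T : SHCat} {t : Cob Laz 1}

namespace Cx

variable {C : Cx T}

section

variable {J : Type} [Fintype J] {d : J → ℤ} {θ : J → J → Cob Laz 1} {s : ℕ} {n w : ℤ} {Z : T.C}
  {e : J → (ob C.Γ ⟶ C.Q 0 Z)}

theorem Chart.eq_zero' (H : C.Chart e d θ) {x : C.o C.Γ ⟶ C.o Z} (hx : C.E.Dg n s x)
    (h : ∀ r : ℕ, s ≤ r → ∀ c, ¬ ((4 : ℤ) ∣ n + r ∧ 3 * (r : ℤ) ≤ n - 4 * d c)) : x = 0 :=
  H.conv.zero_of_van (fun r hr => H.van (h r hr)) hx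

theorem CM.eq_zero' (H : C.CM e d θ) {x : C.o C.Γ ⟶ C.o Z} (hx : C.E.Dg n s x)
    (h : ∀ r : ℕ, s ≤ r → ∀ c, ¬ ((4 : ℤ) ∣ n + r ∧ 3 * (r : ℤ) ≤ n - 4 * d c)) : x = 0 :=
  H.conv.zero_of_van (fun r hr => H.van (h r hr)) hx

theorem Chart.exists_rep (H : C.Chart e d θ) {F : J → Cob Laz s} (hF : F ∈ CW 3 Laz d w s)
    (h : DD θ s F = 0) (hn : n + s = 4 * w) (hv : ∀ r : ℕ, s + 2 ≤ r → ∀ c,
      ¬ ((4 : ℤ) ∣ n - 1 + r ∧ 3 * (r : ℤ) ≤ n - 1 - 4 * d c)) :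
    ∃ x, C.E.Rep n s x (C.psi e s F) := by
  obtain ⟨y, hy⟩ := H.exists_ob hF h hn
  obtain rfl := H.eq_zero' (s := s + 2) (hy.dg.cast rfl (by push_cast; rfl)) hv
  exact hy.rep

theorem CM.exists_rep' (H : C.CM e d θ) {F : J → Cob Laz s} (hF : Cy d θ s w 3 F)
    (hn : n + s = 4 * w) (hv : ∀ r : ℕ, s + 2 ≤ r → ∀ c,
      ¬ ((4 : ℤ) ∣ n - 1 + r ∧ 3 * (r : ℤ) ≤ n - 1 - 4 * d c)) :
    ∃ x, C.E.Rep n s x (C.psi e s F) := by
  obtain ⟨y, hy⟩ := H.exists_ob hF hn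
  obtain rfl := H.eq_zero' (s := s + 2) (hy.dg.cast rfl (by push_cast; rfl)) hv
  exact hy.rep

end

theorem van_four (ht : IsT1 3 t) : C.E.Van (ob C.Γ) (ob C.Γ) 4 0 :=
  (chart_Γ (J := Unit)).van_of 1 (fun _ hF => by_of_nine ht hF) (by norm_num)

theorem eq_of_rep_three {x y : C.o C.Γ ⟶ C.o C.Γ} {z : ob C.Γ ⟶ C.Q 1 C.Γ}
    (hx : C.E.Rep 3 1 x z) (hy : C.E.Rep 3 1 y z) : x = y := by
  obtain ⟨u, hu, e⟩ := hx.eq_add hy (by rw [sub_self]; exact cb_zero _ _)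
  rw [e, (chart_Γ (J := Unit)).eq_zero' (s := 2) hu fun r hr c => by omega, zero_comp, add_zero]

variable (C t) in
/-- The cone of `α`. -/
structure CA where
  /-- the cone -/
  A : T.C
  /-- the bottom cell -/
  i₁ : ob C.Γ ⟶ ob A
  /-- the top cell -/
  p₁ : ob A ⟶ ob C.Γ
  /-- the class `α` -/
  α : C.o C.Γ ⟶ C.o C.Γ
  /-- the cells -/
  eA : Fin 2 → (ob C.Γ ⟶ C.Q 0 A)
  st₁ : C.ST 0 (-4) 3 i₁ p₁ α
  chA : C.Chart eA (dF 2) (θA t)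
  rep_α : C.E.Rep 3 1 α (C.φ C.Γ 1 (2 * t))
  eA_zero : eA 0 = C.E.K.un _ ≫ C.E.K.Qm 1 i₁
  eA_one : eA 1 ≫ C.E.K.Qm 1 p₁ = C.E.K.un _

theorem wt_two (ht : IsT1 3 t) : Cob.IsWt 2 (2 * t) := by
  rw [two_mul]
  exact (wt_t ht).add (wt_t ht)

theorem wt_sq (ht : IsT1 3 t) : Cob.IsWt 4 (2 * t ^ 2) := by
  rw [pow_two, ← _root_.mul_assoc]
  exact (wt_two ht).mul (wt_t ht)

theorem exists_ca (ht : IsT1 3 t) : Nonempty (C.CA t) := by
  have hF := cw_sph (J := Unit) (w := 1) (wt_two ht)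
  obtain ⟨α, hα⟩ := (chart_Γ (C := C)).exists_rep (n := 3) hF
    (funext fun _ => by rw [DD_zero, d_two, d_t ht, mul_zero]; rfl) (by norm_num)
    fun r hr c => by omega
  obtain ⟨A, f, g, y, S, hy, H⟩ := chart_Γ.cone hF hα (by norm_num)
  refine ⟨⟨A, f, g, α, ![_, y], S, H.reindex
    ⟨![.inl (), .inr ()], Sum.elim (fun _ => 0) fun _ => 1, by decide, by decide⟩ ?_ ?_ ?_,
    by rwa [psi_un] at hα, rfl, hy⟩⟩
  · intro l; fin_cases l <;> rfl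
  · intro l; fin_cases l <;> rfl
  · intro l l'; fin_cases l <;> fin_cases l' <;> rfl

namespace CA

variable (P : C.CA t)

theorem psi_A {s : ℕ} (F : Fin 2 → Cob Laz s) : C.psi P.eA s F =
    C.φ C.Γ s (F 0) ≫ C.E.K.Qm (s + 1) P.i₁ + C.E.cup (t := 0) (C.φ C.Γ s (F 1)) (P.eA 1) := by
  rw [psi_apply, Fin.sum_univ_two, P.eA_zero, C.E.cup_comp (t := 0), cup_un]

theorem deg_one : Deg (-4) (P.eA 1) := P.chA.cells.deg 1

theorem eA_zero_p : P.eA 0 ≫ C.E.K.Qm 1 P.p₁ = 0 := by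
  rw [P.eA_zero, Category.assoc, ← C.E.K.Qm_comp, (P.st₁.ses (ob C.Γ)).zero, C.E.K.Qm_zero',
    comp_zero]

theorem psi_p {s : ℕ} (F : Fin 2 → Cob Laz s) :
    C.psi P.eA s F ≫ C.E.K.Qm (s + 1) P.p₁ = C.φ C.Γ s (F 1) := by
  rw [psi_comp, psi_apply, Fin.sum_univ_two, P.eA_zero_p, P.eA_one, cup_un, ← cupH_apply, map_zero,
    zero_add]

theorem d_zero : P.eA 0 ≫ C.E.K.d 1 _ = 0 := by
  rw [P.chA.cells.de, show θA t 0 = 0 from funext fun c => by fin_cases c <;> rfl, map_zero,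
    neg_zero]

theorem d_one : P.eA 1 ≫ C.E.K.d 1 _ = -C.φ C.Γ 1 (2 * t) ≫ C.E.K.Qm 2 P.i₁ := by
  rw [P.chA.cells.de, psi_A, show θA t 1 1 = 0 from rfl, map_zero, ← cupH_apply, map_zero,
    AddMonoidHom.zero_apply, add_zero]
  rfl

variable {W : T.C} {s : ℕ}

theorem act_zero (y : ob P.A ⟶ C.Q s W) : C.E.act (P.eA 0) y = P.i₁ ≫ y := by
  rw [P.eA_zero]
  exact (C.E.act_mid _ _ _).trans ((congrArg (C.E.act · _) (Category.id_comp _).symm).trans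
    ((C.E.un_act _ _).trans (Category.id_comp _)))

theorem act_one (y : ob C.Γ ⟶ C.Q s W) : C.E.act (P.eA 1) (P.p₁ ≫ y) = y :=
  (C.E.act_mid _ _ _).symm.trans ((congrArg (C.E.act · _)
    (P.eA_one.trans (Category.id_comp _).symm)).trans
      ((C.E.un_act _ _).trans (Category.id_comp _)))

/-- A cochain with source `C α` is determined by its values on the cells. -/
theorem act_inj {a : ℤ} {y : ob P.A ⟶ C.Q s W} (dy : Deg a y) (h : ∀ c, C.E.act (P.eA c) y = 0) :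
    y = 0 := by
  obtain ⟨z, -, rfl⟩ := P.st₁.stri.src_ex dy ((P.act_zero y).symm.trans (h 0))
  rw [← P.act_one z, h 1, comp_zero]

theorem act_surj {a : ℤ} {z : Fin 2 → (ob C.Γ ⟶ C.Q s W)} (h0 : Deg a (z 0))
    (h1 : Deg (a - 4) (z 1)) : ∃ y, Deg a y ∧ ∀ c, C.E.act (P.eA c) y = z c := by
  obtain ⟨y, dy, hy⟩ := P.st₁.stri.src_surj h0
  refine ⟨y + P.p₁ ≫ (z 1 - C.E.act (P.eA 1) y), (dy.cast (by omega)).add (P.st₁.deg₂.comp
    (h1.sub (C.E.deg_act P.deg_one dy (by omega))) (by omega)), fun c => ?_⟩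
  fin_cases c
  · refine (P.act_zero _).trans ?_
    rw [Preadditive.comp_add, ← Category.assoc, (P.st₁.ses (ob C.Γ)).zero, zero_comp, add_zero]
    exact hy.symm
  · exact (C.E.act_add _ _ _).trans ((congrArg _ (P.act_one _)).trans (add_sub_cancel _ _))

/-- A cell over `± 1` with the right boundary is the top cell. -/
theorem eq_one (ht : IsT1 3 t) {y : ob C.Γ ⟶ C.Q 0 P.A} (dy : Deg (-4) y) {u : ℤˣ}
    (h1 : y ≫ C.E.K.Qm 1 P.p₁ = u • C.E.K.un _)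
    (h2 : y ≫ C.E.K.d 1 _ = -C.φ C.Γ 1 (2 * t) ≫ C.E.K.Qm 2 P.i₁) : u = 1 ∧ y = P.eA 1 := by
  have S := P.st₁.ses (ob C.Γ)
  obtain ⟨z, dz, hz⟩ := S.ex (dy.sub (P.deg_one.usmul u)) (by
    rw [Preadditive.sub_comp, Linear.units_smul_comp, P.eA_one, h1, sub_self])
  have h3 : z ≫ C.E.K.d 1 _ = ((u : ℤ) - 1) • C.φ C.Γ 1 (2 * t) := by
    rw [← sub_eq_zero]
    apply S.inj
    rw [Preadditive.sub_comp, Category.assoc, ← C.E.K.d_naturality, ← reassoc_of% hz,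
      Preadditive.sub_comp, Linear.units_smul_comp, P.d_one, h2, Preadditive.zsmul_comp, sub_smul,
      one_smul, Units.smul_def, smul_neg]
    abel
  obtain rfl : u = 1 := by
    have h4 := dvd_of_by_t ht (J := Unit) (a := ((u : ℤ) - 1) * 2) ((chart_Γ (C := C)).of_cb 1
      (zsmul_mem (cw_sph (w := 1) (wt_t ht)) _) (z := 0) (a := -4) ⟨z, dz.cast rfl, by
        rw [smul_zero, sub_zero, h3, psi_un, Pi.smul_apply, mul_smul, map_zsmul, two_mul,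
          two_zsmul]⟩ rfl)
    rcases Int.units_eq_one_or u with rfl | rfl
    · rfl
    · exact absurd h4 (by decide)
  rw [Units.val_one, sub_self, zero_smul] at h3
  rw [show z = 0 from van_four ht z dz h3, zero_comp, one_smul, sub_eq_zero] at hz
  exact ⟨rfl, hz⟩

end CA

variable (C t) in
/-- The complex `Y` as a cone on `C α`. -/
structure CB extends C.CA t where
  /-- the complex with three cells -/
  Y : T.C
  /-- the inclusion of `C α` -/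
  i₂ : ob A ⟶ ob Y
  /-- the top cell -/
  p₂ : ob Y ⟶ ob C.Γ
  /-- the attaching map of the top cell -/
  αt : C.o C.Γ ⟶ C.o A
  /-- the cells -/
  eY : Fin 3 → (ob C.Γ ⟶ C.Q 0 Y)
  st₂ : C.ST 0 (-8) 7 i₂ p₂ αt
  chY : C.Chart eY (dF 3) (θY t)
  rep_αt : C.E.Rep 7 1 αt (C.psi eA 1 ![2 * t ^ 2, 2 * t])
  eY_cast : ∀ c : Fin 2, eY c.castSucc = eA c ≫ C.E.K.Qm 1 i₂
  eY_two : eY 2 ≫ C.E.K.Qm 1 p₂ = C.E.K.un _
  αt_p : αt ≫ C.E.ι p₁ = α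

theorem cw_αt (ht : IsT1 3 t) : ![2 * t ^ 2, 2 * t] ∈ CW 3 Laz (dF 2) 2 1 := mem_CW.2 fun c => by
  fin_cases c
  exacts [wt_sq ht, wt_two ht]

theorem dd_αt (ht : IsT1 3 t) : DD (θA t) 1 ![2 * t ^ 2, 2 * t] = 0 := funext fun c => by
  have h := (mc_Y ht).mc 2 c.castSucc
  fin_cases c <;> simpa [DD_apply, θA, θY, Fin.sum_univ_three, Cob.cup] using h

theorem exists_cb (ht : IsT1 3 t) : Nonempty (C.CB t) := by
  obtain ⟨P⟩ := exists_ca (C := C) ht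
  obtain ⟨αt, hα⟩ := P.chA.exists_rep (n := 7) (cw_αt ht) (dd_αt ht) (by norm_num)
    fun r hr c => by have := dF_nonneg c; omega
  obtain ⟨Y, i₂, p₂, y₂, S₂, hy, H⟩ := P.chA.cone (cw_αt ht) hα (by norm_num)
  refine ⟨⟨P, Y, i₂, p₂, αt, ![P.eA 0 ≫ C.E.K.Qm 1 i₂, P.eA 1 ≫ C.E.K.Qm 1 i₂, y₂], S₂, H.reindex
    ⟨![.inl 0, .inl 1, .inr ()], Sum.elim Fin.castSucc fun _ => 2, by decide, by decide⟩ ?_ ?_ ?_,
    hα, ?_, hy, eq_of_rep_three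
      (P.psi_p ![2 * t ^ 2, 2 * t] ▸ hα.comp_even (m := -4) P.st₁.deg₂ (by decide) rfl) P.rep_α⟩⟩
  · intro l; fin_cases l <;> rfl
  · intro l; fin_cases l <;> rfl
  · intro l l'; fin_cases l <;> fin_cases l' <;> rfl
  · intro l; fin_cases l <;> rfl

namespace CB

variable (P : C.CB t)

theorem d_two : P.eY 2 ≫ C.E.K.d 1 _ = -(C.φ C.Γ 1 (2 * t ^ 2) ≫ C.E.K.Qm 2 (P.i₁ ≫ P.i₂) +
    C.E.cup (t := 0) (C.φ C.Γ 1 (2 * t)) (P.eY 1)) := by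
  refine (P.chY.cells.de 2).trans (congrArg _ ?_)
  rw [psi_apply, Fin.sum_univ_three, show θY t 2 2 = 0 from rfl, map_zero, ← TD.cupH_apply _ 0,
    map_zero, AddMonoidHom.zero_apply, add_zero, show P.eY 0 = _ from P.eY_cast 0,
    C.E.cup_comp (t := 0), P.eA_zero, C.E.cup_comp (t := 0), cup_un, C.E.K.Qm_comp, Category.assoc]
  rfl

theorem exists_octa : ∃ (q : ob P.Y ⟶ ob P.A) (k : C.o P.A ⟶ C.o C.Γ) (u v : ℤˣ),
    C.ST 0 (-4) 3 (P.i₁ ≫ P.i₂) q k ∧ P.i₂ ≫ q = P.p₁ ≫ P.i₁ ∧ q ≫ P.p₁ = v • P.p₂ ∧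
      k ≫ C.E.ι P.i₁ = u • C.E.ι P.p₁ ≫ P.αt := by
  obtain ⟨t₁, D₁, e₁⟩ := P.st₁.dt
  obtain ⟨h₂, D₂, -, e₂⟩ := P.st₂.ex
  obtain ⟨Z, g, h, D₃⟩ := exists_dt (D₁.deg₁.comp D₂.deg₁ rfl)
  obtain ⟨m₁, m₃, u, u', D₄, c₁, c₂, c₃, c₄⟩ := D₁.octa D₂ D₃ (k := -4) (l := 8) rfl rfl
  rw [show (h₂ ≫ _) ≫ P.p₁ = t₁ from C.E.ι_inj (by
    rw [ι_comp, ← up_τ, ← e₂, e₁, Category.assoc, τ_comm, reassoc_of% P.αt_p])] at D₄
  obtain ⟨z, v, dz, c₅, c₆⟩ := D₄.rot'.uniq D₁.rot' (Iso.refl _) (Iso.refl _) (m := 4) (deg_id _)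
    (deg_id _) (by simp) rfl rfl
  simp only [Iso.refl_hom, Category.id_comp, Category.comp_id] at c₅ c₆
  have D₅ : DT (-0) (- -4) (P.i₁ ≫ P.i₂) (g ≫ z.hom) (z.inv ≫ h) :=
    D₃.iso (Iso.refl _) (Iso.refl _) z.symm (deg_id _) (deg_id _) dz.inv (by simp) (by simp)
      (by simp) rfl rfl
  have c₉ : (z.inv ≫ h) ≫ P.i₁ = (u' * v) • P.p₁ ≫ h₂ ≫ C.E.ε _ := by
    rw [Category.assoc, c₄, c₆, Linear.units_smul_comp, smul_smul, Linear.comp_units_smul,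
      Category.assoc, z.inv_hom_id_assoc]
  obtain ⟨k, S₃, e₃⟩ := st_of_dt (C := C) (c := 3) D₅ ((P.st₁.ses _).inj (s := 0) (by
    refine (Category.assoc _ _ _).trans ((congrArg _ (C.E.K.un_nat _).symm).trans ?_)
    rw [← Category.assoc, c₉, Linear.units_smul_comp, Category.assoc, Category.assoc, ε_un,
      comp_zero, comp_zero, smul_zero])) rfl
  refine ⟨_, k, u' * v, v, S₃, by rw [← reassoc_of% c₁, c₅], by
    rw [← c₃, c₆, Linear.comp_units_smul, smul_smul, Int.units_mul_self, one_smul, Category.assoc],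
    sub_eq_zero.1 (((S₃.dg₃.comp P.st₁.stri.dg₁ rfl rfl).sub
      ((P.st₁.stri.dg₂.comp P.st₂.dg₃ rfl rfl).usmul _)).τ_inj le_rfl ?_)⟩
  rw [Preadditive.sub_comp, Category.assoc, ← τ_comm, ← reassoc_of% e₃, ← ι_comp, c₉,
    Linear.units_smul_comp, Category.assoc, e₂, up_τ, ← ι_comp, Units.smul_def, Units.smul_def,
    map_zsmul, sub_self]

variable {q : ob P.Y ⟶ ob P.A} {k : C.o P.A ⟶ C.o C.Γ}

theorem eY_q (ht : IsT1 3 t) (S : C.ST 0 (-4) 3 (P.i₁ ≫ P.i₂) q k) (h : P.i₂ ≫ q = P.p₁ ≫ P.i₁)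
    {v : ℤˣ} (h' : q ≫ P.p₁ = v • P.p₂) :
    v = 1 ∧ ∀ c : Fin 2, P.eY c.succ ≫ C.E.K.Qm 1 q = P.eA c := by
  have k1 : P.eY 1 ≫ C.E.K.Qm 1 q = P.eA 0 := by
    rw [show P.eY 1 = _ from P.eY_cast 1, Category.assoc, ← C.E.K.Qm_comp, h, C.E.K.Qm_comp,
      reassoc_of% P.eA_one, P.eA_zero]
  obtain ⟨h1, k3⟩ := P.eq_one ht (y := P.eY 2 ≫ C.E.K.Qm 1 q) (u := v)
    ((P.chY.cells.deg 2).comp (deg_Qm _ S.deg₂) rfl)
    (by rw [Category.assoc, ← C.E.K.Qm_comp, h', Units.smul_def, Qm_zsmul, Preadditive.comp_zsmul,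
      P.eY_two, Units.smul_def])
    (by rw [Category.assoc, C.E.K.d_naturality, reassoc_of% P.d_two, Preadditive.neg_comp,
      Preadditive.add_comp, ← C.E.cup_comp (t := 0), k1, P.eA_zero, C.E.cup_comp (t := 0), cup_un,
      Category.assoc, ← C.E.K.Qm_comp, (S.ses (ob C.Γ)).zero, C.E.K.Qm_zero', comp_zero, zero_add])
  refine ⟨h1, fun c => ?_⟩
  fin_cases c
  exacts [k1, k3]

theorem exists_xb (S : C.ST 0 (-4) 3 (P.i₁ ≫ P.i₂) q k)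
    (h : ∀ c : Fin 2, P.eY c.succ ≫ C.E.K.Qm 1 q = P.eA c) :
    ∃ (u : ℤˣ) (x : ob P.A ⟶ C.Q 1 C.Γ), C.E.Rep 3 1 (u • k) x ∧
      ∀ c, C.E.act (P.eA c) x = C.φ C.Γ 1 (![2 * t, 2 * t ^ 2] c) := by
  obtain ⟨y, dy, hy⟩ := P.act_surj (a := -4) (z := fun c => P.eY c.succ)
    (P.chY.cells.deg 1) (P.chY.cells.deg 2)
  have k4 : y ≫ C.E.K.Qm 1 q = C.E.K.un _ :=
    sub_eq_zero.1 (P.act_inj ((dy.comp (deg_Qm _ S.deg₂) rfl).sub (C.E.deg_un _)) fun c => by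
      rw [act_sub, act_comp, hy, act_un, h, sub_self])
  obtain ⟨x, dx, hx⟩ := (S.ses _).ex (s := 1) (dy.comp (C.E.deg_d 1 _) rfl) (by
    rw [Category.assoc, ← C.E.K.d_naturality, reassoc_of% k4]
    exact C.E.K.d_d 0 _)
  obtain ⟨w, hw⟩ := S.bd_rep
  have k5 := (hw (s := 0) (m := 3) (rep_ι (n := 0) (deg_id _)) dy
    (k4.trans (Category.id_comp _).symm) hx rfl).usmul (-w)
  rw [ι_id, Category.id_comp, Nat.cast_zero, zero_mul, Int.negOnePow_zero, _root_.mul_one,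
    smul_smul, neg_mul, Int.units_mul_self, Units.neg_smul 1, one_smul] at k5
  refine ⟨_, _, k5, fun c => ?_⟩
  have k7 := C.E.act_d (P.eA c) y
  rw [hy, hx, act_comp] at k7
  rw [act_neg, neg_eq_iff_add_eq_zero]
  apply (S.ses _).inj
  rw [Preadditive.add_comp, ← eq_neg_iff_add_eq_zero]
  fin_cases c
  · refine ((zero_add _).symm.trans (congrArg (· + _) ?_)).trans (k7.symm.trans ?_)
    · exact ((congrArg (C.E.cup · y) P.d_zero).trans (by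
        rw [← TD.cupH_apply, map_zero, AddMonoidHom.zero_apply])).symm
    · refine (congrArg (· ≫ _) (P.eY_cast 1)).trans ((Category.assoc _ _ _).trans ?_)
      rw [C.E.K.d_naturality, reassoc_of% P.d_one, C.E.K.Qm_comp, Preadditive.neg_comp,
        Category.assoc]
      rfl
  · have k8 : C.E.cup (s := 1) (t := 0) (P.eA 1 ≫ C.E.K.d 1 _) y =
        -C.E.cup (t := 0) (C.φ C.Γ 1 (2 * t)) (P.eY 1) := by
      rw [P.d_one, ← TD.cupH_apply, map_neg, AddMonoidHom.neg_apply, TD.cupH_apply,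
        ← C.E.cup_mid (s := 1) (t := 0) _ P.i₁ y, ← P.act_zero y, hy 0]
      rfl
    refine add_left_cancel ((congrArg (· + _) k8.symm).trans (k7.symm.trans (P.d_two.trans ?_)))
    rw [neg_add_rev]
    rfl

end CB

variable (C t) in
/-- The complexes `C α` and `Y` with all their triangles. -/
structure CY extends C.CB t where
  /-- the quotient by the bottom cell -/
  q : ob Y ⟶ ob A
  /-- the attaching map to the bottom cell -/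
  αb : C.o A ⟶ C.o C.Γ
  /-- the cocycle of `αb` -/
  xb : ob A ⟶ C.Q 1 C.Γ
  st₃ : C.ST 0 (-4) 3 (i₁ ≫ i₂) q αb
  rep_αb : C.E.Rep 3 1 αb xb
  act_xb : ∀ c, C.E.act (eA c) xb = C.φ C.Γ 1 (![2 * t, 2 * t ^ 2] c)
  eY_succ : ∀ c : Fin 2, eY c.succ ≫ C.E.K.Qm 1 q = eA c
  i_αb : C.E.ι i₁ ≫ αb = α
  i_q : i₂ ≫ q = p₁ ≫ i₁
  q_p : q ≫ p₁ = p₂
  αb_i : ∃ u : ℤˣ, αb ≫ C.E.ι i₁ = u • C.E.ι p₁ ≫ αt

theorem exists_cy (ht : IsT1 3 t) : Nonempty (C.CY t) := by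
  obtain ⟨P⟩ := exists_cb (C := C) ht
  obtain ⟨q, k, u, v, S, h1, h2, h3⟩ := P.exists_octa
  obtain ⟨rfl, h4⟩ := P.eY_q ht S h1 h2
  obtain ⟨w, x, h5, h6⟩ := P.exists_xb S h4
  exact ⟨⟨P, q, w • k, x, S.usmul₃ w, h5, h6, h4, eq_of_rep_three
    ((P.act_zero _).symm.trans (h6 0) ▸ h5.ι_comp (m := 0) P.st₁.deg₁ rfl) P.rep_α, h1,
    h2.trans (one_smul _ _), w * u, by rw [Linear.units_smul_comp, h3, smul_smul]⟩⟩

end Cx

end Vale.Agent.P236SY
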