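import Vale.Agent.P236SY.Exa
import Vale.Agent.P236R.Main

/-!
# P236, synthetic calculus: tools for `Y ⊗ M`
-/

open CategoryTheory MonoidalCategory Limits Pretriangulated MonObj

namespace Vale.Agent.P236SY

open GData Vale.Agent.P251 Vale.Agent.P251.T Vale.Agent.P251.S Vale.Agent.P251.H Vale.Agent.P251.M
  Vale.Agent.P251.F Vale.Agent.P251.I TD Vale.Agent.P236EL Vale.Agent.P236F Vale.Agent.P236R
  Vale.Agent.P236Z
open Vale.Agent.P251.St (SHCat)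

theorem TD.STri.van_src {O : Type*} {D : GData O} {E : TD D} {W X Y Z : D.Cat} {a b c n m l : ℤ}
    {s : ℕ} {f : X ⟶ Y} {g : Y ⟶ Z} {k : E.so Z ⟶ E.so X} (H : E.STri a b c (E.ι f) (E.ι g) k)
    (h₁ : E.Van X W m s) (h₃ : E.Van Z W l s) (e₁ : a + n = m) (e₃ : b + l = n) :
    E.Van Y W n s := fun x dx hx => by
  have S := H.ses X
  have key : ∀ {x : Y ⟶ E.K.Q (s + 1) W}, Deg (-(n + s)) x → x ≫ E.K.d (s + 1) W = 0 →
      f ≫ x = 0 → E.Cb (-(n + s)) s x := fun dx hx h => by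
    obtain ⟨y, dy, rfl⟩ := H.src_ex dx h
    exact (h₃ y (dy.cast (by omega)) (H.src_inj (by rwa [Category.assoc] at hx))).pre S.deg₂
      (by omega)
  have h := h₁ _ (S.deg₁.comp dx (by omega)) (by rw [Category.assoc, hx, comp_zero])
  cases s with
  | zero => exact key dx hx h
  | succ s =>
    obtain ⟨u, du, hu⟩ := h
    obtain ⟨u, du', rfl⟩ := H.src_surj du
    have h1 : E.Cb (-(n + (s + 1 : ℕ))) (s + 1) (u ≫ E.K.d _ W) := ⟨u, du'.cast (by omega), rfl⟩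
    simpa using (key (dx.sub h1.deg) (by rw [Preadditive.sub_comp, hx, h1.cyc, sub_zero])
      (by rw [Preadditive.comp_sub, hu, Category.assoc, sub_self])).add h1

variable {T : SHCat} {t : Cob Laz 1}

/-- the least weight of a generator of the minimal resolution of `Y` -/
def mnY (s : ℕ) : ℕ :=
  [0, 3, 7, 13, 18, 22, 34, 39, 43, 49, 54, 58, 70, 75, 79, 85, 90, 94].getD s 101

variable (t) in
/-- The cohomology of `Y` vanishes below the least generator. -/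
def VH : Prop := ∀ (w : ℤ) (s : ℕ), w < mnY s → VY t w s

namespace Cx.CY

variable {C : Cx T} (P : C.CY t) {k s s' a r r' : ℕ} {n m w w' v v' ω : ℤ}

theorem van_Y {W : Gr T.C} (h1 : C.E.Van (ob C.Γ) W n s) (h2 : C.E.Van (ob C.Γ) W (n + 4) s)
    (h3 : C.E.Van (ob C.Γ) W (n + 4 + 4) s) : C.E.Van (ob P.Y) W n s :=
  P.st₃.stri.van_src h1 (P.st₁.stri.van_src h2 h3 (zero_add _) (by ring)) (zero_add _) (by ring)

include P in
/-- Products with classes of the sphere in degrees where the cohomology of `Y` vanishes. -/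
theorem lc_kill (ht : IsT1 3 t) {z : Cob Laz a} (hz : (fun _ => z) ∈ ZS ω a) (h1 : VY t ω a)
    (h2 : VY t (ω + 1) a) (h3 : VY t (ω + 1 + 1) a) {F : Fin 3 → Cob Laz s} (hF : F ∈ ZY t w s)
    (h : a + s = r) (e : ω + w = v) : lc _ h z F ∈ BY t v r := by
  have H := P.chY.cm
  have h4 := P.van_Y (n := 4 * ω - a) (H.van_of h1 (by ring)) (H.van_of h2 (by ring))
    (H.van_of h3 (by ring)) (C.φM P.Y a z) ((deg_Φ _ _ (zs_iff.1 hz).1 (by ring)).comp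
      (deg_Qm _ (deg_io _)) (add_zero _)) (φM_cyc hz)
  have h5 := rep_hat_φ h4.rep
  rw [map_zero] at h5
  have h6 := cup_cb (H.cells.deg_cw hF.1 rfl) (fun u => by rw [H.cyc hF, zero_comp])
    h5.cb_of_zero (k := -(4 * v)) (by omega)
  have h7 := lc_rc (mc_Y ht) h hz e (wt_Y ht) ((add_comm _ _).trans h) hF
  have h8 := lcZ (mc_Y ht) h hz e hF
  obtain rfl : s + a = r := (add_comm _ _).trans h
  rw [H.cells.psi_cup_φ, ← rc_eq] at h6
  have h9 := (CW 3 Laz (dF 3) v _).sub_mem h8.1 (H.cw_of_by h7)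
  rw [sub_sub_cancel] at h9
  have h10 := zsmul_mem h9 ((-1) ^ (a * s))
  rw [smul_smul, ← mul_pow, neg_mul_neg, _root_.one_mul, one_pow, one_smul] at h10
  simpa using add_mem h7 (zsmul_mem (H.of_cb h10 h6 rfl) ((-1) ^ (a * s)))

/-- The product with a class of the sphere whose differential acts trivially on `Y`. -/
theorem DZ.lc (ht : IsT1 3 t) {F : Fin 3 → Cob Laz s} {G : Fin 3 → Cob Laz s'}
    (h : P.DZ 3 s s' w w' F G) {z : Cob Laz a} (hz : (fun _ => z) ∈ ZS ω a)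
    (h1 : VY t (ω + 1) (a + 5)) (h2 : VY t (ω + 1 + 1) (a + 5)) (h3 : VY t (ω + 1 + 1 + 1) (a + 5))
    (e₁ : a + s = r) (e₃ : a + s' = r') (hr : 1 ≤ r) (ev : ω + w = v) (ev' : ω + w' = v') :
    P.DZ 3 r r' v v' (lc _ e₁ z F) ((-1 : ℤ) ^ a • lc _ e₃ z G) := by
  obtain ⟨z', hz'⟩ := (cmS (C := C)).exists_d5 hz rfl rfl
  have := h.es
  have := h.ew
  rw [zs_eta z'] at hz'
  have h4 := Dr.lc (mc_Y ht) hz' h e₁ (show a + 5 + s = r' by omega) e₃ hr ev ev'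
  refine P.chY.cm.dr_right h4 ?_
  rw [sub_add_cancel_right]
  exact neg_mem (P.lc_kill ht hz'.cy' h1 h2 h3 h.cy _ (by omega))

/-- The condition for the vanishing of a group of `Y ⊗ M`. -/
abbrev Ok' (L : List (ℤ × ℕ)) (n s : ℤ) : Prop := 0 ≤ s ∧ n ≤ 366 ∧ ∀ r : Fin 18,
  s ≤ r.1 ∧ 4 * (mnY r : ℤ) ≤ n + r.1 ∧ (n + r.1) % 4 = 0 → ((n + r.1) / 4, r.1) ∈ L

theorem z0_Z (ht : IsT1 3 t) (hH : VH t) {L : List (ℤ × ℕ)} (hL : ∀ a ∈ L, VY t a.1 a.2) {s : ℤ}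
    (h : Ok' L n s) : C.Z0 P.oZ n s := fun x hx => by
  obtain ⟨h1, h2, h3⟩ := h
  obtain ⟨s, rfl⟩ := Int.eq_ofNat_of_zero_le h1
  refine P.chY.cm.eq_zero hx fun r w h4 h5 _ => ?_
  rcases lt_or_ge w (3 * r) with h6 | h6
  · exact vy_of_lt ht h6
  rcases le_or_gt 18 r with h8 | h8
  · exact hH w r (by rw [mnY, List.getD_eq_default _ _ h8]; omega)
  rcases lt_or_ge w (mnY r) with h9 | h9
  · exact hH w r h9
  have h7 := hL _ (h3 ⟨r, h8⟩ ⟨by simpa using h4, by simp only; omega, by simp only; omega⟩)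
  rw [h5, Int.mul_ediv_cancel_left _ (by norm_num)] at h7
  exact h7

theorem z0_Z₀ (ht : IsT1 3 t) (hH : VH t) {s : ℤ} (h : Ok' [] n s) : C.Z0 P.oZ n s :=
  P.z0_Z ht hH (fun _ h => absurd h List.not_mem_nil) h

/-- the operation of degree `-4` -/
noncomputable abbrev pp : P.oZ ⟶ P.oZ := P.qq ≫ P.ee

theorem dg_pp : C.E.Dg (-4) 0 P.pp := P.sZ.dg₂.comp P.sE.dg₁ rfl rfl

@[reassoc] theorem e0_pp : P.e0 ≫ P.pp = 0 := by rw [← Category.assoc, P.sZ.zero₁, zero_comp]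

@[reassoc] theorem pp_pp : P.pp ≫ P.pp = P.jy ≫ P.e0 := by
  rw [← qq_jA, Category.assoc, Category.assoc, jA_e0]

theorem rep_pp {z : C.o C.Γ ⟶ P.oZ} {K : Fin 3 → Cob Laz s}
    (h : C.E.Rep n s z (C.psi (mE P.eY) s K)) (hl : n - 4 = m) :
    C.E.Rep m s (z ≫ P.pp) (C.psi (mE P.eY) s ![K 1, K 2, 0]) := by
  have h1 := P.rep_ee (P.rep_qq h hl)
  simpa only [Matrix.cons_val_zero, Matrix.cons_val_one, Category.assoc] using h1

theorem dr_pp {F : Fin 3 → Cob Laz s} {G : Fin 3 → Cob Laz s'} (h : P.DZ k s s' w w' F G)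
    (e : w + -1 = v) (e' : w' + -1 = v') : P.DZ k s s' v v' ![F 1, F 2, 0] ![G 1, G 2, 0] := by
  have h1 := P.dr_ee (P.dr_qq h e e')
  simpa only [Matrix.cons_val_zero, Matrix.cons_val_one] using h1

include P in
theorem zy_pp {F : Fin 3 → Cob Laz s} (h : F ∈ ZY t w s) (e : w + -1 = v) :
    ![F 1, F 2, 0] ∈ ZY t v s :=
  (P.dr_pp (P.chY.cm.exists_d5 h rfl rfl).choose_spec e rfl).cy

section inj

variable {z : C.o C.Γ ⟶ P.oZ} (hz : C.E.Dg n s z) (hn : n + s = 4 * w)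
include hz hn

/-- A class in the kernel of an operation which is injective on the cohomology. -/
theorem div_of_pp (h0 : z ≫ P.pp = 0) (e : w + -1 = v)
    (h : ∀ G ∈ ZY t w s, ![G 1, G 2, 0] ∈ BY t v s → G ∈ BY t w s) :
    ∃ y, C.E.Dg n (s + 4) y ∧ z = y ≫ C.E.tp 4 _ := by
  obtain ⟨G, hG, h1⟩ := P.chY.cm.exists_rep hz hn
  exact P.chY.cm.div4 h1 (h G hG (P.chY.cm.by_of_zero (h0 ▸ P.rep_pp h1 rfl)
    (P.zy_pp hG e).1 (by omega))) hn

theorem div_of_jy (h0 : z ≫ P.jy = 0) (e : w + -2 = v)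
    (h : ∀ G ∈ ZY t w s, (fun _ => G 2) ∈ BS v s → G ∈ BY t w s) :
    ∃ y, C.E.Dg n (s + 4) y ∧ z = y ≫ C.E.tp 4 _ := by
  obtain ⟨G, hG, h1⟩ := P.chY.cm.exists_rep hz hn
  exact P.chY.cm.div4 h1 (h G hG (cmS.by_of_zero (h0 ▸ P.rep_jy h1 rfl) (cw_top hG.1 2 e)
    (by omega))) hn

end inj

end Cx.CY

namespace Cx.CM

variable {C : Cx T} {J : Type} [Fintype J] {d : J → ℤ} {θ : J → J → Cob Laz 1} {W : T.C}
  {e : J → (ob C.Γ ⟶ C.Q 0 W)} (H : C.CM e d θ) {s s' : ℕ} {n w w' : ℤ}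
include H

/-- A torsion class which is not hit is divisible. -/
theorem div_of_tor {x : C.o C.Γ ⟶ C.o W} (hx : C.E.Dg n s' x) (h0 : x ≫ C.E.tp 4 _ = 0)
    (hn : n + s' = 4 * w') (es : s + 5 = s') (ew : w + 1 = w')
    (h : ∀ F G, C.Dr d θ 3 s s' w w' e F G → G ∈ BQ 3 θ d w' 3 s') :
    ∃ y, C.E.Dg n (s' + 4) y ∧ x = y ≫ C.E.tp 4 _ := by
  obtain ⟨G, hG, h1⟩ := H.exists_rep hx hn
  obtain ⟨F, h2⟩ := H.dr_of_tor (k := 3) (s := s) (w := w) es (by omega) hn hG h1 h0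
  exact H.div4 h1 (h F G h2) hn

/-- A class with trivial first differential is permanent if the higher groups vanish. -/
theorem perm_of {F : J → Cob Laz s} {G : J → Cob Laz s'} (h : C.Dr d θ 3 s s' w w' e F G)
    (hG : G ∈ BQ 3 θ d w' 3 s') (hn : n + s = 4 * w) {m u : ℤ} (h0 : C.Tor (C.o W) 4 m u)
    (hm : m + 1 = n) (hu : u = s + 9) : ∃ x, C.E.Rep n s x (C.psi e s F) := by
  obtain ⟨y, h1, h2⟩ := h.ex' hn (m := m) (by omega)
  have := h.es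
  have := h.ew
  obtain ⟨y, hy, rfl⟩ := H.div4 h2 hG (by omega)
  rw [h0 y (hy.cast rfl (by omega)), zero_comp] at h1
  exact h1.rep

end Cx.CM

end Vale.Agent.P236SY
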