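import Vale.Agent.P236R.Cell

/-!
# P236: the group of stem 322 and filtration 18 of the Moore spectrum is killed by `τ ^ 12`
-/

open CategoryTheory MonoidalCategory Limits Pretriangulated MonObj

namespace Vale.Agent.P236SY

open GData Vale.Agent.P251 Vale.Agent.P251.T Vale.Agent.P251.S Vale.Agent.P251.H Vale.Agent.P251.M
  Vale.Agent.P251.F Vale.Agent.P251.I TD Vale.Agent.P236EL Vale.Agent.P236F Vale.Agent.P236R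
  Vale.Agent.P236Z
open Vale.Agent.P251.St (SHCat)

variable {T : SHCat} {t : Cob Laz 1} {C : Cx T}

namespace Cx.CY

variable (P : C.CY t)

/-- The inputs of the lemma on the level of `Y ⊗ M`. -/
structure KZ : Prop where
  z322 : C.Z0 P.oZ 322 18
  z319 : C.Z0 P.oZ 319 17
  z312 : C.Z0 P.oZ 312 16
  z309 : C.Z0 P.oZ 309 15
  k302 : Kill P.e0 302 14
  l299 : ∀ z : C.o C.Γ ⟶ P.oZ, C.E.Dg 299 13 z → ∃ a, C.E.Dg 299 13 a ∧ a ≫ C.E.tp 4 _ = 0 ∧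
    z = a ≫ P.ee
  k292 : Kill P.e0 292 12
  t289 : C.Tor P.oZ 4 289 11
  k282 : ∀ (m : C.o C.Γ ⟶ C.oM) (a : C.o C.Γ ⟶ P.oA), C.E.Dg 282 6 m → C.E.Dg 289 11 a →
    a ≫ C.E.tp 4 _ = m ≫ P.atil → m ≫ P.e0 = 0
  l279 : ∀ z : C.o C.Γ ⟶ P.oZ, C.E.Dg 279 5 z → ∃ u y, C.E.Dg 283 5 u ∧ C.E.Dg 279 9 y ∧
    z = u ≫ P.qq ≫ P.ee + y ≫ C.E.tp 4 _
  t275 : C.Tor P.oZ 4 275 9

variable {P}

/-- The first half: `T x = β ^ 4 m` with `m` of filtration 6. -/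
theorem KZ.first (h : P.KZ) {x : C.o C.Γ ⟶ C.oM} (hx : C.E.Dg 322 18 x) :
    ∃ m, C.E.Dg 282 6 m ∧ m ≫ P.e0 = 0 ∧ x ≫ C.E.tp 4 _ = P.β ≫ P.β ≫ P.β ≫ P.β ≫ m := by
  obtain ⟨x₁, hx₁, rfl⟩ := P.β_surj (m := 312) (u := 16) hx h.z322 h.z319 rfl rfl rfl rfl
  obtain ⟨x₂, hx₂, rfl⟩ := P.β_surj (m := 302) (u := 14) hx₁ h.z312 h.z309 rfl rfl rfl rfl
  obtain ⟨a, ha, rfl⟩ := P.of_abar (m := 299) (u := 13) hx₂ (h.k302 _ hx₂) rfl rfl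
  obtain ⟨a', ha', h1, h2⟩ := h.l299 _ (ha.comp P.sE.dg₁ rfl rfl)
  obtain ⟨m, hm, h3⟩ := P.of_atil (m := 292) (u := 12) (ha.sub ha')
    (by rw [Preadditive.sub_comp, h2, sub_self]) rfl rfl
  obtain ⟨b, hb, rfl⟩ := P.of_abar (m := 289) (u := 11) hm (h.k292 m hm) rfl rfl
  obtain ⟨m', hm', h4⟩ := P.of_atil (m := 282) (u := 6) (hb.comp (C.E.dg_tp 4 _) rfl rfl) (by
    rw [Category.assoc, tp_comm, ← Category.assoc]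
    exact h.t289 _ (hb.comp P.sE.dg₁ rfl rfl)) rfl rfl
  refine ⟨m', hm', h.k282 m' b hm' hb h4, ?_⟩
  have h5 : (b ≫ P.abar) ≫ C.E.tp 4 _ = -P.β ≫ m' := by
    rw [Category.assoc, ← tp_comm, reassoc_of% h4, P.β_eq hm']
  have h6 : (a ≫ P.abar) ≫ C.E.tp 4 _ = P.β ≫ P.β ≫ m' := by
    rw [sub_eq_iff_eq_add.1 h3, Preadditive.add_comp, Preadditive.add_comp, Category.assoc a',
      ← C.E.tp_comm 4 P.abar, reassoc_of% h1, zero_comp, add_zero, Category.assoc _ P.atil, P.β_eq hm,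
      Preadditive.neg_comp, Category.assoc, h5, Preadditive.comp_neg, neg_neg]
  rw [Category.assoc, Category.assoc, h6]

/-- The second half. -/
theorem KZ.second (h : P.KZ) {m : C.o C.Γ ⟶ C.oM} (hm : C.E.Dg 282 6 m) (h0 : m ≫ P.e0 = 0) :
    ∃ a b, C.E.Dg 272 4 b ∧ m = a ≫ P.abar ∧ a ≫ P.jA = b ≫ P.abar := by
  obtain ⟨a, ha, rfl⟩ := P.of_abar (m := 279) (u := 5) hm h0 rfl rfl
  obtain ⟨u, y, hu, hy, e⟩ := h.l279 _ (ha.comp P.sE.dg₁ rfl rfl)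
  have h1 := ha.sub (hu.comp P.sZ.dg₂ rfl rfl)
  obtain ⟨b, hb, e'⟩ := P.of_abar (m := 272) (u := 4) (h1.comp P.sA.dg₂ rfl rfl) (by
    rw [Category.assoc, jA_e0, ← Category.assoc, Preadditive.sub_comp, e, Category.assoc u,
      add_sub_cancel_left, Category.assoc, tp_comm, ← Category.assoc]
    exact h.t275 _ (hy.comp (P.sZ.dg₂.comp P.sE.dg₁ rfl rfl) rfl rfl)) rfl rfl
  exact ⟨_, b, hb, by rw [Preadditive.sub_comp, Category.assoc, P.sZ.zero₂, comp_zero, sub_zero],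
    e'⟩

/-- Lemma K. -/
theorem KZ.tor (h : P.KZ) {ε : C.oM ⟶ C.oM} {Φ : P.oZ ⟶ C.oM}
    (h1 : ∀ a : C.o C.Γ ⟶ P.oA, P.β ≫ P.β ≫ P.β ≫ a ≫ P.abar ≫ C.E.tp 4 _ = a ≫ P.jA ≫ ε)
    (h2 : ∀ a : C.o C.Γ ⟶ P.oA, P.β ≫ a ≫ P.abar ≫ ε ≫ C.E.tp 4 _ = a ≫ P.ee ≫ Φ)
    (h3 : Kill Φ 272 4) : C.Tor C.oM 12 322 18 := fun x hx => by
  obtain ⟨m, hm, h0, e⟩ := h.first hx
  obtain ⟨a, b, hb, rfl, e'⟩ := h.second hm h0
  rw [C.E.tp_add 4 8, C.E.tp_add 4 4, reassoc_of% e, reassoc_of% h1, reassoc_of% e', h2,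
    ← Category.assoc]
  exact h3 _ (hb.comp P.sE.dg₁ rfl rfl)

end Cx.CY

end Vale.Agent.P236SY
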