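import Vale.Agent.P236SY.Zt
import Vale.Agent.P236SY.LemK

/-!
# P236: the inputs of Lemma K from facts about the cohomology
-/

open CategoryTheory MonoidalCategory Limits Pretriangulated MonObj

namespace Vale.Agent.P236SY

open GData Vale.Agent.P251 Vale.Agent.P251.T Vale.Agent.P251.S Vale.Agent.P251.H Vale.Agent.P251.M
  Vale.Agent.P251.F Vale.Agent.P251.I TD Vale.Agent.P236EL Vale.Agent.P236F Vale.Agent.P236R
  Vale.Agent.P236Z
open Vale.Agent.P251.St (SHCat)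

variable {T : SHCat} (t : Cob Laz 1) {C : Cx T}

/-- The projection to the top cell is injective. -/
def InjJ (w v : ℤ) (s : ℕ) : Prop := ∀ G ∈ ZY t w s, (fun _ => G 2) ∈ BS v s → G ∈ BY t w s

/-- The projection to the top cell vanishes. -/
def ZeroJ (w v : ℤ) (s : ℕ) : Prop := ∀ G ∈ ZY t w s, (fun _ => G 2) ∈ BS v s

/-- The operation `P` is injective. -/
def InjP (w v : ℤ) (s : ℕ) : Prop := ∀ G ∈ ZY t w s, ![G 1, G 2, 0] ∈ BY t v s → G ∈ BY t w s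

/-- The operation `P` is surjective. -/
def SurjP (w v : ℤ) (s : ℕ) : Prop :=
  ∀ G ∈ ZY t v s, ∃ F ∈ ZY t w s, G - ![F 1, F 2, 0] ∈ BY t v s

/-- The square of `P` vanishes. -/
def ZeroPP (w v : ℤ) (s : ℕ) : Prop := ∀ G ∈ ZY t w s, ![G 2, 0, 0] ∈ BY t v s

/-- The facts about the cohomology which are used in Lemma K. -/
structure KF : Prop where
  vh : VH t
  j302 : InjJ t 79 77 14
  j300 : ZeroJ t 77 75 8
  p292 : InjP t 76 75 12
  p290 : ZeroPP t 74 72 6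
  p282 : InjP t 73 72 10
  s279 : SurjP t 72 71 5
  b33 : ∃ c : Cob Laz 2, (fun _ => c) ∈ ZS 9 2 ∧
    (∀ G ∈ ZY t 71 5, lc _ (show 2 + 5 = 7 from rfl) c G ∈ BY t 80 7) ∧
    ∀ G ∈ ZY t 72 10, lc _ (show 2 + 10 = 12 from rfl) c G ∈ BY t 81 12 → G ∈ BY t 72 10

variable {t}

namespace Cx.CY

variable (P : C.CY t) (ht : IsT1 3 t) (h : KF t)
include ht h

theorem d279 (F : Fin 3 → Cob Laz 5) (G : Fin 3 → Cob Laz 10) (hd : P.DZ 3 5 10 71 72 F G) :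
    G ∈ BY t 72 10 := by
  obtain ⟨c, h1, h2, h3⟩ := h.b33
  have h4 := DZ.lc P ht hd h1 (h.vh _ _ (by decide)) (h.vh _ _ (by decide)) (h.vh _ _ (by decide))
    (r := 7) (r' := 12) (v := 80) (v' := 81) rfl rfl (by decide) rfl rfl
  rw [Even.neg_one_pow (by decide), one_smul] at h4
  exact h3 G hd.cy' (P.chY.cm.d5_by h4 (h2 F hd.cy))

theorem perm283 {F : Fin 3 → Cob Laz 5} (hF : F ∈ ZY t 72 5) :
    ∃ x, C.E.Rep 283 5 x (C.psi (mE P.eY) 5 F) := by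
  obtain ⟨G, hd⟩ := P.chY.cm.exists_d5 (s' := 10) (w' := 73) hF rfl rfl
  exact P.chY.cm.perm_of hd (h.p282 G hd.cy' (P.d279 ht h _ _ (P.dr_pp hd rfl rfl))) rfl
    ((P.z0_Z₀ ht h.vh (n := 282) (s := 14) (by decide)).kill _) rfl rfl

/-- The inputs of Lemma K. -/
theorem kz (t299 : C.Tor P.oZ 4 299 13) (t289 : C.Tor P.oZ 4 289 11) (t275 : C.Tor P.oZ 4 275 9) :
    P.KZ where
  z322 := P.z0_Z₀ ht h.vh (by decide)
  z319 := P.z0_Z₀ ht h.vh (by decide)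
  z312 := P.z0_Z₀ ht h.vh (by decide)
  z309 := P.z0_Z₀ ht h.vh (by decide)
  k302 x hx := by
    obtain ⟨y, hy, e⟩ := P.div_of_jy (s := 14) (w := 79) (hx.comp P.sZ.dg₁ rfl rfl) rfl
      (by rw [Category.assoc, ← iA_ee, Category.assoc, P.sE.zero₁, comp_zero, comp_zero]) rfl h.j302
    rw [e, P.z0_Z₀ ht h.vh (by decide) y hy, zero_comp]
  l299 z hz := P.tE.lift_tor (s := 8) (w := 77) P.chA.cm P.chY.cm
    (fun F => psi_wr (P.psi_i₂ F)) (fun G hG => P.ex_ee hG (h.j300 G hG) rfl) hz (t299 z hz) rfl rfl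
  k292 x hx := by
    obtain ⟨y, hy, e⟩ := P.div_of_pp (s := 12) (w := 76) (hx.comp P.sZ.dg₁ rfl rfl) rfl
      (by rw [Category.assoc, e0_pp, comp_zero]) rfl h.p292
    rw [e, P.z0_Z₀ ht h.vh (by decide) y hy, zero_comp]
  t289 := t289
  k282 m a hm ha e := by
    obtain ⟨F, hF, h1⟩ := cmS.exists_rep (s := 6) (w := 72) hm rfl
    have h2 := P.rep_atil h1 (l := 289) rfl
    rw [Int.negOnePow_even _ (by decide), one_smul, ← e, tp_succ, ← Category.assoc] at h2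
    obtain ⟨G, hG, h3⟩ := P.ex_jy (w := 74) hF (P.chA.cm.by_of_τ h2 (cw_at ht rfl F hF.1)
      (ha.comp (C.E.dg_tp 3 _) rfl rfl) rfl rfl rfl) rfl
    obtain ⟨z, hz, e'⟩ := P.chY.cm.div4 (w := 72) (P.rep_e0 (cmS.rep_congr (w := 72) h1
      (F' := fun _ => G 2) (by simpa using neg_mem h3) rfl)) (h.p290 G hG) rfl
    have h4 := hz.comp P.dg_pp rfl rfl
    obtain ⟨y, hy, e₁⟩ := P.chY.cm.div_of_tor (s := 5) (s' := 10) (w := 71) (w' := 72) h4
      (by rw [Category.assoc, ← tp_comm, ← reassoc_of% e', e0_pp, comp_zero]) rfl rfl rfl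
      (P.d279 ht h)
    rw [P.z0_Z₀ ht h.vh (by decide) y hy, zero_comp] at e₁
    obtain ⟨y, hy, e₂⟩ := P.div_of_pp (s := 10) (w := 73) hz rfl e₁ rfl h.p282
    rw [e', e₂, P.z0_Z₀ ht h.vh (by decide) y hy, zero_comp, zero_comp]
  l279 z hz := by
    obtain ⟨G, hG, h1⟩ := P.chY.cm.exists_rep (s := 5) (w := 71) hz rfl
    obtain ⟨F, hF, h2⟩ := h.s279 G hG
    obtain ⟨u, hu⟩ := P.perm283 ht h hF
    obtain ⟨y, hy, e⟩ := P.chY.cm.eq_add4 h1 (P.rep_pp hu rfl) h2 rfl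
    exact ⟨u, y, hu.dg, hy, e⟩
  t275 := t275

end Cx.CY

end Vale.Agent.P236SY
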