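import Vale.Agent.P236JG.Dat
import Vale.Agent.P236JT.Fa

/-!
# P236SY / KsB : checks for the stem 330 of `Y`
-/

namespace Vale.Agent.P236SY

open Vale.Agent.P236EL Vale.Agent.P236KE Vale.Agent.P236K3 Vale.Agent.P236F Vale.Agent.P236JX
  Vale.Agent.P236JT Vale.Agent.P236JG

/-- the terms of the generator of stem 330 -/
def l330L : List Tr := [⟨83, 0, 0, 0, 0, 1⟩, ⟨125, 1, 0, 0, 0, 1⟩, ⟨67, 0, 1, 1, 0, 2⟩,
  ⟨121, 0, 2, 0, 0, 2⟩, ⟨122, 1, 1, 0, 0, 2⟩]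

theorem e330 : (eY eJ).exCF 10 85 0 3 l330L = true := by
  decide +kernel

theorem h329 : (eY eJ).htAF 11 85 2 65 = true := by
  decide +kernel

end Vale.Agent.P236SY
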