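import Vale.Agent.P236SY.KsA
import Vale.Agent.P236SY.KsB
import Vale.Agent.P236JG.Base
import Vale.Agent.P236EL.Co

/-!
# P236SY / K322 : the kernel of `β ^ 2` on the stem 322
-/

noncomputable section

namespace Vale.Agent.P236SY

open Vale.Agent.P251.F Vale.Agent.P251.I Vale.Agent.P236R Vale.Agent.P236EL
open Vale.Agent.P236KE Vale.Agent.P236K3 Vale.Agent.P236F AddSubgroup Vale.Agent.P236KE.S90
open Vale.Agent.P236JG Vale.Agent.P236JT Vale.Agent.P236JX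

variable [hp : Fact (Nat.Prime 3)] {t : Cob Laz 1}

theorem spn_line {W : Type} {ix : W → ℕ} {l : List Tr} {u v : W → A} (hu : u ∈ spn ix [l])
    (hv : v ∈ spn ix [l]) (h : v ≠ 0) : ∃ a : ℤ, u = a • v := by
  have h3 : (3 : ℤ) • vL ix l = 0 := funext fun g => by
    rw [Pi.smul_apply, zsmul_eq_mul]
    exact mul_eq_zero_of_left (CharP.cast_eq_zero A 3) _
  rw [spn, spn, sup_bot_eq] at hu
  obtain ⟨a, rfl⟩ := hu
  obtain ⟨_, rfl, rfl | rfl | rfl⟩ := spn_cons hv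
  · exact (h rfl).elim
  · exact ⟨a, by rw [add_zero]⟩
  · refine ⟨-a, ?_⟩
    rw [add_zero, vL_twL, neg_smul, eq_neg_iff_add_eq_zero, ← smul_add, ← succ_nsmul',
      ← natCast_zsmul]
    exact (congrArg _ h3).trans (smul_zero _)

omit hp in
theorem top_ZC {w w' : ℤ} {s : ℕ} (e : w' + 2 = w) {x : Fin 3 → Cob Laz s} (hx : x ∈ ZY t w s) :
    (fun _ => x 2) ∈ ZS w' s := by
  have h1 := zm_mem_ZC (f := fun (c : Fin 3) (_ : Fin 1) => if c = 2 then 1 else 0) (θ' := 0)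
    (d' := fun _ => 0) (ω := -2) (fun c k => by fin_cases c <;> simp [θY])
    (fun c k => by fin_cases c <;> simp [dF]) hx
  rwa [← e, add_neg_cancel_right, show zm _ _ x = fun _ => x 2 from funext fun _ => by
    simp [zm_apply]] at h1

variable (h : HK) (ht : IsT1 3 t)

include h ht

theorem ker322 {F} (hF : F ∈ ZS 83 10) (h0 : lb t 12 (show 2 + 12 = 14 from rfl)
    (lb t 10 (show 2 + 10 = 12 from rfl) F) ∈ BS 89 14) : ∃ u ∈ spn (iS 10) [k322L],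
      RcJ jS 0 10 (83 : ℕ) (P236J3.mI [(0, 0)]) (P236J3.mI [(3, 3)]) F u := by
  have H := wxS h
  obtain ⟨u, hu, h1⟩ := (H.ajSkip _ _ (H.geF (grd_spec a322).1)
    (rep H (grd_spec a322).2)).all F hF
  exact ⟨u, (((lf_nm (H.cx.ok 10) 83 _ _).bm H ht rfl).bm H ht rfl).ker H .nil b322 h1
    (WxJ.spn_append hu) (mem_sup_right h0), h1⟩

theorem ex330 : ∃ z ∈ ZY t 85 10, lb t 10 (show 2 + 10 = 12 from rfl) z ∈ BY t 88 12 ∧
    (fun _ => z 2) ∉ BS 83 10 := by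
  have W := wnY h ht
  have H := wY ht 88 (by decide)
  obtain ⟨z, hz⟩ := W.ex (W.exCF e330) (W.hi (W.htAF h329)) (by decide)
  have h1 := H.nmE (P236JG.iT_eq 88 90 3) hz (by decide)
  exact ⟨z, hz.zc, H.memB (T := 88) (k := 3) (H.bm ht rfl h1) (H.top (by decide +kernel))
    (by decide +kernel), (wS 88 (by decide)).ne (T := 83) (k := 1) (CY.jy (by decide) h1)
      (.refl (by decide)) (by decide +kernel)⟩

omit ht in
theorem zero322 {x} (hx : RcJ jS 0 10 (83 : ℕ) (P236J3.mI [(0, 0)]) (P236J3.mI [(3, 3)]) x 0) :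
    x ∈ BS 83 10 :=
  have H := wxS h
  (lf_nm (H.cx.ok 10) 83 _ _).memB H (hv H d322) c322 hx (zero_mem _)

omit ht in
theorem line322 {F y u v} (hu : u ∈ spn (iS 10) [k322L]) (hv : v ∈ spn (iS 10) [k322L])
    (h1 : RcJ jS 0 10 (83 : ℕ) (P236J3.mI [(0, 0)]) (P236J3.mI [(3, 3)]) F u)
    (h2 : RcJ jS 0 10 (83 : ℕ) (P236J3.mI [(0, 0)]) (P236J3.mI [(3, 3)]) y v)
    (h3 : y ∉ BS 83 10) : ∃ a : ℤ, F - a • y ∈ BS 83 10 := by
  obtain ⟨a, h4⟩ := spn_line hu hv fun e => h3 (zero322 h (by rwa [e] at h2))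
  have h6 := h1.sub (h2.zsmul a)
  rw [h4, sub_self] at h6
  exact ⟨a, zero322 h h6⟩

/-- **the kernel of `β ^ 2` on the stem 322 comes from the top cell of `Y`** -/
theorem k322 : ∀ F ∈ ZS 83 10, lb t 12 (show 2 + 12 = 14 from rfl)
    (lb t 10 (show 2 + 10 = 12 from rfl) F) ∈ BS 89 14 →
      ∃ G ∈ ZY t 85 10, (F - fun _ => G 2) ∈ BS 83 10 := fun F hF h0 => by
  obtain ⟨z, hz, h2, h3⟩ := ex330 h ht
  obtain ⟨u, hu, h4⟩ := ker322 h ht hF h0
  have h7 : lb t 10 (show 2 + 10 = 12 from rfl) (fun _ => z 2) ∈ BS 86 12 :=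
    top_BQ (w' := 86) (w := 88) rfl h2
  obtain ⟨v, hv, h5⟩ := ker322 h ht (top_ZC (w' := 83) (w := 85) rfl hz)
    (lcB mc_zero _ (zs_bb ht) (w := 86) (w' := 89) rfl h7)
  obtain ⟨a, h6⟩ := line322 h hu hv h4 h5 h3
  exact ⟨a • z, zsmul_mem hz a, h6⟩

end Vale.Agent.P236SY

end
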