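import Vale.Agent.P236SY.Kd

/-!
# P236, synthetic calculus: the Leibniz rule for the differentials
-/

open CategoryTheory MonoidalCategory Limits Pretriangulated MonObj

namespace Vale.Agent.P236SY

open GData Vale.Agent.P251 Vale.Agent.P251.T Vale.Agent.P251.S Vale.Agent.P251.H Vale.Agent.P251.M
  Vale.Agent.P251.F Vale.Agent.P251.I TD
open Vale.Agent.P251.St (SHCat)

namespace TD

variable {O : Type*} {D : GData O} {E : TD D} {V W X Z : D.Cat} {s t l : ℕ} {a b n m q : ℤ}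

variable (E) in
/-- The cup product with a prescribed degree. -/
def cupE (h : s + t = l) (c : V ⟶ E.K.Q (s + 1) Z) (c' : Z ⟶ E.K.Q (t + 1) W) :
    V ⟶ E.K.Q (l + 1) W := h ▸ E.cup c c'

theorem cupE_rfl (c : V ⟶ E.K.Q (s + 1) Z) (c' : Z ⟶ E.K.Q (t + 1) W) :
    E.cupE rfl c c' = E.cup c c' := rfl

theorem Rep.compE (e' : s + t = l) {c : V ⟶ E.K.Q (s + 1) Z} {c' : Z ⟶ E.K.Q (t + 1) W}
    {x : E.so V ⟶ E.so Z} {y : E.so Z ⟶ E.so W} (h : E.Rep n s x c) (h' : E.Rep m t y c')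
    (e : n + m = q) : E.Rep q l (x ≫ y) ((s * m : ℤ).negOnePow • E.cupE e' c c') := by
  subst e'
  exact h.comp h' e

theorem cupE_assoc (h : s + t = l) (c : V ⟶ E.K.Q (s + 1) Z) (c' : Z ⟶ E.K.Q (t + 1) W)
    (e : W ⟶ E.K.M.obj X) :
    E.cup (t := 0) (E.cupE h c c') e = E.cupE h c (E.cup (t := 0) c' e) := by
  subst h
  exact E.cup_assoc c c' e

theorem cupE_act (h : s + t = l) (c : V ⟶ E.K.Q (s + 1) X) (e : X ⟶ E.K.M.obj Z)
    (c' : Z ⟶ E.K.Q (t + 1) W) : E.cupE h (E.cup (t := 0) c e) c' = E.cupE h c (E.act e c') := by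
  subst h
  exact E.cup_act c e c'

theorem cup_usmul (u : ℤˣ) (c : V ⟶ E.K.Q (s + 1) Z) (c' : Z ⟶ E.K.Q (t + 1) W) :
    E.cup (u • c) c' = u • E.cup c c' := Linear.units_smul_comp _ _ _

theorem cup_sub_left (c d : V ⟶ E.K.Q (s + 1) Z) (c' : Z ⟶ E.K.Q (t + 1) W) :
    E.cup (c - d) c' = E.cup c c' - E.cup d c' := Preadditive.sub_comp _ _ _

theorem cup_sub_right (c : V ⟶ E.K.Q (s + 1) Z) (c' d : Z ⟶ E.K.Q (t + 1) W) :
    E.cup c (c' - d) = E.cup c c' - E.cup c d := map_sub (E.cupH V Z W s t c) c' d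

theorem Cb.cup_zero {c : V ⟶ E.K.Q (s + 1) Z} (h : E.Cb a s c) {e : Z ⟶ E.K.M.obj W}
    (de : Deg b e) (he : e ≫ E.K.d 1 W = 0) (k : a + b = q) : E.Cb q s (E.cup (t := 0) c e) := by
  cases s with
  | zero => rw [show c = 0 from h]; exact zero_comp
  | succ s =>
    obtain ⟨u, du, rfl⟩ := h
    refine ⟨E.cup (t := 0) u e, E.deg_cup (t := 0) du de k, ?_⟩
    rw [cup_d_zero, he, ← cupH_apply _ _ 0, map_zero, smul_zero, add_zero]

theorem Cb.half (hV : Cpl V) {c : V ⟶ E.K.Q (s + 1) Z} (dc : Deg a c) (h : E.Cb a s (c + c)) :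
    E.Cb a s c := cb_of_seq hV (fun _ => c) (fun _ => dc) fun _ => by
  rw [show c - (3 : ℤ) • c = -(c + c) by abel]
  exact h.neg

theorem Ob.cob {c c' : V ⟶ E.K.Q (s + 1) Z} {y : E.so V ⟶ E.so Z} (h : E.Ob n s c y)
    (h' : E.Cb (-(n + s)) s (c' - c)) : E.Ob n s c' y := by
  simpa using h.add h'.rep.ob

theorem CF.Rg.ms_cyc {Φ : E.CF} (P : Φ.Rg) (π : ∀ X, Φ.obj X ⟶ E.K.M.obj X)
    (h0 : ∀ X, P.m X ≫ E.K.M.map (π X) ≫ E.K.mu X = π (E.K.M.obj X) ≫ E.K.mu X)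
    (hc : ∀ X, π X ≫ E.K.un _ = π X ≫ E.K.M.map (E.K.un X)) (t : ℕ) (X : D.Cat) :
    P.ms (t + 1) X ≫ E.K.Qm t (E.K.M.map (π X) ≫ E.K.mu X) = π (E.K.Q (t + 1) X) ≫ E.mo t X := by
  induction t generalizing X with
  | zero => exact (congrArg (· ≫ _) (Category.id_comp _)).trans (h0 X)
  | succ t ih =>
    have h1 : E.K.M.map (π (E.K.M.obj X)) ≫ E.K.M.map (E.K.mu X) =
        E.K.M.map (π (E.K.M.obj X)) ≫ E.K.mu _ := by
      have h2 := congrArg (fun z => E.K.M.map z ≫ E.K.mu _ ≫ E.K.M.map (E.K.mu X))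
        (hc (E.K.M.obj X))
      simp only [Functor.map_comp, Category.assoc] at h2
      rwa [E.K.right_unit_assoc, E.K.mu_nat_assoc, ← E.K.M.map_comp (E.K.un _),
        E.K.left_unit, CategoryTheory.Functor.map_id, Category.comp_id] at h2
    rw [CF.Rg.ms_succ, Category.assoc, ← E.K.Qm_comp, h0, E.K.Qm_succ, Functor.map_comp, h1]
    exact ih _

end TD

theorem Cpl.half {O : Type*} {D : GData O} {V : D.Cat} (hV : Cpl V) :
    ∃ h : V ⟶ V, Deg 0 h ∧ h + h = 𝟙 V := by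
  obtain ⟨b, db, hb⟩ := hV.ex (fun _ => -𝟙 V) fun _ => (deg_id V).neg
  have h1 := hV.uniq (fun i => b i - b (i + 1)) (fun i => (db _).sub (db _)) fun i => by
    rw [smul_sub, sub_eq_sub_iff_sub_eq_sub, hb, hb]
  refine ⟨b 0, db 0, neg_injective ?_⟩
  rw [← hb 0, ← sub_eq_zero.1 h1]
  abel

variable {T : SHCat}

namespace Cx

variable {C : Cx T} {A B P W X Y Z : T.C} {n m l q : ℤ}

theorem ka_nat [C.G.Tors B] {s t : ℤ} {κ : C.o P ⟶ C.o (𝟙_ T.C)} (hκ : C.E.Dg m t κ)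
    {x : C.o A ⟶ C.o B} (hx : C.E.Dg n s x) :
    C.U.sl P x ≫ C.ka B κ = (n * m).negOnePow • C.ka A κ ≫ x := by
  rw [ka, reassoc_of% C.inter hκ hx, Linear.units_smul_comp, Category.assoc, UF.sl_lam, ka,
    Category.assoc]

theorem swp_ka (κ : C.o P ⟶ C.o (𝟙_ T.C)) (A X : T.C) :
    C.E.ι (io (swp P A X)) ≫ C.U.sl A (C.ka X κ) = C.ka (A ⊗ X) κ := by
  have h := CF.S_nat₀ (Φ := C.U.cR (A ⊗ X)) (Ψ := (C.U.cR X).comp (C.U.cL A))
    (fun Y => io (swp Y.obj A X)) (fun f => swp_nat₁ f A X) (fun Y => by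
      change io _ ≫ wl _ (io _) = io _ ≫ wl _ (io _) ≫ io _
      rw [wl_io, wl_io, ← io_comp, ← io_comp, ← io_comp, swp_cyc]) κ
  rw [CF.comp_S] at h
  rw [ka, ka, UF.sl_comp, UF.sl_j, ← swp_unit, UF.j_comp]
  exact (Category.assoc _ _ _).symm.trans ((congrArg (· ≫ _) h.symm).trans (Category.assoc _ _ _))

namespace KD

variable {k : ℕ} (J : C.KD k)

/-- the projection as a cochain -/
noncomputable abbrev p (X : T.C) : ob (J.K ⊗ X) ⟶ C.Q 0 X := io (J.π ▷ X)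

/-- the boundary class -/
noncomputable def β (X : T.C) : C.o (J.K ⊗ X) ⟶ C.o X := C.E.ι (wr J.d X) ≫ C.ka X J.κ

theorem deg_d : Deg 1 J.d := J.dt.deg₃

theorem dg_ka (X : T.C) : C.E.Dg 0 (k + 2 : ℕ) (C.ka X J.κ) :=
  (UF.dg_sr X J.dgκ).comp (C.U.dg_j _) rfl (add_zero _)

theorem p_d (X : T.C) : J.p X ≫ C.E.K.d 1 (ob X) = 0 := (J.obp X).cyc

@[reassoc]
theorem in_p (X : T.C) : io (inL J.i X) ≫ J.p X = C.E.K.un (ob X) := by
  rw [← io_comp, inL, Category.assoc, ← comp_whiskerRight, J.iπ]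
  rfl

@[reassoc]
theorem in_d (X : T.C) : io (inL J.i X) ≫ wr J.d X = 0 := (dt_inL J.dt X).zero₂

theorem swp_mul (X : T.C) : io (swp C.D.R C.D.R X) ≫ C.E.K.mu (ob X) = C.E.K.mu (ob X) := by
  change io _ ≫ io (mulMap _ _) = io (mulMap _ _)
  rw [← io_comp, swp, mulMap, Category.assoc, Category.assoc, Iso.hom_inv_id_assoc,
    ← comp_whiskerRight, IsCommMonObj.mul_comm]

theorem cl_cup {t : ℕ} (c : ob Z ⟶ C.Q t W) :
    C.E.cup (t := 0) (C.cl J.K c) (J.p W) = C.E.act (J.p Z) c := by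
  have h := (C.U.rL J.K).ms_cyc (fun X => J.p X.obj) (fun X => by
    change io (swp _ _ _) ≫ wl _ (io _) ≫ _ = io _ ≫ _
    rw [← wr_io, ← swp_nat₁_assoc, swp_mul, wr_io]) (fun X => by
      have h := J.p_d X.obj
      rwa [d_one, Preadditive.comp_sub, sub_eq_zero] at h) t (ob W)
  rw [TD.cup_zero, cl, Category.assoc]
  exact (congrArg _ h).trans (wl_ex_assoc _ _ _)

theorem exists_mu (W : T.C) [C.G.Tors W] : ∃ u : ob (J.K ⊗ J.K ⊗ W) ⟶ ob (J.K ⊗ W), Deg 0 u ∧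
    io (inL J.i (J.K ⊗ W)) ≫ u = 𝟙 _ ∧ io (swp J.K J.K W) ≫ u = u := by
  obtain ⟨u, hu⟩ := (dt_inL J.dt (J.K ⊗ W)).yo (𝟙 _) (by rw [J.ghost, io_zero, zero_comp])
  obtain ⟨u, du, hu⟩ := (deg_id _).right (deg_io _) hu (add_zero 0)
  obtain ⟨v, hv⟩ := (dt_inL J.dt W).rot.yo (wl J.K (io (inL J.i W)) ≫ u - 𝟙 _) (by
    rw [Preadditive.comp_sub, inL_nat_assoc, ← hu, sub_self])
  obtain ⟨w, hw⟩ := (DT.wl J.P (dt_inL J.dt W)).yo v (by
    rw [← swp_outL, Category.assoc, ← outL_nat, J.ghost, io_zero, comp_zero, comp_zero])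
  rw [hw, wl_io J.P, wr_ex_assoc, ← wl_io, ← Category.assoc] at hv
  obtain ⟨w, dw, hv⟩ := (((Deg.wl _ (deg_io _)).comp du rfl).sub (deg_id _)).right
    ((Deg.wl _ (deg_io _)).comp (Deg.wr _ J.deg_d) rfl) hv (show _ + -1 = _ by norm_num)
  obtain ⟨h, dh, hh⟩ := (C.G.cpl (J.K ⊗ W)).half
  have d₁ := du.sub ((Deg.wr _ J.deg_d).comp dw rfl)
  refine ⟨(u - wr J.d _ ≫ w + io (swp J.K J.K W) ≫ (u - wr J.d _ ≫ w)) ≫ h,
    (d₁.add ((deg_io _).comp d₁ rfl)).comp dh rfl, ?_, ?_⟩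
  · rw [← Category.assoc, Preadditive.comp_add, inL_swp_assoc, Preadditive.comp_sub,
      Preadditive.comp_sub, ← hu, in_d_assoc, zero_comp, sub_zero, ← Category.assoc, ← hv,
      sub_sub_cancel, Preadditive.add_comp, Category.id_comp, hh]
  · rw [← Category.assoc, Preadditive.comp_add, io_swp_swp_assoc, add_comm]

/-- Symmetric cocycles which vanish on the unit act trivially. -/
theorem delta [C.G.Tors W] {V : Gr T.C} (hV : Cpl V) {j : ℕ} (hj : 1 ≤ j)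
    {u : C.E.so V ⟶ C.o (J.K ⊗ J.K ⊗ W)} {U : V ⟶ C.Q j (J.K ⊗ J.K ⊗ W)} (hu : C.E.Rep l j u U)
    {a : ℤ} {D : ob (J.K ⊗ J.K ⊗ W) ⟶ C.Q 0 Y} (dD : Deg a D) (hD : D ≫ C.E.K.d 1 _ = 0)
    (h1 : io (inL J.i (J.K ⊗ W)) ≫ D = 0) (h2 : io (swp J.K J.K W) ≫ D = D)
    (e : -(l + j) + a = q) : C.E.Cb q j (C.E.cup (t := 0) U D) := by
  have S₁ := (J.st (J.K ⊗ W)).stri
  have S₂ := ((J.st W).wl J.P).stri
  obtain ⟨D, dD₁, rfl⟩ := S₁.src_ex dD h1
  obtain ⟨D, dD₂, rfl⟩ := S₂.src_ex dD₁ ((J.st W).stri.src_inj (by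
    rw [wl_io, wr_ex_assoc, ← wl_io, ← inL_swp, Category.assoc, h2, h1]))
  have h4 : io (swp J.P J.P W) ≫ D = -D := by
    rw [eq_neg_iff_add_eq_zero]
    refine S₂.src_inj (S₁.src_inj ?_)
    have h5 := interchange (C := J.K ⊗ W) J.deg_d (Deg.wr W J.deg_d)
    rw [Preadditive.comp_add, Preadditive.comp_add, reassoc_of% h5, Linear.units_smul_comp,
      Category.assoc, swp_nat₁_assoc, swp_nat₂_assoc, h2, _root_.mul_one, Int.negOnePow_one,
      Units.neg_smul, one_smul, neg_add_cancel]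
  have dd := (Deg.wr (J.K ⊗ W) J.deg_d).comp (Deg.wl J.P (Deg.wr W J.deg_d)) rfl
  have hx := hu.comp_even (m := -2) (dd.cast (by simp)) (by decide) rfl
  have hx' := hx.comp_even (m := 0) (deg_io (swp J.P J.P W)) (by decide) (add_zero _)
  have h6 : C.E.ι (io (swp J.P J.P W)) ≫ C.ka (J.P ⊗ W) J.κ ≫ C.ka W J.κ =
      C.ka (J.P ⊗ W) J.κ ≫ C.ka W J.κ := by
    conv_lhs => rw [← swp_ka, ← Category.assoc, ← ι_comp_assoc, io_swp_swp, ι_id, Category.id_comp]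
    rw [ka_nat J.dgκ (J.dg_ka W), mul_zero, Int.negOnePow_zero, one_smul]
  have h7 := hx'.dg.sub hx.dg
  rw [sub_eq_zero.1 (J.inj h7 (by omega) (J.inj (h7.comp (J.dg_ka _) rfl rfl) (by omega) (by
    rw [Category.assoc, Preadditive.sub_comp, Category.assoc, h6, sub_self])))] at hx'
  have h8 : D ≫ C.E.K.d 1 _ = 0 := S₂.src_inj (s := 1) (S₁.src_inj (by
    simpa only [Category.assoc] using hD))
  have h9 := (hx.uniq hx').cup_zero dD₂ h8 (q := q) (by omega)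
  rw [cup_sub_left, ← C.E.cup_mid (t := 0) _ (io _), h4, ← TD.cupH_apply _ _ (-D), map_neg,
    TD.cupH_apply, sub_neg_eq_add, ← C.E.cup_mid (t := 0), Category.assoc] at h9
  exact h9.half hV (C.E.deg_cup (t := 0) hu.deg dD e)

/-- A cocycle which survives lifts to the quotient of the tower. -/
theorem lift [C.G.Tors Z] {V : Gr T.C} {s : ℕ} {a : V ⟶ C.Q s Z} {y : C.E.so V ⟶ C.o Z}
    (ha : C.E.Ob n s a (y ≫ C.E.tp k _)) (hy : C.E.Dg (n - 1) (s + (k + 2 : ℕ)) y) :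
    ∃ x A, C.E.Rep n s x A ∧ C.E.cup (t := 0) A (J.p Z) = a ∧ x ≫ J.β Z = y := by
  obtain ⟨y, dy, rfl⟩ := J.surj hy (Int.natCast_nonneg s) rfl
  obtain ⟨x, dx, rfl⟩ := (J.st Z).stri.co₃ dy (m := n) (by
    rw [tp_succ, ← Category.assoc, ← Category.assoc]
    exact ha.τ) (by ring)
  obtain ⟨A, hA⟩ := dx.exists_rep
  have h1 := (J.obp Z).pre (C.sym Z) hA (add_zero n)
  rw [mul_zero, Int.negOnePow_zero, one_smul] at h1
  simp only [Category.assoc] at ha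
  have h2 := ha.sub h1
  rw [sub_self] at h2
  obtain ⟨x', hx'⟩ := h2.rep
  refine ⟨_, _, hA.add (hx'.comp_even (m := 0) (deg_io (inL J.i Z)) (by decide) (add_zero n)),
    ?_, ?_⟩
  · rw [cup_add_left, ← C.E.cup_mid (t := 0), in_p, cup_un, add_sub_cancel]
  · rw [β, Preadditive.add_comp, Category.assoc, ← ι_comp_assoc, in_d, map_zero, zero_comp,
      comp_zero, add_zero, Category.assoc]

theorem univ [C.G.Tors W] {V : Gr T.C} (hV : Cpl V) {j : ℕ} (hj : 1 ≤ j)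
    {u : C.E.so V ⟶ C.o (J.K ⊗ J.K ⊗ W)} {U : V ⟶ C.Q j (J.K ⊗ J.K ⊗ W)} (hu : C.E.Rep l j u U)
    {c : V ⟶ C.Q (j + (k + 2)) (J.K ⊗ W)}
    (hc : C.E.Rep (l - 1) (j + (k + 2)) (u ≫ (J.β (J.K ⊗ W) + C.U.sl J.K (J.β W))) c) :
    ∃ z, C.E.Ob l j (C.E.cup (t := 0) (C.E.cup (t := 0) U (J.p _)) (J.p W)) (z ≫ C.E.tp k _) ∧
      C.E.Rep (l - 1) (j + (k + 2)) z (C.E.cup (t := 0) c (J.p W)) := by
  obtain ⟨μ₀, dμ, h1, h2⟩ := J.exists_mu W
  have hu' := hu.comp_even (m := 0) dμ (by decide) (add_zero l)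
  refine ⟨(u ≫ C.E.ι μ₀) ≫ J.β W, ?_, ?_⟩
  · have h3 := (J.obp W).pre (C.sym W) hu' (add_zero l)
    rw [mul_zero, Int.negOnePow_zero, one_smul, ← C.E.cup_mid (t := 0)] at h3
    rw [β, Category.assoc, Category.assoc _ (C.ka _ _)]
    refine h3.cob ?_
    rw [C.E.cup_act (t := 0), ← C.E.cup_sub_right (t := 0)]
    refine J.delta hV hj hu ((C.E.deg_act (t := 0) (deg_io _) (deg_io _) rfl).sub
      (dμ.comp (deg_io _) rfl)) ?_ ?_ ?_ (add_zero _)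
    · rw [Preadditive.sub_comp, act_d, Category.assoc, p_d, p_d, act_zero, comp_zero,
        ← TD.cupH_apply _ 0, map_zero, AddMonoidHom.zero_apply, add_zero, sub_self]
    · rw [Preadditive.comp_sub, reassoc_of% h1, TD.act, in_p_assoc, ← C.E.K.un_nat_assoc, un_mo,
        Category.comp_id, sub_self]
    · rw [Preadditive.comp_sub, reassoc_of% h2]
      congr 1
      change _ ≫ io _ ≫ wl _ (io _) ≫ C.E.K.mu _ = io _ ≫ wl _ (io _) ≫ C.E.K.mu _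
      rw [← wr_io, ← wr_io, ← swp_nat₂_assoc, ← swp_nat₁_assoc, swp_mul, wr_io (C.D.R ⊗ W) J.π,
        wl_ex_assoc, wr_io, wr_io]
  · obtain ⟨x, hx⟩ := (J.dg_ka W).exists_rep
    have hβ : C.E.Rep (-1) (k + 2) (J.β W) (wr J.d W ≫ x) :=
      hx.ι_comp (m := -1) (Deg.wr W (J.deg_d.cast (by simp))) rfl
    have h3 := J.delta (Y := J.P ⊗ W) hV hj hu (D := μ₀ ≫ wr J.d W ≫ C.E.K.un _ -
      (io (swp J.K J.K W) + 𝟙 _) ≫ wl J.K (wr J.d W) ≫ J.p _) (a := 1)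
      ((dμ.comp ((Deg.wr W J.deg_d).comp (C.E.deg_un _) rfl) rfl).sub
        (((deg_io _).add (deg_id _)).comp ((Deg.wl _ (Deg.wr W J.deg_d)).comp (deg_io _) rfl) rfl))
      (by
        simp only [Preadditive.sub_comp, Category.assoc]
        rw [p_d, show C.E.K.un _ ≫ C.E.K.d 1 _ = 0 from C.E.K.d_d 0 _]
        simp)
      (by rw [Preadditive.comp_sub, reassoc_of% h1, Preadditive.add_comp, Preadditive.comp_add,
        inL_swp_assoc, ← wl_comp_assoc, in_d, wl_zero, zero_comp, zero_add, Category.id_comp,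
        inL_nat_assoc, in_p, sub_self])
      (by rw [Preadditive.comp_sub, reassoc_of% h2, ← Category.assoc (io _), Preadditive.comp_add,
        io_swp_swp, Category.comp_id, add_comm]) (q := -(l - 1 + j)) (by ring)
    have h4 := h3.rep.comp hx (add_zero _)
    rw [zero_comp, mul_zero, Int.negOnePow_zero, one_smul, cup_act] at h4
    have h5 : C.E.act (μ₀ ≫ wr J.d W ≫ C.E.K.un _ -
        (io (swp J.K J.K W) + 𝟙 _) ≫ wl J.K (wr J.d W) ≫ J.p _) x = μ₀ ≫ wr J.d W ≫ x -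
        C.E.cup (t := 0) ((io (swp J.K J.K W) + 𝟙 _) ≫ C.cl J.K (wr J.d W ≫ x)) (J.p W) := by
      rw [C.E.comp_cup (t := 0), comp_cl, C.E.comp_cup (t := 0), cl_cup, TD.act, TD.act,
        Preadditive.sub_comp, Category.assoc, Category.assoc, Category.assoc, Category.assoc,
        ← C.E.K.un_nat_assoc, un_mo, Category.comp_id]
    have h6 : C.E.Rep (-1) (k + 2) (J.β (J.K ⊗ W) + C.U.sl J.K (J.β W))
        ((io (swp J.K J.K W) + 𝟙 _) ≫ C.cl J.K (wr J.d W ≫ x)) := by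
      have h7 := (rep_sl hβ J.K).ι_comp (m := 0) ((deg_io (swp J.K J.K W)).add (deg_id _)) rfl
      rwa [map_add, Preadditive.add_comp, ι_id, Category.id_comp, β, UF.sl_comp, UF.sl_ι,
        ← ι_comp_assoc, ← swp_nat₁, ι_comp_assoc, swp_ka, ← UF.sl_ι, ← UF.sl_comp] at h7
    have h7 := (hc.uniq (hu.comp h6 rfl)).cup_zero (deg_io (J.π ▷ W)) (J.p_d W) (add_zero _)
    refine (hu'.comp hβ rfl).cob ?_
    rw [h5, cup_sub_right, ← cup_assoc] at h4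
    rw [cup_sub_left, cup_usmul] at h7
    have h8 := h7.sub (h4.cb_of_zero.zsmul (j * -1 : ℤ).negOnePow)
    rwa [← Units.smul_def, smul_sub, sub_sub, add_sub_cancel, cup_mid] at h8

end KD

/-- The Leibniz rule for `d_r`, `r = k + 2`. -/
theorem leib [C.G.Tors Z] [C.G.Tors W] {V : Gr T.C} (hV : Cpl V) {k s t j s' t' j' : ℕ}
    (e₁ : s + t = j) (e₂ : s' + t = j') (e₃ : s + t' = j') (e₄ : s + (k + 2) = s') (hj : 1 ≤ j)
    {a : V ⟶ C.Q s Z} {b : ob Z ⟶ C.Q t W} {y : C.E.so V ⟶ C.o Z} {y' : C.o Z ⟶ C.o W}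
    {w : V ⟶ C.Q s' Z} {w' : ob Z ⟶ C.Q t' W} {n' m' l' : ℤ}
    (ha : C.E.Ob n s a (y ≫ C.E.tp k _)) (hw : C.E.Rep n' s' y w)
    (hb : C.E.Ob m t b (y' ≫ C.E.tp k _)) (hw' : C.E.Rep m' t' y' w') (hn : n - 1 = n')
    (hm : m - 1 = m') (hl : n + m = l) (hl' : l - 1 = l') :
    ∃ z, C.E.Ob l j (C.E.cupE e₁ a b) (z ≫ C.E.tp k _) ∧ C.E.Rep l' j' z
      ((m * (k + 1)).negOnePow • C.E.cupE e₂ w b + (s : ℤ).negOnePow • C.E.cupE e₃ a w') := by
  obtain rfl : t' = t + (k + 2) := by omega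
  obtain rfl : j' = j + (k + 2) := by omega
  subst e₁ e₄ hn hm hl'
  obtain ⟨J⟩ := C.exists_kd k
  obtain ⟨x, A, hA, rfl, rfl⟩ := J.lift ha (hw.dg.cast rfl (by push_cast; rfl))
  obtain ⟨x', B, hB, rfl, rfl⟩ := J.lift hb (hw'.dg.cast rfl (by push_cast; rfl))
  have h1 := (hw.compE e₂ hB (q := l - 1) (by omega)).usmul m.negOnePow
  have h2 := hA.compE e₃ (rep_sl hw' J.K) (q := l - 1) (by omega)
  have h3 : (x ≫ C.U.sl J.K x') ≫ (J.β (J.K ⊗ W) + C.U.sl J.K (J.β W)) =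
      m.negOnePow • (x ≫ J.β Z) ≫ x' + x ≫ C.U.sl J.K (x' ≫ J.β W) := by
    have h4 := UF.sl_wr J.deg_d hB.dg
    rw [Preadditive.comp_add, UF.sl_comp, KD.β, KD.β, Category.assoc, reassoc_of% h4,
      Linear.units_smul_comp, Category.assoc, ka_nat J.dgκ hB.dg, mul_zero, Int.negOnePow_zero,
      one_smul, _root_.mul_one, Linear.comp_units_smul]
    simp only [KD.β, Category.assoc]
  obtain ⟨z, h4, h5⟩ := J.univ hV hj (hA.comp (rep_sl hB J.K) hl) (h3 ▸ h1.add h2)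
  refine ⟨(s * m : ℤ).negOnePow • z, ?_, ?_⟩
  · have h6 := h4.usmul (s * m : ℤ).negOnePow
    rwa [cup_usmul, cup_usmul, smul_smul, Int.units_mul_self, one_smul, C.E.cup_assoc A, KD.cl_cup,
      ← cup_act, C.E.cup_assoc _ B, ← Linear.units_smul_comp] at h6
  · have h6 := h5.usmul (s * m : ℤ).negOnePow
    rw [cup_add_left, cup_usmul, cup_usmul, cup_usmul, cupE_assoc, cupE_assoc, KD.cl_cup,
      ← cupE_act, smul_add, smul_smul, smul_smul, smul_smul, ← Int.negOnePow_add,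
      ← Int.negOnePow_add, ← Int.negOnePow_add] at h6
    rwa [(Int.negOnePow_eq_iff (s * m + m + _) (m * (k + 1))).2 ⟨s * m + m, by push_cast; ring⟩,
      (Int.negOnePow_eq_iff (s * m + s * (m - 1)) s).2 ⟨s * m - s, by ring⟩] at h6

end Cx

end Vale.Agent.P236SY
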