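import Vale.Agent.P236R.D5

/-!
# P236, synthetic calculus: the exact sequences of `M`, `C α ⊗ M` and `Y ⊗ M`, and the step lemma
-/

open CategoryTheory MonoidalCategory Limits Pretriangulated MonObj

namespace Vale.Agent.P236SY

open GData Vale.Agent.P251 Vale.Agent.P251.T Vale.Agent.P251.S Vale.Agent.P251.H Vale.Agent.P251.M
  Vale.Agent.P251.F Vale.Agent.P251.I TD Vale.Agent.P236EL Vale.Agent.P236F Vale.Agent.P236R
  Vale.Agent.P236Z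
open Vale.Agent.P251.St (SHCat)

variable {T : SHCat} {t : Cob Laz 1}

namespace Cx

variable {C : Cx T} {J L : Type} [Fintype J] [Fintype L] {d : J → ℤ} {θ : J → J → Cob Laz 1}
  {a b r s : ℕ} {n m l w : ℤ} {W X Z : T.C} {U V V' : C.E.Syn}

/-- The map `f` kills the group of stem `n` and filtration `s`. -/
def Kill (f : U ⟶ V) (n s : ℤ) : Prop := ∀ x : C.o C.Γ ⟶ U, C.E.Dg n s x → x ≫ f = 0

variable (C U) in
/-- The group of stem `n` and filtration `s` is killed by `τ ^ k`. -/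
abbrev Tor (k : ℕ) (n s : ℤ) : Prop := Kill (C.E.tp k U) n s

/-- the classes which are killed by `f` -/
noncomputable def kr (f : U ⟶ V) : AddSubgroup (C.o C.Γ ⟶ U) := (Preadditive.rightComp _ f).ker

theorem mem_kr {f : U ⟶ V} {x : C.o C.Γ ⟶ U} : x ∈ kr f ↔ x ≫ f = 0 := Iff.rfl

theorem Z0.kill {s : ℤ} (h : C.Z0 U n s) (f : U ⟶ V) : Kill f n s := fun x hx => by
  rw [h x hx, zero_comp]

theorem tor_zero {s : ℤ} : C.Tor U 0 n s ↔ C.Z0 U n s := by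
  simp only [Kill, Z0, tp_zero, Category.comp_id]

theorem Kill.post {s : ℤ} {f : U ⟶ V} (h : Kill f n s) (g : V ⟶ V') : Kill (f ≫ g) n s :=
  fun x hx => by rw [← Category.assoc, h x hx, zero_comp]

theorem Kill.pre {s u v : ℤ} {f : V ⟶ V'} (h : Kill f l v) {g : U ⟶ V} (hg : C.E.Dg m u g)
    (e : n + m = l) (e' : s + u = v) : Kill (g ≫ f) n s :=
  fun x hx => by rw [← Category.assoc, h _ (hx.comp hg e e')]

theorem Tor.mono {s : ℤ} (h : C.Tor U a n s) (hab : a ≤ b) : C.Tor U b n s := by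
  obtain ⟨c, rfl⟩ := Nat.exists_eq_add_of_le hab
  rw [Tor, tp_add]
  exact h.post _

variable (e : J → (ob C.Γ ⟶ C.Q 0 W)) in
/-- the cochains which represent an element of `S` -/
noncomputable def cls (S : AddSubgroup (C.o C.Γ ⟶ C.o W)) (n : ℤ) (s : ℕ) :
    AddSubgroup (J → Cob Laz s) where
  carrier := {F | ∃ x ∈ S, C.E.Rep n s x (C.psi e s F)}
  zero_mem' := ⟨0, zero_mem _, by rw [map_zero]; exact rep_zero _ _⟩
  add_mem' := fun ⟨x, h1, h2⟩ ⟨y, h3, h4⟩ =>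
    ⟨x + y, add_mem h1 h3, by rw [map_add]; exact h2.add h4⟩
  neg_mem' := fun ⟨x, h1, h2⟩ => ⟨-x, neg_mem h1, by rw [map_neg]; exact h2.neg⟩

section cls

variable {e : J → (ob C.Γ ⟶ C.Q 0 W)} {S S' : AddSubgroup (C.o C.Γ ⟶ C.o W)}
  {F : J → Cob Laz s} {x : C.o C.Γ ⟶ C.o W}

theorem mem_cls : F ∈ cls e S n s ↔ ∃ x ∈ S, C.E.Rep n s x (C.psi e s F) := Iff.rfl

theorem mem_cls_top : F ∈ cls e ⊤ n s ↔ ∃ x, C.E.Rep n s x (C.psi e s F) := by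
  simp only [mem_cls, AddSubgroup.mem_top, true_and]

theorem mem_cls_kr {f : C.o W ⟶ V} (h : C.E.Rep n s x (C.psi e s F)) (h0 : x ≫ f = 0) :
    F ∈ cls e (kr f) n s := ⟨x, h0, h⟩

theorem cls_mono (h : S ≤ S') : cls e S n s ≤ cls e S' n s := fun _ ⟨x, h1, h2⟩ => ⟨x, h h1, h2⟩

namespace CM

variable (H : C.CM e d θ)
include H

theorem bq_le (hn : n + s = 4 * w) : BQ 3 θ d w 3 s ≤ cls e S n s := fun _ hF =>
  ⟨0, zero_mem _, (H.cb hF (by rw [hn])).rep⟩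

theorem sup_le (hn : n + s = 4 * w) {G : AddSubgroup (J → Cob Laz s)} (h : G ≤ cls e S n s) :
    G ⊔ BQ 3 θ d w 3 s ≤ cls e S n s := _root_.sup_le h (H.bq_le hn)

theorem zm_le (hn : n + s = 4 * w) (h : F ∈ cls e S n s) :
    AddSubgroup.zmultiples F ⊔ BQ 3 θ d w 3 s ≤ cls e S n s :=
  H.sup_le hn (AddSubgroup.zmultiples_le_of_mem h)

/-- The step lemma. -/
theorem step (hn : n + s = 4 * w)
    (h : ∀ F ∈ ZC 3 θ d w 3 s, F ∈ cls e ⊤ n s → F ∈ cls e S n s) (hx : C.E.Dg n s x) :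
    ∃ r ∈ S, ∃ y, C.E.Dg n s r ∧ C.E.Dg n (s + 4) y ∧ x = r + y ≫ C.E.tp 4 _ := by
  obtain ⟨F, hF, h1⟩ := H.exists_rep hx hn
  obtain ⟨r, hr, h2⟩ := h F hF ⟨x, trivial, h1⟩
  have h3 := h1.sub h2
  rw [sub_self, ← map_zero (C.psi e s)] at h3
  obtain ⟨y, hy, e⟩ := H.div4 h3 (zero_mem _) hn
  exact ⟨r, hr, y, h2.dg, hy, by rw [← e, add_sub_cancel]⟩

theorem step' (hn : n + s = 4 * w) (h : ZC 3 θ d w 3 s ≤ cls e S n s) (hx : C.E.Dg n s x) :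
    ∃ r ∈ S, ∃ y, C.E.Dg n s r ∧ C.E.Dg n (s + 4) y ∧ x = r + y ≫ C.E.tp 4 _ :=
  H.step hn (fun _ hF _ => h hF) hx

/-- All permanent cocycles are coboundaries. -/
theorem step₀ (hn : n + s = 4 * w)
    (h : ∀ F ∈ ZC 3 θ d w 3 s, F ∈ cls e ⊤ n s → F ∈ BQ 3 θ d w 3 s) (hx : C.E.Dg n s x) :
    ∃ y, C.E.Dg n (s + 4) y ∧ x = y ≫ C.E.tp 4 _ := by
  obtain ⟨F, hF, h1⟩ := H.exists_rep hx hn
  exact H.div4 h1 (h F hF ⟨x, trivial, h1⟩) hn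

theorem kill {f : C.o W ⟶ V} {u : ℤ} (hn : n + s = 4 * w)
    (h : ∀ F ∈ ZC 3 θ d w 3 s, F ∈ cls e ⊤ n s → F ∈ cls e (kr f) n s)
    (h' : Kill (C.E.tp 4 _ ≫ f) n u) (hu : u = s + 4) : Kill f n s := fun x hx => by
  obtain ⟨r, hr, y, -, hy, rfl⟩ := H.step hn h hx
  rw [Preadditive.add_comp, mem_kr.1 hr, Category.assoc, h' y (hu ▸ hy), add_zero]

theorem kill' {f : C.o W ⟶ V} {u : ℤ} (hn : n + s = 4 * w)
    (h : ZC 3 θ d w 3 s ≤ cls e (kr f) n s) (h' : Kill (C.E.tp 4 _ ≫ f) n u) (hu : u = s + 4) :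
    Kill f n s := H.kill hn (fun _ hF _ => h hF) h' hu

theorem tor {u : ℤ} (hn : n + s = 4 * w)
    (h : ∀ F ∈ ZC 3 θ d w 3 s, F ∈ cls e ⊤ n s → F ∈ cls e (kr (C.E.tp a _)) n s)
    (h' : C.Tor (C.o W) b n u) (hu : u = s + 4) (hb : b ≤ 4 + a) : C.Tor (C.o W) a n s :=
  H.kill hn h (C.E.tp_add 4 a _ ▸ h'.mono hb) hu

theorem z0 {u : ℤ} (hn : n + s = 4 * w)
    (h : ∀ F ∈ ZC 3 θ d w 3 s, F ∈ cls e ⊤ n s → F ∈ BQ 3 θ d w 3 s)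
    (h' : C.Tor (C.o W) 4 n u) (hu : u = s + 4) : C.Z0 (C.o W) n s :=
  tor_zero.1 (H.tor hn (fun F h1 h2 => H.bq_le hn (h F h1 h2)) h' hu le_rfl)

/-- A line whose generator has a lift in `S`. -/
theorem line (hn : n + s = 4 * w) (h : ∀ z ∈ ZC 3 θ d w 3 s, z ∉ BQ 3 θ d w 3 s →
      ZC 3 θ d w 3 s ≤ AddSubgroup.zmultiples z ⊔ BQ 3 θ d w 3 s) (h1 : F ∈ ZC 3 θ d w 3 s)
    (h2 : F ∉ BQ 3 θ d w 3 s) (h3 : F ∈ cls e S n s) : ZC 3 θ d w 3 s ≤ cls e S n s :=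
  (h F h1 h2).trans (H.zm_le hn h3)

/-- A line whose generator is not permanent. -/
theorem line_not (hn : n + s = 4 * w) (h : ∀ z ∈ ZC 3 θ d w 3 s, z ∉ BQ 3 θ d w 3 s →
      ZC 3 θ d w 3 s ≤ AddSubgroup.zmultiples z ⊔ BQ 3 θ d w 3 s) (h1 : F ∈ ZC 3 θ d w 3 s)
    (h3 : F ∉ cls e ⊤ n s) : ∀ G ∈ ZC 3 θ d w 3 s, G ∈ cls e ⊤ n s → G ∈ BQ 3 θ d w 3 s :=
  fun _ hG h4 => by_contra fun h5 => h3 (H.line hn h hG h5 h4 h1)

/-- Passage to the next filtration in which the cohomology can be nonzero. -/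
theorem up (hx : C.E.Dg n s x) (k : ℕ) (hk : k ≤ 3) (hn : n + s + k = 4 * w) :
    ∃ y, C.E.Dg n (s + k) y ∧ x = y ≫ C.E.tp k _ :=
  div_of_van k (fun r h1 h2 => H.sparse (by omega)) hx

theorem tp_three {u : ℤ} (hx : C.E.Dg n u x) (hn : n + u = 4 * w) (h : x ≫ C.E.tp 3 _ = 0) :
    x = 0 := by
  have h1 : ∀ k : ℕ, k < 3 → x ≫ C.E.tp (k + 1) _ = 0 → x ≫ C.E.tp k _ = 0 := fun k hk h => by
    have h2 := hx.comp (C.E.dg_tp k _) (add_zero _) rfl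
    rw [tp_succ, ← Category.assoc] at h
    rcases le_or_gt (u + -k) 1 with h3 | h3
    · exact h2.τ_inj h3 h
    · obtain ⟨r, hr⟩ : ∃ r : ℕ, u + -k = r + 2 := ⟨(u - k - 2).toNat, by omega⟩
      exact (H.sparse (n := n + 1) (s := r) (by omega)).τ_inj h2 h (by ring) hr
  simpa using h1 0 (by omega) (h1 1 (by omega) (h1 2 (by omega) h))

/-- A class which supports a differential is not permanent. -/
theorem not_perm {s' : ℕ} {w' : ℤ} {G : J → Cob Laz s'} (h : C.Dr d θ 3 s s' w w' e F G)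
    (hG : G ∉ BQ 3 θ d w' 3 s') (hn : n + s = 4 * w) : F ∉ cls e ⊤ n s :=
  fun ⟨_, _, hx⟩ => hG (H.d5_perm h hx hn)

omit H in
/-- The target of a differential is torsion. -/
theorem _root_.Vale.Agent.P236SY.Cx.Dr.mem_cls {s' : ℕ} {w' : ℤ} {G : J → Cob Laz s'}
    (h : C.Dr d θ a s' s w' w e G F) (hn : n + s = 4 * w) (hb : a + 1 ≤ b) :
    F ∈ cls e (kr (C.E.tp b _)) n s := by
  obtain ⟨y, h1, h2⟩ := h.tor hn
  obtain ⟨c, rfl⟩ := Nat.exists_eq_add_of_le hb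
  exact ⟨y, by rw [mem_kr, tp_add, reassoc_of% h2, zero_comp], h1⟩

end CM

end cls

section mat

variable {e : J → (ob C.Γ ⟶ C.Q 0 Z)} {e' : L → (ob C.Γ ⟶ C.Q 0 W)} {F : J → Cob Laz a}
  {x : C.o C.Γ ⟶ C.o (Z ⊗ C.M)}

theorem psi_cr {c : ob Z ⟶ C.Q b W} {A : J → L → Cob Laz b}
    (h : ∀ k, C.E.act (e k) c = C.psi e' b (A k)) (F : J → Cob Laz a) :
    C.E.cup (C.psi (mE e) a F) (C.cr C.M c) =
      C.psi (mE e') (a + b) fun k => ∑ j, Cob.cup (F j) (A j k) := by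
  rw [← psi_comp, ← cup_mid, red_cr, cup_comp, psi_cup e h, psi_comp]

theorem psi_wr {f : ob Z ⟶ ob W} {G : L → Cob Laz a}
    (h : C.psi e a F ≫ C.E.K.Qm (a + 1) f = C.psi e' a G) :
    C.psi (mE e) a F ≫ C.E.K.Qm (a + 1) (wr f C.M) = C.psi (mE e') a G := by
  rw [← psi_comp, ← red_M, h, psi_comp]

theorem rep_wr {f : ob Z ⟶ ob W} (hf : Deg (-m) f) (hm : Even m) {G : L → Cob Laz a}
    (h : C.psi e a F ≫ C.E.K.Qm (a + 1) f = C.psi e' a G)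
    (hx : C.E.Rep n a x (C.psi (mE e) a F)) (hl : n + m = l) :
    C.E.Rep l a (x ≫ C.E.ι (wr f C.M)) (C.psi (mE e') a G) :=
  psi_wr h ▸ hx.comp_even (Deg.wr _ hf) hm hl

theorem ob_wr {f : ob Z ⟶ ob W} (hf : Deg (-m) f) (hm : Even m) {G : L → Cob Laz a}
    (h : C.psi e a F ≫ C.E.K.Qm (a + 1) f = C.psi e' a G)
    (hx : C.E.Ob n a (C.psi (mE e) a F) x) (hl : n + m = l) :
    C.E.Ob l a (C.psi (mE e') a G) (x ≫ C.E.ι (wr f C.M)) := by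
  have h1 := hx.comp_ι (Deg.wr C.M hf) hl
  rwa [psi_wr h, Int.negOnePow_even _ (hm.mul_left _), one_smul] at h1

theorem rep_srM {y : C.o Z ⟶ C.o W} {c : ob Z ⟶ C.Q b W} (hy : C.E.Rep m b y c)
    {A : J → L → Cob Laz b} (h : ∀ k, C.E.act (e k) c = C.psi e' b (A k))
    (hx : C.E.Rep n a x (C.psi (mE e) a F)) (hl : n + m = l) :
    C.E.Rep l (a + b) ((a * m : ℤ).negOnePow • x ≫ C.U.sr C.M y)
      (C.psi (mE e') (a + b) fun k => ∑ j, Cob.cup (F j) (A j k)) := by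
  have h1 := (hx.comp (rep_sr hy C.M) hl).usmul (a * m : ℤ).negOnePow
  rwa [smul_smul, Int.units_mul_self, one_smul, psi_cr h] at h1

theorem ob_srM {y : C.o Z ⟶ C.o W} {c : ob Z ⟶ C.Q b W} (hy : C.E.Rep m b y c)
    {A : J → L → Cob Laz b} (h : ∀ k, C.E.act (e k) c = C.psi e' b (A k))
    (hx : C.E.Ob n a (C.psi (mE e) a F) x) (hl : n + m = l) :
    C.E.Ob l (a + b) (C.psi (mE e') (a + b) fun k => ∑ j, Cob.cup (F j) (A j k))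
      (((a + 1) * m : ℤ).negOnePow • x ≫ C.U.sr C.M y) :=
  psi_cr h F ▸ hx.post (rep_sr hy C.M) hl

end mat

variable (C) in
/-- the Moore spectrum -/
noncomputable abbrev oM : C.E.Syn := C.o (C.Γ ⊗ C.M)

namespace CY

variable (P : C.CY t)

/-- `C α ⊗ M` -/
noncomputable abbrev oA : C.E.Syn := C.o (P.A ⊗ C.M)

/-- `Y ⊗ M` -/
noncomputable abbrev oZ : C.E.Syn := C.o (P.Y ⊗ C.M)

/-- the bottom cell of `C α` -/
noncomputable abbrev iA : C.oM ⟶ P.oA := C.E.ι (wr P.i₁ C.M)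

/-- the top cell of `C α` -/
noncomputable abbrev jA : P.oA ⟶ C.oM := C.E.ι (wr P.p₁ C.M)

/-- the map `α` -/
noncomputable abbrev al : C.oM ⟶ C.oM := C.U.sr C.M P.α

/-- the inclusion of `C α` in `Y` -/
noncomputable abbrev ee : P.oA ⟶ P.oZ := C.E.ι (wr P.i₂ C.M)

/-- the top cell of `Y` -/
noncomputable abbrev jy : P.oZ ⟶ C.oM := C.E.ι (wr P.p₂ C.M)

/-- the coextension of `α` -/
noncomputable abbrev atil : C.oM ⟶ P.oA := C.U.sr C.M P.αt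

/-- the bottom cell of `Y` -/
noncomputable abbrev e0 : C.oM ⟶ P.oZ := C.E.ι (wr P.e₀ C.M)

/-- the quotient of `Y` by the bottom cell -/
noncomputable abbrev qq : P.oZ ⟶ P.oA := C.E.ι (wr P.q C.M)

/-- the extension of `α` -/
noncomputable abbrev abar : P.oA ⟶ C.oM := C.U.sr C.M P.αb

theorem sA : C.E.STri 0 (-4) 3 P.iA P.jA P.al := (P.st₁.wr C.M).stri

theorem sE : C.E.STri 0 (-8) 7 P.ee P.jy P.atil := (P.st₂.wr C.M).stri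

theorem sZ : C.E.STri 0 (-4) 3 P.e0 P.qq P.abar := (P.st₃.wr C.M).stri

@[reassoc] theorem iA_ee : P.iA ≫ P.ee = P.e0 := by rw [← ι_comp, ← wr_comp]

@[reassoc] theorem qq_jA : P.qq ≫ P.jA = P.jy := by rw [← ι_comp, ← wr_comp, P.q_p]

@[reassoc] theorem ee_qq : P.ee ≫ P.qq = P.jA ≫ P.iA := by
  rw [← ι_comp, ← wr_comp, P.i_q, wr_comp, ι_comp]

@[reassoc] theorem iA_abar : P.iA ≫ P.abar = P.al := by
  rw [iA, ← UF.sr_ι, ← UF.sr_comp, P.i_αb]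

@[reassoc] theorem atil_jA : P.atil ≫ P.jA = P.al := by
  rw [jA, ← UF.sr_ι, ← UF.sr_comp, P.αt_p]

theorem abar_iA : ∃ u : ℤˣ, P.abar ≫ P.iA = u • P.jA ≫ P.atil := by
  obtain ⟨u, hu⟩ := P.αb_i
  exact ⟨u, by rw [iA, jA, ← UF.sr_ι, ← UF.sr_ι, ← UF.sr_comp, ← UF.sr_comp, hu, Units.smul_def,
    map_zsmul, Units.smul_def]⟩

@[reassoc] theorem jA_e0 : P.jA ≫ P.e0 = P.ee ≫ P.qq ≫ P.ee := by rw [ee_qq_assoc, iA_ee]

theorem dg_β : C.E.Dg 10 2 P.β := P.rep_β.dg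

section elt

variable {s u : ℤ}

theorem β_act [C.G.Tors X] {y : C.o C.Γ ⟶ C.o X} (hy : C.E.Dg n s y) :
    y ≫ C.act X P.β = P.β ≫ y := by
  rw [comp_act P.dg_β hy, Int.negOnePow_even _ (Even.mul_left (by decide) _), one_smul]

theorem atil_abar : P.atil ≫ P.abar = -C.act _ P.β := by
  rw [← sr_act, act_Γ, β, map_neg, neg_neg, UF.sr_comp]

theorem β_eq {y : C.o C.Γ ⟶ C.oM} (hy : C.E.Dg n s y) : y ≫ P.atil ≫ P.abar = -P.β ≫ y := by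
  rw [atil_abar, Preadditive.comp_neg, P.β_act hy]

theorem α_eq {y : C.o C.Γ ⟶ C.oM} (hy : C.E.Dg n s y) :
    y ≫ P.al = (n * 3).negOnePow • P.α ≫ y := by
  rw [al, ← act_Γ (C := C) P.α, sr_act, comp_act P.rep_α.dg hy, act_Γ]

theorem of_iA {x : U ⟶ P.oA} (hx : C.E.Dg n s x) (h : x ≫ P.jA = 0) :
    ∃ y, C.E.Dg n s y ∧ x = y ≫ P.iA := P.sA.co₂ hx h (add_zero n)

theorem of_jA {x : U ⟶ C.oM} (hx : C.E.Dg n s x) (h : x ≫ P.al = 0) (hm : m = n + 4) :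
    ∃ y, C.E.Dg m s y ∧ x = y ≫ P.jA := P.sA.co₃ hx h (by omega)

theorem of_al {x : U ⟶ C.oM} (hx : C.E.Dg n s x) (h : x ≫ P.iA = 0) (hm : m + 3 = n)
    (hu : u + 1 = s) : ∃ y, C.E.Dg m u y ∧ x = y ≫ P.al := P.sA.co₁ hx h hm hu

theorem of_ee {x : U ⟶ P.oZ} (hx : C.E.Dg n s x) (h : x ≫ P.jy = 0) :
    ∃ y, C.E.Dg n s y ∧ x = y ≫ P.ee := P.sE.co₂ hx h (add_zero n)

theorem of_jy {x : U ⟶ C.oM} (hx : C.E.Dg n s x) (h : x ≫ P.atil = 0) (hm : m = n + 8) :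
    ∃ y, C.E.Dg m s y ∧ x = y ≫ P.jy := P.sE.co₃ hx h (by omega)

theorem of_atil {x : U ⟶ P.oA} (hx : C.E.Dg n s x) (h : x ≫ P.ee = 0) (hm : m + 7 = n)
    (hu : u + 1 = s) : ∃ y, C.E.Dg m u y ∧ x = y ≫ P.atil := P.sE.co₁ hx h hm hu

theorem of_e0 {x : U ⟶ P.oZ} (hx : C.E.Dg n s x) (h : x ≫ P.qq = 0) :
    ∃ y, C.E.Dg n s y ∧ x = y ≫ P.e0 := P.sZ.co₂ hx h (add_zero n)

theorem of_qq {x : U ⟶ P.oA} (hx : C.E.Dg n s x) (h : x ≫ P.abar = 0) (hm : m = n + 4) :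
    ∃ y, C.E.Dg m s y ∧ x = y ≫ P.qq := P.sZ.co₃ hx h (by omega)

theorem of_abar {x : U ⟶ C.oM} (hx : C.E.Dg n s x) (h : x ≫ P.e0 = 0) (hm : m + 3 = n)
    (hu : u + 1 = s) : ∃ y, C.E.Dg m u y ∧ x = y ≫ P.abar := P.sZ.co₁ hx h hm hu

/-- Division by `β`. -/
theorem β_div {x : C.o C.Γ ⟶ C.oM} (hx : C.E.Dg n s x) (h : x ≫ P.e0 = 0) {k v : ℤ}
    (h' : C.Z0 P.oZ k v) (hk : k + 3 = n) (hv : v + 1 = s) (hm : m + 10 = n) (hu : u + 2 = s) :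
    ∃ y, C.E.Dg m u y ∧ x = P.β ≫ y := by
  obtain ⟨a, ha, rfl⟩ := P.of_abar hx h hk hv
  obtain ⟨y, hy, rfl⟩ := P.of_atil (m := m) (u := u) ha
    (h' _ (ha.comp P.sE.dg₁ (add_zero _) (add_zero _))) (by omega) (by omega)
  exact ⟨-y, hy.neg, by rw [Category.assoc, P.β_eq hy, Preadditive.comp_neg]⟩

theorem β_surj {x : C.o C.Γ ⟶ C.oM} (hx : C.E.Dg n s x) (h : C.Z0 P.oZ n s) {k v : ℤ}
    (h' : C.Z0 P.oZ k v) (hk : k + 3 = n) (hv : v + 1 = s) (hm : m + 10 = n) (hu : u + 2 = s) :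
    ∃ y, C.E.Dg m u y ∧ x = P.β ≫ y :=
  P.β_div hx (h _ (hx.comp P.sZ.dg₁ (add_zero _) (add_zero _))) h' hk hv hm hu

/-- The kernel of `β`. -/
theorem β_ker {y : C.o C.Γ ⟶ C.oM} (hy : C.E.Dg n s y) (h : P.β ≫ y = 0) (hm : m = n + 11)
    (hu : u = s + 1) : ∃ z, C.E.Dg m u z ∧ y ≫ P.atil = z ≫ P.qq :=
  P.of_qq (hy.comp P.sE.dg₃ rfl hu.symm) (by rw [Category.assoc, P.β_eq hy, h, neg_zero])
    (by omega)

end elt

theorem psi_i₁' (F : Fin 1 → Cob Laz s) :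
    C.psi C.eS s F ≫ C.E.K.Qm (s + 1) P.i₁ = C.psi P.eA s ![F 0, 0] := by
  rw [P.psi_A, psi_un]
  simp [← TD.cupH_apply]

theorem psi_p₁ (F : Fin 2 → Cob Laz s) :
    C.psi P.eA s F ≫ C.E.K.Qm (s + 1) P.p₁ = C.psi C.eS s fun _ => F 1 := by
  rw [P.psi_p, psi_un]

theorem psi_i₂ (F : Fin 2 → Cob Laz s) :
    C.psi P.eA s F ≫ C.E.K.Qm (s + 1) P.i₂ = C.psi P.eY s ![F 0, F 1, 0] := by
  rw [psi_comp, psi_apply, psi_apply, Fin.sum_univ_two, Fin.sum_univ_three, ← P.eY_cast,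
    ← P.eY_cast]
  simp [← TD.cupH_apply]

theorem psi_q (F : Fin 3 → Cob Laz s) :
    C.psi P.eY s F ≫ C.E.K.Qm (s + 1) P.q = C.psi P.eA s ![F 1, F 2] := by
  rw [psi_comp, psi_apply, psi_apply, Fin.sum_univ_succ, Fin.sum_univ_two, Fin.sum_univ_two,
    P.eY_succ, P.eY_succ, eY_zero, Category.assoc, ← C.E.K.Qm_comp, (P.st₃.ses (ob C.Γ)).zero,
    C.E.K.Qm_zero', comp_zero, ← TD.cupH_apply _ _ 0, map_zero, zero_add]
  rfl

theorem psi_p₂ (F : Fin 3 → Cob Laz s) :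
    C.psi P.eY s F ≫ C.E.K.Qm (s + 1) P.p₂ = C.psi C.eS s fun _ => F 2 := by
  rw [← P.q_p, C.E.K.Qm_comp, ← Category.assoc, psi_q, psi_p₁]
  rfl

theorem psi_e₀' (F : Fin 1 → Cob Laz s) :
    C.psi C.eS s F ≫ C.E.K.Qm (s + 1) P.e₀ = C.psi P.eY s ![F 0, 0, 0] := by
  rw [C.E.K.Qm_comp, ← Category.assoc, psi_i₁', psi_i₂]
  rfl

section rep

variable {x : C.o C.Γ ⟶ C.oM} {y : C.o C.Γ ⟶ P.oA} {z : C.o C.Γ ⟶ P.oZ} {F : Fin 1 → Cob Laz s}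
  {G : Fin 2 → Cob Laz s} {K : Fin 3 → Cob Laz s}

theorem rep_iA (h : C.E.Rep n s x (C.psi (mE C.eS) s F)) :
    C.E.Rep n s (x ≫ P.iA) (C.psi (mE P.eA) s ![F 0, 0]) :=
  rep_wr (m := 0) P.st₁.deg₁ Even.zero (P.psi_i₁' F) h (add_zero n)

theorem rep_jA (h : C.E.Rep n s y (C.psi (mE P.eA) s G)) (hl : n - 4 = l) :
    C.E.Rep l s (y ≫ P.jA) (C.psi (mE C.eS) s fun _ => G 1) :=
  rep_wr (m := -4) P.st₁.deg₂ (by decide) (P.psi_p₁ G) h hl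

theorem rep_ee (h : C.E.Rep n s y (C.psi (mE P.eA) s G)) :
    C.E.Rep n s (y ≫ P.ee) (C.psi (mE P.eY) s ![G 0, G 1, 0]) :=
  rep_wr (m := 0) P.st₂.deg₁ Even.zero (P.psi_i₂ G) h (add_zero n)

theorem rep_jy (h : C.E.Rep n s z (C.psi (mE P.eY) s K)) (hl : n - 8 = l) :
    C.E.Rep l s (z ≫ P.jy) (C.psi (mE C.eS) s fun _ => K 2) :=
  rep_wr (m := -8) P.st₂.deg₂ (by decide) (P.psi_p₂ K) h hl

theorem rep_e0 (h : C.E.Rep n s x (C.psi (mE C.eS) s F)) :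
    C.E.Rep n s (x ≫ P.e0) (C.psi (mE P.eY) s ![F 0, 0, 0]) :=
  rep_wr (m := 0) P.st₃.deg₁ Even.zero (P.psi_e₀' F) h (add_zero n)

theorem rep_qq (h : C.E.Rep n s z (C.psi (mE P.eY) s K)) (hl : n - 4 = l) :
    C.E.Rep l s (z ≫ P.qq) (C.psi (mE P.eA) s ![K 1, K 2]) :=
  rep_wr (m := -4) P.st₃.deg₂ (by decide) (P.psi_q K) h hl

theorem act_eS {c : ob C.Γ ⟶ C.Q b W} (k : Fin 1) : C.E.act (C.eS k) c = c :=
  (congrArg (C.E.act · c) (Category.id_comp _).symm).trans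
    ((C.E.un_act _ _).trans (Category.id_comp _))

theorem rep_al (h : C.E.Rep n s x (C.psi (mE C.eS) s F)) (hl : n + 3 = l) :
    C.E.Rep l (s + 1) ((s * 3 : ℤ).negOnePow • x ≫ P.al)
      (C.psi (mE C.eS) (s + 1) fun _ => Cob.cup (F 0) (2 * t)) := by
  simpa only [Fin.sum_univ_one] using rep_srM (e' := C.eS) (A := fun _ _ => 2 * t) P.rep_α
    (fun k => (act_eS k).trans (psi_un fun _ => _).symm) h hl

theorem rep_atil (h : C.E.Rep n s x (C.psi (mE C.eS) s F)) (hl : n + 7 = l) :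
    C.E.Rep l (s + 1) ((s * 7 : ℤ).negOnePow • x ≫ P.atil)
      (C.psi (mE P.eA) (s + 1) fun k => Cob.cup (F 0) (![2 * t ^ 2, 2 * t] k)) := by
  simpa only [Fin.sum_univ_one] using rep_srM (A := fun _ => ![2 * t ^ 2, 2 * t]) P.rep_αt
    act_eS h hl

theorem rep_abar (h : C.E.Rep n s y (C.psi (mE P.eA) s G)) (hl : n + 3 = l) :
    C.E.Rep l (s + 1) ((s * 3 : ℤ).negOnePow • y ≫ P.abar) (C.psi (mE C.eS) (s + 1)
      fun _ => Cob.cup (G 0) (2 * t) + Cob.cup (G 1) (2 * t ^ 2)) := by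
  have h1 := rep_srM (e' := C.eS) (A := fun c _ => ![2 * t, 2 * t ^ 2] c) P.rep_αb
    (fun c => (P.act_xb c).trans (psi_un fun _ => _).symm) h hl
  simp only [Fin.sum_univ_two] at h1
  exact h1

end rep

end CY

end Cx

end Vale.Agent.P236SY
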