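import Vale.Agent.P236SY.Moore

/-!
# P236, synthetic calculus: maps between objects `X ⊗ M`

* `C.hat y : X ⊗ M ⟶ W ⊗ M`, the linear extension of `y : X ⟶ W ⊗ M`;
* `C.rm B θ : B ⟶ B ⊗ M`, the product with `θ ∈ π (M)`;
* `C.mact W θ : W ⊗ M ⟶ W ⊗ M`, the multiplication by `θ ∈ π (M)`.
-/

open CategoryTheory MonoidalCategory Limits Pretriangulated MonObj

namespace Vale.Agent.P236SY

open GData Vale.Agent.P251 Vale.Agent.P251.T Vale.Agent.P251.S Vale.Agent.P251.H Vale.Agent.P251.M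
  Vale.Agent.P251.F Vale.Agent.P251.I TD Vale.Agent.P236EL
open Vale.Agent.P251.St (SHCat)

variable {T : SHCat}

namespace Cx

variable (C : Cx T) {B V W X Y Z : T.C} {n m s t : ℤ}

/-- the reduction -/
noncomputable abbrev rd (X : T.C) : C.o X ⟶ C.o (X ⊗ C.M) := C.U.j (C.red X)

/-- the pinch map -/
noncomputable abbrev pc (X : T.C) : C.o (X ⊗ C.M) ⟶ C.o X := C.E.ι (C.dl X)

theorem dg_rd (X : T.C) : C.E.Dg 0 0 (C.rd X) := C.U.dg_j _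

theorem dg_pc (X : T.C) : C.E.Dg (-1) 0 (C.pc X) := dg_ι (C.deg_dl X)

@[reassoc (attr := simp)]
theorem rd_pc (X : T.C) : C.rd X ≫ C.pc X = 0 := by
  rw [rd, UF.j_eq, ← ι_comp, (C.dt_red X).zero₂, map_zero]

@[reassoc]
theorem rd_sr (y : C.o X ⟶ C.o Y) : C.rd X ≫ C.U.sr C.M y = y ≫ C.rd Y := by
  rw [rd, rd, red, red, UF.j_comp, UF.j_comp, Category.assoc, ← UF.sr_ex,
    ← cancel_epi (C.U.j (ρ_ X).hom), UF.j_hom_inv_assoc, ← UF.sr_rho_assoc, UF.j_hom_inv_assoc]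

theorem sr_pc {y : C.o X ⟶ C.o Y} (hy : C.E.Dg n s y) :
    C.U.sr C.M y ≫ C.pc Y = n.negOnePow • C.pc X ≫ y := by
  have h := UF.sr_wl (deg_sm 1 C.δ) hy
  rw [pc, pc, dl, dl, ι_comp, ι_comp, reassoc_of% h, _root_.mul_one, Linear.units_smul_comp,
    Category.assoc, Category.assoc, ← UF.j_eq, ← UF.j_eq, UF.sr_rho]

theorem three_syn {P : C.E.Syn} (y : P ⟶ C.o (X ⊗ C.M)) : (3 : ℤ) • y = 0 := by
  rw [← ι_three]
  exact (congrArg (y ≫ C.E.ι ·) (C.three_id X)).trans (by rw [map_zero, comp_zero])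

theorem three_src {P : C.E.Syn} (y : C.o (X ⊗ C.M) ⟶ P) : (3 : ℤ) • y = 0 := by
  rw [← Category.id_comp y, ← Preadditive.zsmul_comp, three_syn, zero_comp]

/-- The linear extension. -/
noncomputable def hat : (C.o X ⟶ C.o (W ⊗ C.M)) →+ (C.o (X ⊗ C.M) ⟶ C.o (W ⊗ C.M)) :=
  (Preadditive.rightComp _ (C.U.j (C.muZ W))).comp (C.U.sr C.M)

theorem hat_eq (y : C.o X ⟶ C.o (W ⊗ C.M)) : C.hat y = C.U.sr C.M y ≫ C.U.j (C.muZ W) := rfl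

/-- The product with a class on the Moore spectrum. -/
noncomputable def rm (B : T.C) [C.G.Tors B] :
    (C.o C.Γ ⟶ C.o (C.Γ ⊗ C.M)) →+ (C.o B ⟶ C.o (B ⊗ C.M)) :=
  (Preadditive.rightComp _ (C.U.j (β_ C.M B).hom)).comp
    ((C.lm B).comp (Preadditive.rightComp _ (C.la C.M)))

theorem rm_eq [C.G.Tors B] (θ : C.o C.Γ ⟶ C.o (C.Γ ⊗ C.M)) :
    C.rm B θ = C.lm B (θ ≫ C.la C.M) ≫ C.U.j (β_ C.M B).hom := rfl

/-- The multiplication by a class on the Moore spectrum. -/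
noncomputable def mact (W : T.C) [C.G.Tors W] :
    (C.o C.Γ ⟶ C.o (C.Γ ⊗ C.M)) →+ (C.o (W ⊗ C.M) ⟶ C.o (W ⊗ C.M)) := C.hat.comp (C.rm W)

theorem mact_eq [C.G.Tors W] (θ : C.o C.Γ ⟶ C.o (C.Γ ⊗ C.M)) :
    C.mact W θ = C.hat (C.rm W θ) := rfl

variable {C}

section hat

variable {y : C.o X ⟶ C.o (W ⊗ C.M)}

theorem dg_hat (h : C.E.Dg n s y) : C.E.Dg n s (C.hat y) :=
  (UF.dg_sr _ h).comp (C.U.dg_j _) (add_zero _) (add_zero _)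

@[reassoc (attr := simp)]
theorem rd_hat (y : C.o X ⟶ C.o (W ⊗ C.M)) : C.rd X ≫ C.hat y = y := by
  rw [hat_eq, rd_sr_assoc, ← UF.j_comp, red_muZ, UF.j_id, Category.comp_id]

theorem hat_rd (x : C.o X ⟶ C.o W) : C.hat (x ≫ C.rd W) = C.U.sr C.M x := by
  rw [hat_eq, UF.sr_comp, UF.sr_j, Category.assoc, ← UF.j_comp, wr_red_muZ, UF.j_id,
    Category.comp_id]

@[reassoc]
theorem sr_hat (x : C.o V ⟶ C.o X) (y : C.o X ⟶ C.o (W ⊗ C.M)) :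
    C.U.sr C.M x ≫ C.hat y = C.hat (x ≫ y) := by
  rw [hat_eq, hat_eq, UF.sr_comp, Category.assoc]

@[reassoc]
theorem sr_muZ (x : C.o X ⟶ C.o W) :
    C.U.sr C.M (C.U.sr C.M x) ≫ C.U.j (C.muZ W) = C.U.j (C.muZ X) ≫ C.U.sr C.M x := by
  rw [muZ, muZ, UF.j_comp, UF.j_comp, UF.sr_α_assoc, UF.sr_ex, Category.assoc]

@[reassoc]
theorem hat_sr (y : C.o X ⟶ C.o (W ⊗ C.M)) (x : C.o W ⟶ C.o V) :
    C.hat y ≫ C.U.sr C.M x = C.hat (y ≫ C.U.sr C.M x) := by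
  rw [hat_eq, hat_eq, UF.sr_comp, Category.assoc, Category.assoc, sr_muZ]

theorem hat_tp (k : ℕ) (y : C.o X ⟶ C.o (W ⊗ C.M)) :
    C.hat (y ≫ C.E.tp k _) = C.hat y ≫ C.E.tp k _ := by
  rw [← tp_comm, ← sr_hat, UF.sr_tp, tp_comm]

theorem rep_hat {s : ℕ} {c : ob X ⟶ C.Q s (W ⊗ C.M)} (h : C.E.Rep n s y c) :
    C.E.Rep n s (C.hat y) (C.cr C.M c ≫ C.E.K.Qm (s + 1) (io (C.muZ W))) := by
  have h1 := (rep_sr h C.M).comp_ι (m := 0) (deg_io (C.muZ W)) (add_zero n)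
  rwa [mul_zero, Int.negOnePow_zero, one_smul] at h1

theorem rep_hat_red {s : ℕ} {c : ob X ⟶ C.Q s W}
    (h : C.E.Rep n s y (c ≫ C.E.K.Qm (s + 1) (io (C.red W)))) :
    C.E.Rep n s (C.hat y) (C.cr C.M c) := by
  have h1 := rep_hat h
  rwa [cr_comp, Category.assoc, ← C.E.K.Qm_comp, wr_io, ← io_comp, wr_red_muZ, io_id, C.E.K.Qm_id,
    Category.comp_id] at h1

theorem rep_hat_φ {s : ℕ} {z : Cob Laz s} {y : C.o X ⟶ C.o (X ⊗ C.M)}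
    (h : C.E.Rep n s y (C.φ X s z ≫ C.E.K.Qm (s + 1) (io (C.red X)))) :
    C.E.Rep n s (C.hat y) (C.φ (X ⊗ C.M) s z) := cr_φ z ▸ rep_hat_red h

/-- Exactness in the source. -/
theorem of_rd {x : C.o (X ⊗ C.M) ⟶ C.o (W ⊗ C.M)} (hx : C.E.Dg n s x) (h : C.rd X ≫ x = 0)
    (hm : m - 1 = n) : ∃ y, C.E.Dg m s y ∧ x = C.pc X ≫ y := by
  rcases le_or_gt s 0 with hs | hs
  · obtain ⟨x, dx, rfl⟩ := hx.exists 0 (by omega)
    rw [rd, UF.j_eq, ι_cl, C.E.cl_eq_zero_neg hs] at h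
    obtain ⟨y, dy, rfl⟩ := C.of_red dx h
    exact ⟨C.E.cl (s := 0) s (by omega) y, dg_cl _ _ (dy.cast (by omega)), (C.E.ι_cl _ _ _ _).symm⟩
  · obtain ⟨r, rfl⟩ : ∃ r : ℕ, s = r + 1 := ⟨(s - 1).toNat, by omega⟩
    obtain ⟨x, dx, rfl⟩ := hx.exists (r + 1) (by omega)
    rw [rd, UF.j_eq, ι_cl, C.E.cl_eq_zero_oc rfl, Category.assoc] at h
    obtain ⟨y, dy, hy⟩ := C.of_red (dx.comp (C.E.deg_oc _ _) (add_zero _)) h
    obtain ⟨w, hw⟩ := (C.dt_red X).rot'.yo (y ≫ C.E.K.un _)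
      (by rw [← reassoc_of% hy, oc_un, comp_zero])
    obtain ⟨c, rfl⟩ := exists_q r _ w
    rw [Preadditive.zsmul_comp, Category.id_comp, ← Preadditive.zsmul_comp, three_Q,
      zero_comp] at hw
    obtain ⟨y', hy'⟩ := C.E.exists_oc y hw
    obtain ⟨y', dy', rfl⟩ := dy.left (C.E.deg_oc _ _) hy' (show -m + 0 = _ by omega)
    exact ⟨C.E.cl (s := r + 1) _ (by omega) y', dg_cl _ _ dy', by
      rw [pc, ι_cl]
      exact cl_eq_of_oc _ (by rw [hy, Category.assoc])⟩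

/-- A map `X ⊗ M ⟶ W ⊗ M` is linear up to a map on the top cell. -/
theorem eq_hat {x : C.o (X ⊗ C.M) ⟶ C.o (W ⊗ C.M)} (hx : C.E.Dg n s x) (hm : m - 1 = n) :
    ∃ y, C.E.Dg m s y ∧ x = C.hat (C.rd X ≫ x) + C.pc X ≫ y := by
  obtain ⟨y, hy, e⟩ := of_rd (hx.sub (dg_hat ((C.dg_rd X).comp hx (zero_add _) (zero_add _))))
    (by rw [Preadditive.comp_sub, rd_hat, sub_self]) hm
  exact ⟨y, hy, by rw [← e, add_sub_cancel]⟩

end hat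

section rm

variable [C.G.Tors B] {θ v : C.o C.Γ ⟶ C.o (C.Γ ⊗ C.M)}

theorem dg_rm (h : C.E.Dg n s θ) : C.E.Dg n s (C.rm B θ) :=
  (dg_lm (h.comp (C.U.dg_j _) (add_zero _) (add_zero _))).comp (C.U.dg_j _) (add_zero _) (add_zero _)

@[simp] theorem rm_Γ (θ : C.o C.Γ ⟶ C.o (C.Γ ⊗ C.M)) : C.rm C.Γ θ = θ := by
  refine dg_ind θ (map_zero _) (fun n s θ h => ?_) (fun a b ha hb => by rw [map_add, ha, hb])
  have h1 := lm_β (h.comp (C.U.dg_j (C.G.lam C.M)) rfl rfl) (dg_id (C.o C.Γ))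
  rwa [zero_mul, Int.negOnePow_zero, one_smul, Category.id_comp, lm_id, Category.assoc, la_li,
    Category.comp_id] at h1

theorem rm_nat [C.G.Tors Y] (h : C.E.Dg n s θ) {y : C.o B ⟶ C.o Y} (hy : C.E.Dg m t y) :
    y ≫ C.rm Y θ = (m * n).negOnePow • C.rm B θ ≫ C.U.sr C.M y := by
  rw [rm_eq, reassoc_of% lm_nat (h.comp (C.U.dg_j (C.G.lam C.M)) (add_zero n) rfl) hy,
    Linear.units_smul_comp, Category.assoc, UF.sl_β, rm_eq, Category.assoc]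

theorem comp_rm (h : C.E.Dg n s θ) {y : C.o C.Γ ⟶ C.o B} (hy : C.E.Dg m t y) :
    y ≫ C.rm B θ = (m * n).negOnePow • θ ≫ C.U.sr C.M y := by
  rw [rm_nat h hy, rm_Γ]

@[reassoc]
theorem j_rm [C.G.Tors Y] (θ : C.o C.Γ ⟶ C.o (C.Γ ⊗ C.M)) (f : B ⟶ Y) :
    C.U.j f ≫ C.rm Y θ = C.rm B θ ≫ C.U.j (f ▷ C.M) := by
  rw [rm_eq, lm_j_assoc, rm_eq, Category.assoc, ← UF.j_comp, ← UF.j_comp,
    BraidedCategory.braiding_naturality_right]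

theorem rm_comp (a : C.o C.Γ ⟶ C.o C.Γ) (θ : C.o C.Γ ⟶ C.o (C.Γ ⊗ C.M)) :
    C.rm B (a ≫ θ) = C.act B a ≫ C.rm B θ := by
  rw [rm_eq, Category.assoc, comp_lm, Category.assoc, rm_eq]

omit [C.G.Tors B] in
theorem lam_red : C.G.lam B ≫ C.red B = (C.red C.Γ ≫ C.G.lam C.M) ▷ B ≫ (β_ C.M B).hom := by
  have h : C.red C.Γ ≫ C.G.lam C.M = C.G.j ≫ C.i := by
    rw [red, Gam.lam, Category.assoc, whisker_exchange_assoc, ← rightUnitor_inv_naturality_assoc,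
      leftUnitor_naturality, unitors_equal, Iso.inv_hom_id_assoc]
  rw [h, comp_whiskerRight, Category.assoc, BraidedCategory.braiding_naturality_left,
    braiding_tensorUnit_left, Gam.lam, red, Category.assoc, Category.assoc]

theorem rm_rd : C.rm B (C.rd C.Γ) = C.rd B := by
  rw [rm_eq, lm_eq, ← UF.j_comp, UF.sr_j, Category.assoc, ← UF.j_comp, ← lam_red, UF.j_comp,
    li_la_assoc]

theorem rm_tp (k : ℕ) (θ : C.o C.Γ ⟶ C.o (C.Γ ⊗ C.M)) :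
    C.rm B (θ ≫ C.E.tp k _) = C.rm B θ ≫ C.E.tp k _ := by
  rw [← tp_comm, rm_comp, act_tp, tp_comm]

theorem rm_pc (θ : C.o C.Γ ⟶ C.o (C.Γ ⊗ C.M)) : C.rm B θ ≫ C.pc B = C.act B (θ ≫ C.pc C.Γ) := by
  have h1 : C.dl C.Γ ≫ io C.G.j = io (C.G.lam C.M) ≫ sm 1 C.δ := by
    rw [← wr_dl, Gam.lam, io_comp, Category.assoc, dl, ← unitors_equal, wl_lam]
  have h : wr (io (C.G.lam C.M)) B ≫ io (β_ C.M B).hom ≫ C.dl B =
      wr (C.dl C.Γ) B ≫ io (C.G.lam B) := by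
    rw [dl, ← wr_β_assoc, ← io_comp, braiding_rightUnitor, ← wr_comp_assoc, ← h1, wr_comp_assoc,
      wr_io, ← io_comp, Gam.lam]
  rw [rm_eq, act_eq, lm_comp, lm_comp, Category.assoc, Category.assoc, Category.assoc, la, la,
    UF.j_eq, UF.j_eq, UF.j_eq, UF.sr_ι, UF.sr_ι, ← ι_comp, ← ι_comp, ← ι_comp, h]

theorem rep_rm {s : ℕ} {z : Cob Laz s}
    (h : C.E.Rep n s θ (C.φ C.Γ s z ≫ C.E.K.Qm (s + 1) (io (C.red C.Γ)))) :
    C.E.Rep n s (C.rm B θ) (C.φ B s z ≫ C.E.K.Qm (s + 1) (io (C.red B))) := by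
  have h1 := (rep_lm (B := B) (h.comp_ι (m := 0) (deg_io (C.G.lam C.M)) (add_zero n))).comp_ι
    (m := 0) (deg_io (β_ C.M B).hom) (add_zero n)
  rwa [mul_zero, Int.negOnePow_zero, one_smul, one_smul, Category.assoc, Category.assoc,
    ← C.E.K.Qm_comp, cr_comp, cr_φ, Category.assoc, ← C.E.K.Qm_comp, ← io_comp, wr_io, ← io_comp,
    ← lam_red, io_comp, C.E.K.Qm_comp, Φ_nat_assoc, ← io_comp_assoc, IsIso.inv_hom_id, io_id,
    Category.id_comp] at h1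

theorem mact_eq' (θ : C.o C.Γ ⟶ C.o (C.Γ ⊗ C.M)) :
    C.mact B θ = C.rm (B ⊗ C.M) θ ≫ C.U.j (C.muZ B) := by
  rw [mact_eq, hat_eq, rm_eq, rm_eq, UF.sr_comp, ← sr_lm, UF.sr_j, Category.assoc, Category.assoc,
    Category.assoc, ← UF.j_comp, ← UF.j_comp, ← UF.j_comp, muZ,
    BraidedCategory.braiding_tensor_right_hom]
  simp only [Category.assoc, Iso.hom_inv_id_assoc, Iso.inv_hom_id_assoc]
  rw [← MonoidalCategory.whiskerLeft_comp, β_mu]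

theorem dg_mact (h : C.E.Dg n s θ) : C.E.Dg n s (C.mact B θ) := dg_hat (dg_rm h)

@[reassoc (attr := simp)]
theorem rd_mact (θ : C.o C.Γ ⟶ C.o (C.Γ ⊗ C.M)) : C.rd B ≫ C.mact B θ = C.rm B θ := rd_hat _

theorem mact_Γ (θ : C.o C.Γ ⟶ C.o (C.Γ ⊗ C.M)) : C.mact C.Γ θ = C.hat θ := by rw [mact_eq, rm_Γ]

theorem mact_comp (a : C.o C.Γ ⟶ C.o C.Γ) (θ : C.o C.Γ ⟶ C.o (C.Γ ⊗ C.M)) :
    C.mact B (a ≫ θ) = C.act (B ⊗ C.M) a ≫ C.mact B θ := by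
  rw [mact_eq, rm_comp, ← sr_hat, sr_act, mact_eq]

theorem mact_rd : C.mact B (C.rd C.Γ) = 𝟙 _ := by
  rw [mact_eq, rm_rd, ← Category.id_comp (C.rd B), hat_rd, UF.sr_id]

theorem mact_tp (k : ℕ) (θ : C.o C.Γ ⟶ C.o (C.Γ ⊗ C.M)) :
    C.mact B (θ ≫ C.E.tp k _) = C.mact B θ ≫ C.E.tp k _ := by
  rw [mact_eq, rm_tp, hat_tp, mact_eq]

theorem rep_mact {s : ℕ} {z : Cob Laz s}
    (h : C.E.Rep n s θ (C.φ C.Γ s z ≫ C.E.K.Qm (s + 1) (io (C.red C.Γ)))) :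
    C.E.Rep n s (C.mact B θ) (C.φ (B ⊗ C.M) s z) := rep_hat_φ (rep_rm h)

theorem sr_mact [C.G.Tors Y] (h : C.E.Dg n s θ) {y : C.o B ⟶ C.o Y} (hy : C.E.Dg m t y) :
    C.U.sr C.M y ≫ C.mact Y θ = (m * n).negOnePow • C.mact B θ ≫ C.U.sr C.M y := by
  rw [mact_eq, mact_eq, sr_hat, hat_sr, rm_nat h hy, Units.smul_def, map_zsmul, Units.smul_def]

/-- Commutativity of the product. -/
theorem comp_mact (h : C.E.Dg n s θ) {y : C.o C.Γ ⟶ C.o (B ⊗ C.M)} (hy : C.E.Dg m t y) :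
    y ≫ C.mact B θ = (m * n).negOnePow • θ ≫ C.hat y := by
  rw [mact_eq', reassoc_of% comp_rm h hy, Linear.units_smul_comp, Category.assoc, hat_eq]

omit [C.G.Tors B] in
theorem comp_hat_comm (h : C.E.Dg n s θ) (hv : C.E.Dg m t v) :
    v ≫ C.hat θ = (m * n).negOnePow • θ ≫ C.hat v := by
  rw [← comp_mact h hv, mact_Γ]

end rm

variable (C) in
/-- The associator. -/
theorem exists_assoc' : ∃ a : C.o C.Γ ⟶ C.o (C.Γ ⊗ C.M), C.E.Dg 3 0 a ∧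
    ∀ (W : T.C) [C.G.Tors W], C.U.j (C.muZ W ▷ C.M ≫ C.muZ W) =
      C.U.j (C.muZ (W ⊗ C.M) ≫ C.muZ W) + C.pc _ ≫ C.pc _ ≫ C.pc W ≫ C.rm W a := by
  obtain ⟨u, du, h⟩ := C.exists_assoc
  refine ⟨C.E.ι (io C.G.j ≫ u) ≫ C.li C.M, (dg_ι ((deg_io _).comp du (zero_add _))).comp
    (C.U.dg_j _) rfl rfl, fun W _ => ?_⟩
  have h1 : C.rm W (C.E.ι (io C.G.j ≫ u) ≫ C.li C.M) = C.E.ι (io (ρ_ W).inv ≫ wl W u) := by
    rw [rm_eq, Category.assoc, li_la, Category.comp_id, lm_eq, UF.sr_ι, Category.assoc,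
      ← cancel_epi (C.la W), la_li_assoc, la, UF.j_eq, UF.j_eq, ← ι_comp, ← ι_comp, wr_comp,
      Category.assoc, wr_β, braiding_tensorUnit_left, Gam.lam, wr_io, io_comp, io_comp,
      Category.assoc, Category.assoc]
  rw [h1, UF.j_eq, h, map_add, ι_comp, ι_comp, ι_comp, UF.j_eq]

/-- Linear extensions commute with the multiplication up to the associator. -/
theorem hat_mact {a : C.o C.Γ ⟶ C.o (C.Γ ⊗ C.M)} [C.G.Tors W] [C.G.Tors X]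
    (ha : C.U.j (C.muZ W ▷ C.M ≫ C.muZ W) =
      C.U.j (C.muZ (W ⊗ C.M) ≫ C.muZ W) + C.pc _ ≫ C.pc _ ≫ C.pc W ≫ C.rm W a)
    {θ : C.o C.Γ ⟶ C.o (C.Γ ⊗ C.M)} (h : C.E.Dg n s θ) {y : C.o X ⟶ C.o (W ⊗ C.M)}
    (hy : C.E.Dg m t y) : C.hat y ≫ C.mact W θ = (m * n).negOnePow • (C.mact X θ ≫ C.hat y +
      C.act _ (θ ≫ C.pc C.Γ) ≫ C.pc X ≫ y ≫ C.pc W ≫ C.rm W a) := by
  rw [mact_eq', mact_eq', reassoc_of% rm_nat h (dg_hat hy), Linear.units_smul_comp, hat_eq,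
    UF.sr_comp, UF.sr_j, Category.assoc, Category.assoc, ← UF.j_comp, ha, Preadditive.comp_add,
    Preadditive.comp_add, UF.j_comp, sr_muZ_assoc, reassoc_of% C.sr_pc (UF.dg_sr C.M hy),
    Linear.units_smul_comp, Category.assoc, reassoc_of% C.sr_pc hy, Linear.units_smul_comp,
    Linear.comp_units_smul, Linear.comp_units_smul, Linear.comp_units_smul, smul_smul,
    Int.units_mul_self, one_smul, reassoc_of% rm_pc, Category.assoc, Category.assoc]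

end Cx

end Vale.Agent.P236SY
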