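import Vale.Agent.P236SY.CY
import Vale.Agent.P236SY.Hat
import Vale.Agent.P236K.Cube

/-!
# P236, synthetic calculus: detection of classes of filtration one by ordinary homology
-/

open CategoryTheory MonoidalCategory Limits Pretriangulated MonObj

namespace Vale.Agent.P236SY

open GData Vale.Agent.P251 Vale.Agent.P251.T Vale.Agent.P251.S Vale.Agent.P251.H Vale.Agent.P251.M
  Vale.Agent.P251.F Vale.Agent.P251.I TD Vale.Agent.P236EL Vale.Agent.P236Z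
open Vale.Agent.P251.St (SHCat)

variable {T : SHCat}

theorem UF.compare {R H : T.C} [MonObj R] [MonObj H] (U : UF R) {u : R ⟶ H}
    (hu : η[R] ≫ u = η[H]) {V W B : T.C} {a : ℤ}
    (hv : ∀ k : ob V ⟶ ob (H ⊗ W), Deg a k → k = 0) {g₁ : ob V ⟶ ob (U.I ⊗ W)}
    (d₁ : Deg (a + 1) g₁) {c : ob V ⟶ ob (R ⊗ R ⊗ W)} (dc : Deg a c)
    (hc : g₁ ≫ io (unitMap R _) = c ≫ wl R (wr (sm 1 U.dR) W)) {g : ob V ⟶ ob B}
    (dg : Deg (a + 1) g) {h : B ⟶ W} (e : g₁ ≫ io ((U.ε ▷ W) ≫ (λ_ W).hom) = g ≫ io h)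
    (ng : g ≫ io (unitMap H B) = 0) (nh : h ≫ unitMap H W = 0) :
    c ≫ io (u ▷ (R ⊗ W) ≫ H ◁ (u ▷ W)) = 0 := by
  obtain ⟨U'⟩ := exists_uf H
  obtain ⟨z, s, dz, h1, h2⟩ := (dt_of_dist U.dist).rot.fill (dt_of_dist U'.dist).rot
    (u := 𝟙 _) (w := io u) (m := 0) (deg_id _) (deg_io _)
    (by rw [← io_comp, hu, Category.id_comp]) rfl rfl
  obtain ⟨h', hh⟩ := (U'.dt W).co (io h) (by rw [← io_comp, nh, io_zero])
  obtain ⟨h', dh, hh⟩ := (deg_io h).left (deg_io _) hh (add_zero 0)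
  obtain ⟨k, hk⟩ := (U'.dt W).rot'.co (s • g₁ ≫ wr z W - g ≫ h') (by
    rw [Preadditive.sub_comp, Category.assoc, ← hh, ← e, Linear.units_smul_comp, Category.assoc,
      io_comp, io_comp, ← wr_io, ← wr_io, ← wr_comp_assoc, ← Category.comp_id (io U.ε), h2,
      Units.smul_def s (z ≫ _), wr_zsmul, Preadditive.zsmul_comp, Preadditive.comp_zsmul,
      Units.smul_def, sub_self])
  obtain ⟨k, dk, hk⟩ := (((d₁.comp (Deg.wr W dz) rfl).usmul s).sub (dg.comp dh rfl)).left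
    (Deg.wr W (deg_sm 1 _)) hk (show a + 1 = _ by omega)
  rw [hv k dk, zero_comp, sub_eq_zero] at hk
  have h3 : ∀ X : T.C, io (unitMap H X) = io (unitMap R X) ≫ io (u ▷ X) := fun X => by
    rw [← io_comp, unitMap, unitMap, Category.assoc, ← comp_whiskerRight, hu]
  have h4 := congrArg (fun x => s • x ≫ io (unitMap H _)) hk
  have h5 : h' ≫ io (unitMap H _) = io (unitMap H _) ≫ wl H h' := U'.K.un_nat h'
  have h6 : wr z W ≫ io (unitMap H _) = io (unitMap H _) ≫ wl H (wr z W) := U'.K.un_nat _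
  simp only [Linear.units_smul_comp, smul_smul, Int.units_mul_self, one_smul, Category.assoc] at h4
  rw [h5, reassoc_of% ng, zero_comp, smul_zero, h6, h3, Category.assoc, reassoc_of% hc,
    wl_ex_assoc, ← wl_comp, ← wr_comp, h1, wr_comp, wl_comp, wr_io, wl_io, ← io_comp_assoc,
    ← Category.assoc] at h4
  obtain ⟨k', hk'⟩ := (DT.wl H (U'.dt W).rot).co _ h4
  obtain ⟨k', dk', hk'⟩ := (dc.comp (deg_io _) rfl).left (Deg.wl H (deg_io _)) hk' rfl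
  rw [hk', hv k' dk', zero_comp]

namespace Cx

variable {C : Cx T}

theorem j_inj' {N : T.C} (hN : (3 : ℤ) • 𝟙 (ob N) = 0) {f : ob (𝟙_ T.C) ⟶ ob N}
    (h : io C.G.j ≫ f = 0) : f = 0 :=
  C.G.lam_pre_inj 1 (by rw [pow_one, hN]) (by
    rw [Gam.lam, unitors_equal, rightUnitor_naturality, io_comp, Category.assoc, h, comp_zero])

theorem j_surj' {N : T.C} (hN : (3 : ℤ) • 𝟙 (ob N) = 0) {a : ℤ} {f : ob C.Γ ⟶ ob N}
    (hf : Deg a f) : ∃ g : ob (𝟙_ T.C) ⟶ ob N, Deg a g ∧ f = io C.G.j ≫ g := by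
  obtain ⟨g, hg, e⟩ := C.G.lam_pre_surj 1 (by rw [pow_one, hN])
    ((deg_io (ρ_ C.Γ).hom).comp hf (zero_add a))
  refine ⟨g, hg, ?_⟩
  rwa [Gam.lam, unitors_equal, rightUnitor_naturality, io_comp, Category.assoc,
    cancel_epi] at e

variable {H : T.C} [MonObj H] [IsCommMonObj H] (hH : Tr.IsHF 3 η[H])
include hH

omit [IsCommMonObj H] in
theorem hf_zero {a : ℤ} (ha : a ≠ 0) {k : ob (𝟙_ T.C) ⟶ ob H} (dk : Deg a k) : k = 0 := by
  obtain ⟨k₀, hk⟩ := Deg.exists_io ((deg_ush (𝟙_ T.C) (-a)).comp dk (neg_add_cancel a))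
  rwa [hH.conc _ (by omega) k₀, io_zero, ← comp_zero (f := (ush _ _).hom), cancel_epi] at hk

omit [IsCommMonObj H] in
theorem hfm_zero {a : ℤ} (ha : a ≠ 0) (ha' : a ≠ -1) (k : ob C.Γ ⟶ ob (H ⊗ C.Γ ⊗ C.M))
    (dk : Deg a k) : k = 0 := by
  obtain ⟨g, dg, e⟩ := j_surj (dk.comp (deg_io (H ◁ C.G.lam C.M)) (add_zero a))
  obtain ⟨y, hy⟩ := (C.dt_red H).rot.co g (hf_zero hH (by omega) (dg.comp (C.deg_dl H) rfl))
  obtain ⟨y, dy, hy⟩ := dg.left (deg_io _) hy (add_zero a)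
  rwa [hy, hf_zero hH ha dy, zero_comp, comp_zero, ← zero_comp (f := io (H ◁ C.G.lam C.M)),
    cancel_mono] at e

omit hH in
theorem th₂_eq (u : C.D.R ⟶ H) [IsMonHom u] :
    P236K.th₂ u = ((λ_ C.D.R).hom ≫ u) ⊗ₘ u := by
  have h0 : η[𝟙_ T.C] = 𝟙 _ := rfl
  refine (P257.H80.eq_pairM ?_ ?_).symm
  · change (inrM (𝟙_ T.C) C.D.R ≫ inlM _ C.D.R) ≫ _ = _
    rw [MonoidalCategory.tensorHom_def, Category.assoc, inlM_whiskerRight_assoc, inrM, h0, inlM, inlM,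
      Category.assoc (ρ_ _).inv, ← MonoidalCategory.whiskerLeft_comp, IsMonHom.one_hom]
    simp
  · change inrM _ C.D.R ≫ _ = _
    rw [MonoidalCategory.tensorHom_def, inrM_whiskerRight_assoc, inrM, inrM, Category.assoc, ← whisker_exchange,
      leftUnitor_inv_naturality_assoc]

/-- A class whose cocycle is a unit multiple of `t ^ 3 ^ (j + 1)` has filtration `< 2` for the
ordinary homology. -/
theorem not_af {t : Cob Laz 1} (ht : IsT1 3 t) {j : ℕ} {y : Cob Laz 1} {z : Cob Laz 0} {m n : ℤ}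
    (hy : Cob.IsWt (Det.w0 j) y) (hz : Cob.IsWt (Det.w0 j) z) (hm : ¬ 3 ∣ m)
    (h : y - Cob.d 0 z - m * t ^ 3 ^ (j + 1) ∈ Det.II 1) {x : C.o C.Γ ⟶ C.o (C.Γ ⊗ C.M)}
    (hx : C.E.Rep n 1 x (C.φ C.Γ 1 y ≫ C.E.K.Qm 2 (io (C.red C.Γ)))) (hn : n + 1 = 2 * Det.w0 j)
    {S : T.C} {σ : ob C.Γ ⟶ ob S} (dσ : Deg (-n) σ) {f : S ⟶ C.Γ ⊗ C.M}
    (hf : x ≫ C.E.τ _ = C.E.ι (σ ≫ io f)) : ¬ Tr.AF η[H] 2 f := by
  rintro ⟨B, g, k, rfl, ng, nk⟩
  obtain ⟨u, _⟩ := Dt.exists_thom C.D hH.conc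
  have hw : 0 < Det.w0 j := by rw [Det.w0]; positivity
  obtain ⟨g₁, d₁, rfl, e⟩ := hx.ex
  have h1 := C.U.compare (IsMonHom.one_hom u) (a := -(n + 1)) (hfm_zero hH (by omega) (by omega))
    (g₁ := g₁) (d₁.cast (by ring)) hx.deg (e.trans (congrArg _ (Category.comp_id _)))
    (g := σ ≫ io g) (dσ.comp (deg_io g) (by ring)) (h := k)
    (C.E.ι_inj ((C.E.up_τ g₁).symm.trans (hf.trans (by rw [io_comp, Category.assoc]))))
    (by rw [Category.assoc, ← io_comp, show g ≫ unitMap H B = 0 from ng.null, io_zero, comp_zero])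
    nk
  have h2 : (C.cm 1).hom ≫ io (P236K.th₂ u ▷ C.M) =
      io (u ▷ _ ≫ H ◁ (u ▷ _)) ≫ io ((α_ _ _ _).inv ≫ _ ◁ C.G.lam C.M) := by
    change (((io _ ≫ io _) ≫ io _) ≫ io _) ≫ io _ = _
    simp only [← io_comp]
    refine congrArg io ?_
    rw [th₂_eq, MonoidalCategory.tensorHom_def]
    simp only [Category.assoc, asIso_hom, whiskerLeftIso_hom, whisker_exchange]
    change (λ_ _).inv ≫ (α_ (𝟙_ _) C.D.R _).inv ≫ (α_ (𝟙_ _ ⊗ C.D.R) C.D.R _).inv ≫ _ = _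
    monoidal
  have h3 : (3 : ℤ) • η[H ⊗ H] = 0 := P236K.three_of_hom ((hH.ord 3).2 dvd_rfl) (inlM H H)
  have h4 := congrArg (· ≫ io (P236K.th₂ u ▷ C.M)) (φ_cm (C := C) y)
  simp only [Category.assoc] at h1 h4
  rw [h2, reassoc_of% h1, zero_comp, ← wr_io, ← red_nat, ← reassoc_of% pt_map] at h4
  obtain ⟨w, hw'⟩ := (C.dt_red _).co _ (j_inj h4.symm)
  rw [← io_id, ← io_zsmul, P251.X.zsmul_id_eq_zero h3, io_zero, comp_zero,
    ← C.D.of_evw ⟨y, hy⟩, HRing.map_of, pt_of, ← comp_zero (f := (gS _ _).inv), cancel_epi,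
    io_eq_zero] at hw'
  have h5 := P236K.val_y C.D hH u ht ⟨y, hy⟩ ⟨z, hz⟩ m h
  rw [hw', show HRing.of _ _ _ (0 : _ ⟶ H ⊗ H) = 0 from
    map_zero (DirectSum.of ((stdEven T.C).Gr _) _), zsmul_eq_mul] at h5
  have h6 : (3 : HRing (stdEven T.C) (H ⊗ H)) = 0 := P236K.three_HRing h3
  obtain ⟨a, a', ha⟩ : IsCoprime 3 m := Int.prime_three.irreducible.coprime_iff_not_dvd.2 hm
  have h7 := congrArg (Int.cast : ℤ → HRing (stdEven T.C) (H ⊗ H)) ha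
  refine P236K.t1_pow_ne C.hD hH ht u (3 ^ (j + 1)) ?_
  push_cast at h7
  generalize HRing.map (E := stdEven T.C) (P236K.th₂ u) (C.D.ev 1 (t ^ 3 ^ (j + 1))) = ξ at h5 ⊢
  linear_combination -(a' : HRing (stdEven T.C) (H ⊗ H)) * h5 - ξ * h7 + a * ξ * h6

end Cx

end Vale.Agent.P236SY
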