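import Vale.Agent.P236R.Cell

/-!
# P236, synthetic calculus: the exact sequences of the cohomology of the charts
-/

open CategoryTheory MonoidalCategory Limits Pretriangulated MonObj

namespace Vale.Agent.P236SY

open GData Vale.Agent.P251 Vale.Agent.P251.T Vale.Agent.P251.S Vale.Agent.P251.H Vale.Agent.P251.M
  Vale.Agent.P251.F Vale.Agent.P251.I TD Vale.Agent.P236EL Vale.Agent.P236F Vale.Agent.P236R
  Vale.Agent.P236Z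
open Vale.Agent.P251.St (SHCat)

namespace TD.Ses

variable {O : Type*} {D : GData O} {E : TD D} {V X Y Z : D.Cat} {a b k : ℤ} {f : X ⟶ Y} {g : Y ⟶ Z}
  {s : ℕ} (S : E.Ses V a b f g) {w : Z ⟶ E.K.Q 2 X} {y₀ : Z ⟶ E.K.Q 1 Y} (dy₀ : Deg b y₀) {u : ℤˣ}
  (h1 : y₀ ≫ E.K.Qm 1 g = u • E.K.un Z) (h2 : y₀ ≫ E.K.d 1 Y = w ≫ E.K.Qm 2 f)
include h1 h2

omit h2 in
theorem lift_g (z : V ⟶ E.K.Q (s + 1) Z) :
    (u • E.cup (t := 0) z y₀) ≫ E.K.Qm (s + 1) g = z := by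
  rw [Linear.units_smul_comp, ← E.cup_comp (t := 0), h1, Units.smul_def u (E.K.un _),
    ← cupH_apply, map_zsmul, cupH_apply, cup_un, ← Units.smul_def, smul_smul, Int.units_mul_self,
    one_smul]

omit h1 in
theorem lift_d {z : V ⟶ E.K.Q (s + 1) Z} (hz : z ≫ E.K.d (s + 1) Z = 0) :
    (u • E.cup (t := 0) z y₀) ≫ E.K.d (s + 1) Y =
      ((u * (s : ℤ).negOnePow) • E.cup (t := 1) z w) ≫ E.K.Qm (s + 2) f := by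
  rw [Linear.units_smul_comp, Linear.units_smul_comp, cup_d_zero, hz, ← cupH_apply _ 0, map_zero,
    AddMonoidHom.zero_apply, zero_add, h2, E.cup_comp (t := 1), mul_smul,
    Units.smul_def (s : ℤ).negOnePow, Int.coe_negOnePow_natCast]

include S dy₀

/-- exactness of cohomology at the third object -/
theorem cb₃ {z : V ⟶ E.K.Q (s + 1) Z} (dz : Deg k z) (hz : z ≫ E.K.d (s + 1) Z = 0)
    (h : E.Cb (k + b + a) (s + 1) (E.cup (t := 1) z w)) :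
    ∃ y, Deg (k + b) y ∧ y ≫ E.K.d (s + 1) Y = 0 ∧ y ≫ E.K.Qm (s + 1) g = z := by
  obtain ⟨v, dv, hv⟩ := h
  refine ⟨u • E.cup (t := 0) z y₀ - ((u * (s : ℤ).negOnePow) • v) ≫ E.K.Qm (s + 1) f,
    ((E.deg_cup (t := 0) dz dy₀ rfl).usmul u).sub
      ((dv.usmul _).comp (deg_Qm _ S.deg₁) (by ring)), ?_, ?_⟩
  · rw [Preadditive.sub_comp, lift_d h2 hz, hv, Category.assoc, E.K.d_naturality,
      Linear.units_smul_comp, Linear.units_smul_comp, Category.assoc, sub_self]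
  · rw [Preadditive.sub_comp, lift_g h1, Category.assoc, ← E.K.Qm_comp, S.zero, E.K.Qm_zero',
      comp_zero, sub_zero]

/-- exactness of cohomology at the first object -/
theorem cb₁ {x : V ⟶ E.K.Q (s + 2) X} (h : E.Cb (k + b) (s + 1) (x ≫ E.K.Qm (s + 2) f)) :
    ∃ z : V ⟶ E.K.Q (s + 1) Z, Deg k z ∧ z ≫ E.K.d (s + 1) Z = 0 ∧
      E.Cb (k + b + a) (s + 1) (x - E.cup (t := 1) z w) := by
  obtain ⟨v, dv, hv⟩ := h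
  have dz : Deg k (v ≫ E.K.Qm (s + 1) g) := dv.comp (deg_Qm _ S.deg₂) (by ring)
  have hz : (v ≫ E.K.Qm (s + 1) g) ≫ E.K.d (s + 1) Z = 0 := by
    rw [Category.assoc, E.K.d_naturality, ← reassoc_of% hv, ← E.K.Qm_comp, S.zero, E.K.Qm_zero',
      comp_zero]
  obtain ⟨r, dr, hr⟩ := S.ex (dv.sub ((E.deg_cup (t := 0) dz dy₀ rfl).usmul u))
    (by rw [Preadditive.sub_comp, lift_g h1, sub_self])
  refine ⟨(u * (s : ℤ).negOnePow) • v ≫ E.K.Qm (s + 1) g, dz.usmul _,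
    by rw [Linear.units_smul_comp, hz, smul_zero], r, dr, sub_eq_zero.1 (S.inj ?_)⟩
  rw [Preadditive.sub_comp, Preadditive.sub_comp, hv, cup_usmul, ← lift_d h2 hz,
    ← Preadditive.sub_comp, hr, Category.assoc, Category.assoc, E.K.d_naturality, sub_self]

end TD.Ses

variable {T : SHCat} {t : Cob Laz 1}

namespace Cx

variable {C : Cx T} {s : ℕ} {n m w v : ℤ}

section gen

variable {J₁ J₂ J₃ : Type} [Fintype J₁] [Fintype J₂] [Fintype J₃] {d₁ : J₁ → ℤ} {d₂ : J₂ → ℤ}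
  {d₃ : J₃ → ℤ} {θ₁ : J₁ → J₁ → Cob Laz 1} {θ₂ : J₂ → J₂ → Cob Laz 1} {θ₃ : J₃ → J₃ → Cob Laz 1}
  {X Y Z : T.C} {e₁ : J₁ → (ob C.Γ ⟶ C.Q 0 X)} {e₂ : J₂ → (ob C.Γ ⟶ C.Q 0 Y)}
  {e₃ : J₃ → (ob C.Γ ⟶ C.Q 0 Z)} {b c : ℤ} {f : ob X ⟶ ob Y} {g : ob Y ⟶ ob Z}
  {k : C.o Z ⟶ C.o X} (S : C.ST 0 (4 * b) c f g k) (H₁ : C.CM e₁ d₁ θ₁) (H₂ : C.CM e₂ d₂ θ₂)
  (H₃ : C.CM e₃ d₃ θ₃)
include S H₁ H₂ H₃

theorem ST.ex₂ {φ : (J₁ → Cob Laz s) → J₂ → Cob Laz s}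
    (hφ : ∀ F, C.psi e₁ s F ≫ C.E.K.Qm (s + 1) f = C.psi e₂ s (φ F))
    (wφ : ∀ F ∈ CW 3 Laz d₁ w s, φ F ∈ CW 3 Laz d₂ w s) {G : J₂ → Cob Laz s}
    {G' : J₃ → Cob Laz s} (hG : G ∈ ZC 3 θ₂ d₂ w 3 s)
    (h : C.psi e₂ s G ≫ C.E.K.Qm (s + 1) g = C.psi e₃ s G') (h' : G' ∈ BQ 3 θ₃ d₃ v 3 s)
    (e : w + b = v) : ∃ F ∈ ZC 3 θ₁ d₁ w 3 s, G - φ F ∈ BQ 3 θ₂ d₂ w 3 s := by
  obtain ⟨y, dy, hy, h1⟩ := (S.ses _).cb₂ (H₂.cells.deg_cw hG.1 rfl) (H₂.cyc hG)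
    (h ▸ H₃.cb h' (by omega))
  obtain ⟨F, hF, rfl⟩ := H₁.exists_cy (w := w) (dy.cast (add_zero _)) hy
  exact ⟨F, hF, H₂.of_cb (sub_mem hG.1 (wφ F hF.1)) (by rwa [map_sub, ← hφ]) rfl⟩

theorem ST.ex₃ {x : ob Z ⟶ C.Q 1 X} (hx : C.E.Rep c 1 k x)
    {φ : (J₂ → Cob Laz s) → J₃ → Cob Laz s}
    (hφ : ∀ F, C.psi e₂ s F ≫ C.E.K.Qm (s + 1) g = C.psi e₃ s (φ F))
    (wφ : ∀ F ∈ CW 3 Laz d₂ w s, φ F ∈ CW 3 Laz d₃ v s) {G : J₃ → Cob Laz s}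
    {G' : J₁ → Cob Laz (s + 1)} (hG : G ∈ ZC 3 θ₃ d₃ v 3 s)
    (h : C.E.cup (C.psi e₃ s G) x = C.psi e₁ (s + 1) G') (h' : G' ∈ BQ 3 θ₁ d₁ w 3 (s + 1))
    (e : w + b = v) : ∃ F ∈ ZC 3 θ₂ d₂ w 3 s, G - φ F ∈ BQ 3 θ₃ d₃ v 3 s := by
  obtain ⟨u, y₀, dy₀, h1, h2⟩ := S.cell hx
  obtain ⟨y, dy, hy, h3⟩ := (S.ses _).cb₃ dy₀ h1 h2 (H₃.cells.deg_cw hG.1 rfl) (H₃.cyc hG)
    (h ▸ H₁.cb h' (by omega))
  obtain ⟨F, hF, rfl⟩ := H₂.exists_cy (w := w) (dy.cast (by omega)) hy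
  exact ⟨F, hF, H₃.of_cb (sub_mem hG.1 (wφ F hF.1))
    (by rw [map_sub, ← hφ, h3, sub_self]; exact cb_zero _ _) rfl⟩

theorem ST.ex₁ {x : ob Z ⟶ C.Q 1 X} (hx : C.E.Rep c 1 k x)
    {φ : (J₃ → Cob Laz s) → J₁ → Cob Laz (s + 1)}
    (hφ : ∀ F, C.E.cup (C.psi e₃ s F) x = C.psi e₁ (s + 1) (φ F))
    (wφ : ∀ F ∈ CW 3 Laz d₃ v s, φ F ∈ CW 3 Laz d₁ w (s + 1)) {G : J₁ → Cob Laz (s + 1)}
    {G' : J₂ → Cob Laz (s + 1)} (hG : G ∈ CW 3 Laz d₁ w (s + 1))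
    (h : C.psi e₁ (s + 1) G ≫ C.E.K.Qm (s + 2) f = C.psi e₂ (s + 1) G')
    (h' : G' ∈ BQ 3 θ₂ d₂ w 3 (s + 1)) (e : w + b = v) :
    ∃ F ∈ ZC 3 θ₃ d₃ v 3 s, G - φ F ∈ BQ 3 θ₁ d₁ w 3 (s + 1) := by
  obtain ⟨u, y₀, dy₀, h1, h2⟩ := S.cell hx
  obtain ⟨z, dz, hz, h3⟩ := (S.ses _).cb₁ (k := -(4 * v)) dy₀ h1 h2 (h ▸ H₂.cb h' (by omega))
  obtain ⟨F, hF, rfl⟩ := H₃.exists_cy dz hz
  exact ⟨F, hF, H₁.of_cb (sub_mem hG (wφ F hF.1)) (by rwa [map_sub, ← hφ]) (by omega)⟩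

omit H₃ in
/-- A torsion class comes from a torsion class if the possible sources of the differential do. -/
theorem ST.lift_tor {φ : (J₁ → Cob Laz s) → J₂ → Cob Laz s}
    (hφ : ∀ F, C.psi e₁ s F ≫ C.E.K.Qm (s + 1) f = C.psi e₂ s (φ F))
    (h : ∀ G ∈ ZC 3 θ₂ d₂ w 3 s, ∃ F ∈ ZC 3 θ₁ d₁ w 3 s, G - φ F ∈ BQ 3 θ₂ d₂ w 3 s) {r : ℤ}
    {y : C.o C.Γ ⟶ C.o Y} (hy : C.E.Dg n r y) (h0 : y ≫ C.E.tp 4 _ = 0) (hr : r = s + 5)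
    (hn : n + 1 + s = 4 * w) : ∃ x, C.E.Dg n r x ∧ x ≫ C.E.tp 4 _ = 0 ∧ y = x ≫ C.E.ι f := by
  obtain ⟨G, hG, h1⟩ := H₂.exists_of_τ (n := n + 1) (hy.comp (C.E.dg_tp 3 _) (add_zero _) rfl)
    (by rw [Category.assoc, ← tp_succ, h0]) (by ring) (by omega) hn
  obtain ⟨F, hF, h2⟩ := h G hG
  obtain ⟨x, hx⟩ := H₁.exists_ob hF hn
  obtain ⟨x, hx', rfl⟩ := H₁.div3 (s := s + 2) (s' := s + 5) (w := w + 1) hx.dg (by omega) rfl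
  have h3 := hx.comp_ι (m := 0) S.deg₁ (add_zero _)
  rw [mul_zero, Int.negOnePow_zero, one_smul, hφ, Category.assoc, tp_comm, ← Category.assoc] at h3
  have h4 := h1.uniq h3 (by rw [← map_sub]; exact H₂.cb h2 rfl)
  have h5 : C.E.Dg n r x := hx'.cast (by ring) (by omega)
  refine ⟨x, h5, by rw [tp_succ, ← Category.assoc, hx.τ], sub_eq_zero.1 (H₂.tp3_inj (w := w + 1)
    (hy.sub (h5.comp S.stri.dg₁ (add_zero _) (add_zero _))) (by omega) ?_)⟩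
  rw [Preadditive.sub_comp, h4, sub_self]

end gen

namespace CY

/-- the class `α F` -/
noncomputable abbrev cal (t : Cob Laz 1) (F : Fin 1 → Cob Laz s) : Fin 1 → Cob Laz (s + 1) :=
  fun _ => Cob.cup (F 0) (2 * t)

/-- the image under the coextension of `α` -/
noncomputable abbrev cat (t : Cob Laz 1) (F : Fin 1 → Cob Laz s) : Fin 2 → Cob Laz (s + 1) :=
  fun j => Cob.cup (F 0) (![2 * t ^ 2, 2 * t] j)

/-- the image under the extension of `α` -/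
noncomputable abbrev cab (t : Cob Laz 1) (F : Fin 2 → Cob Laz s) : Fin 1 → Cob Laz (s + 1) :=
  fun _ => Cob.cup (F 0) (2 * t) + Cob.cup (F 1) (2 * t ^ 2)

theorem cw_al (ht : IsT1 3 t) (e : v + 1 = w) (F : Fin 1 → Cob Laz s)
    (h : F ∈ CW 3 Laz (fun _ => 0) v s) : cal t F ∈ CW 3 Laz (fun _ => 0) w (s + 1) := by
  have h1 := mc_mem_CW (rfl : s + 1 = s + 1) h (φ := fun _ _ => 2 * t) (ω := 1)
    (d' := fun _ : Fin 1 => 0) fun _ _ => wt_two ht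
  rwa [mc_eq, Fin.sum_univ_one, e] at h1

theorem cw_at (ht : IsT1 3 t) (e : v + 2 = w) (F : Fin 1 → Cob Laz s)
    (h : F ∈ CW 3 Laz (fun _ => 0) v s) : cat t F ∈ CW 3 Laz (dF 2) w (s + 1) := by
  have h1 := mc_mem_CW (rfl : s + 1 = s + 1) h (ω := 2) fun _ => cw_αt ht
  rwa [mc_eq, Fin.sum_univ_one, e] at h1

theorem cw_ab (ht : IsT1 3 t) (e : v + 1 = w) (F : Fin 2 → Cob Laz s)
    (h : F ∈ CW 3 Laz (dF 2) v s) : cab t F ∈ CW 3 Laz (fun _ => 0) w (s + 1) := by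
  have h1 := mc_mem_CW (rfl : s + 1 = s + 1) h (ω := 1) (cw_αb ht)
  rwa [mc_eq, Fin.sum_univ_two, e] at h1

theorem cw_e0 {F : Fin 1 → Cob Laz s} (h : F ∈ CW 3 Laz (fun _ => 0) w s) :
    ![F 0, 0, 0] ∈ CW 3 Laz (dF 3) w s := fun c => by
  fin_cases c
  exacts [h 0, Cob.isWt_zero _, Cob.isWt_zero _]

variable (P : C.CY t)

theorem cup_al (F : Fin 1 → Cob Laz s) : C.E.cup (C.psi (mE C.eS) s F)
    (C.cr C.M (C.φ C.Γ 1 (2 * t))) = C.psi (mE C.eS) (s + 1) (cal t F) := by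
  rw [psi_cup _ act_α]
  simp only [Fin.sum_univ_one]

theorem cup_at (F : Fin 1 → Cob Laz s) : C.E.cup (C.psi (mE C.eS) s F)
    (C.cr C.M (C.psi P.eA 1 ![2 * t ^ 2, 2 * t])) = C.psi (mE P.eA) (s + 1) (cat t F) := by
  rw [psi_cup _ P.act_αt]
  simp only [Fin.sum_univ_one]

theorem cup_ab (F : Fin 2 → Cob Laz s) : C.E.cup (C.psi (mE P.eA) s F) (C.cr C.M P.xb) =
    C.psi (mE C.eS) (s + 1) (cab t F) := by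
  rw [psi_cup _ P.act_αb]
  simp only [Fin.sum_univ_two]
  rfl

theorem tA : C.ST 0 (4 * -1) 3 (wr P.i₁ C.M) (wr P.p₁ C.M) P.al := P.st₁.wr C.M

theorem tE : C.ST 0 (4 * -2) 7 (wr P.i₂ C.M) (wr P.p₂ C.M) P.atil := P.st₂.wr C.M

theorem tZ : C.ST 0 (4 * -1) 3 (wr P.e₀ C.M) (wr P.q C.M) P.abar := P.st₃.wr C.M

include P

theorem ex_iA {G : Fin 2 → Cob Laz s} (hG : G ∈ ZT t w s) (h : (fun _ => G 1) ∈ BS v s)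
    (e : w + -1 = v) : ∃ F ∈ ZS w s, G - ![F 0, 0] ∈ BT t w s :=
  P.tA.ex₂ cmS P.chA.cm cmS (fun F => psi_wr (P.psi_i₁' F)) (fun _ => cw_iA) hG
    (psi_wr (P.psi_p₁ G)) h e

theorem ex_ee {G : Fin 3 → Cob Laz s} (hG : G ∈ ZY t w s) (h : (fun _ => G 2) ∈ BS v s)
    (e : w + -2 = v) : ∃ F ∈ ZT t w s, G - ![F 0, F 1, 0] ∈ BY t w s :=
  P.tE.ex₂ P.chA.cm P.chY.cm cmS (fun F => psi_wr (P.psi_i₂ F)) (fun _ => cw_ee) hG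
    (psi_wr (P.psi_p₂ G)) h e

theorem ex_e0 {G : Fin 3 → Cob Laz s} (hG : G ∈ ZY t w s) (h : ![G 1, G 2] ∈ BT t v s)
    (e : w + -1 = v) : ∃ F ∈ ZS w s, G - ![F 0, 0, 0] ∈ BY t w s :=
  P.tZ.ex₂ (φ := fun F => ![F 0, 0, 0]) cmS P.chY.cm P.chA.cm (fun F => psi_wr (P.psi_e₀' F))
    (fun _ => cw_e0) hG (psi_wr (P.psi_q G)) h e

theorem ex_jA {G : Fin 1 → Cob Laz s} (hG : G ∈ ZS v s) (h : cal t G ∈ BS w (s + 1))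
    (e : w + -1 = v) : ∃ F ∈ ZT t w s, (G - fun _ => F 1) ∈ BS v s :=
  P.tA.ex₃ cmS P.chA.cm cmS (rep_sr P.rep_α _) (fun F => psi_wr (P.psi_p₁ F))
    (fun _ h => cw_top h 1 e) hG (cup_al G) h e

theorem ex_jy {G : Fin 1 → Cob Laz s} (hG : G ∈ ZS v s) (h : cat t G ∈ BT t w (s + 1))
    (e : w + -2 = v) : ∃ F ∈ ZY t w s, (G - fun _ => F 2) ∈ BS v s :=
  P.tE.ex₃ P.chA.cm P.chY.cm cmS (rep_sr P.rep_αt _) (fun F => psi_wr (P.psi_p₂ F))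
    (fun _ h => cw_top h 2 e) hG (P.cup_at G) h e

theorem ex_qq {G : Fin 2 → Cob Laz s} (hG : G ∈ ZT t v s) (h : cab t G ∈ BS w (s + 1))
    (e : w + -1 = v) : ∃ F ∈ ZY t w s, G - ![F 1, F 2] ∈ BT t v s :=
  P.tZ.ex₃ cmS P.chY.cm P.chA.cm (rep_sr P.rep_αb _) (fun F => psi_wr (P.psi_q F))
    (fun _ h => cw_qq h e) hG (P.cup_ab G) h e

theorem ex_al (ht : IsT1 3 t) {G : Fin 1 → Cob Laz (s + 1)} (hG : G ∈ ZS w (s + 1))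
    (h : ![G 0, 0] ∈ BT t w (s + 1)) (e : w + -1 = v) :
    ∃ F ∈ ZS v s, G - cal t F ∈ BS w (s + 1) :=
  P.tA.ex₁ cmS P.chA.cm cmS (rep_sr P.rep_α _) cup_al (cw_al ht (by omega)) hG.1
    (psi_wr (P.psi_i₁' G)) h e

theorem ex_atil (ht : IsT1 3 t) {G : Fin 2 → Cob Laz (s + 1)} (hG : G ∈ ZT t w (s + 1))
    (h : ![G 0, G 1, 0] ∈ BY t w (s + 1)) (e : w + -2 = v) :
    ∃ F ∈ ZS v s, G - cat t F ∈ BT t w (s + 1) :=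
  P.tE.ex₁ P.chA.cm P.chY.cm cmS (rep_sr P.rep_αt _) P.cup_at (cw_at ht (by omega)) hG.1
    (psi_wr (P.psi_i₂ G)) h e

theorem ex_abar (ht : IsT1 3 t) {G : Fin 1 → Cob Laz (s + 1)} (hG : G ∈ ZS w (s + 1))
    (h : ![G 0, 0, 0] ∈ BY t w (s + 1)) (e : w + -1 = v) :
    ∃ F ∈ ZT t v s, G - cab t F ∈ BS w (s + 1) :=
  P.tZ.ex₁ cmS P.chY.cm P.chA.cm (rep_sr P.rep_αb _) P.cup_ab (cw_ab ht (by omega)) hG.1
    (psi_wr (P.psi_e₀' G)) h e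

end CY

end Cx

end Vale.Agent.P236SY
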