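import Vale.Agent.P236SY.Rg

/-!
# P236, synthetic calculus: external products and the central action of the sphere
-/

open CategoryTheory MonoidalCategory Limits Pretriangulated MonObj

namespace Vale.Agent.P236SY

open GData Vale.Agent.P251 Vale.Agent.P251.T Vale.Agent.P251.S Vale.Agent.P251.H Vale.Agent.P251.M
  Vale.Agent.P251.F Vale.Agent.P251.I TD
open Vale.Agent.P251.St (SHCat)

variable {T : SHCat}

namespace Cx

variable (C : Cx T) {A B V W X Y Z : T.C} {n m s t : ℤ}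

/-- the counit `Γ ⊗ X ⟶ X` -/
noncomputable abbrev la (X : T.C) : C.o (C.Γ ⊗ X) ⟶ C.o X := C.U.j (C.G.lam X)

/-- the inverse of the counit -/
noncomputable abbrev li (X : T.C) [C.G.Tors X] : C.o X ⟶ C.o (C.Γ ⊗ X) := C.U.j (inv (C.G.lam X))

@[reassoc (attr := simp)]
theorem la_li (X : T.C) [C.G.Tors X] : C.la X ≫ C.li X = 𝟙 _ := C.U.j_hom_inv (asIso (C.G.lam X))

@[reassoc (attr := simp)]
theorem li_la (X : T.C) [C.G.Tors X] : C.li X ≫ C.la X = 𝟙 _ := C.U.j_inv_hom (asIso (C.G.lam X))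

@[reassoc]
theorem sl_la (y : C.o X ⟶ C.o Y) : C.U.sl C.Γ y ≫ C.la Y = C.la X ≫ y := by
  rw [la, la, Gam.lam, Gam.lam, UF.j_comp, UF.j_comp, UF.sl_ex_assoc, UF.sl_lam, Category.assoc]

@[reassoc]
theorem li_sl [C.G.Tors X] [C.G.Tors Y] (y : C.o X ⟶ C.o Y) :
    C.li X ≫ C.U.sl C.Γ y = y ≫ C.li Y := by
  rw [← cancel_mono (C.la Y), Category.assoc, sl_la, li_la_assoc, Category.assoc, li_la,
    Category.comp_id]

@[reassoc]
theorem sr_la (x : C.o C.Γ ⟶ C.o C.Γ) : C.U.sr C.Γ x ≫ C.la C.Γ = C.la C.Γ ≫ x := by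
  rw [la, Gam.lam_Γ, UF.j_comp, UF.sr_ex_assoc, UF.sr_rho, Category.assoc]

theorem lam_α (X Y : T.C) : C.G.lam X ▷ Y = (α_ _ X Y).hom ≫ C.G.lam (X ⊗ Y) := by
  rw [Gam.lam, Gam.lam]
  monoidal

theorem β_lam : (β_ C.Γ C.Γ).hom ≫ C.G.lam C.Γ = C.G.lam C.Γ := by
  conv_rhs => rw [Gam.lam_Γ]
  rw [Gam.lam, ← BraidedCategory.braiding_naturality_right_assoc, braiding_leftUnitor]

/-- `x ⊗ 1 : B ⟶ A ⊗ B` -/
noncomputable def lm (B : T.C) [C.G.Tors B] : (C.o C.Γ ⟶ C.o A) →+ (C.o B ⟶ C.o (A ⊗ B)) :=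
  (Preadditive.leftComp _ (C.li B)).comp (C.U.sr B)

theorem lm_eq [C.G.Tors B] (x : C.o C.Γ ⟶ C.o A) : C.lm B x = C.li B ≫ C.U.sr B x := rfl

/-- The action of the sphere. -/
noncomputable def act (Z : T.C) [C.G.Tors Z] : (C.o C.Γ ⟶ C.o C.Γ) →+ (C.o Z ⟶ C.o Z) :=
  (Preadditive.rightComp _ (C.la Z)).comp (C.lm Z)

theorem act_eq [C.G.Tors Z] (x : C.o C.Γ ⟶ C.o C.Γ) : C.act Z x = C.lm Z x ≫ C.la Z := rfl

variable {C}

section

variable [C.G.Tors B]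

theorem dg_lm {x : C.o C.Γ ⟶ C.o A} (h : C.E.Dg n s x) : C.E.Dg n s (C.lm B x) :=
  (C.U.dg_j _).comp (UF.dg_sr _ h) (zero_add _) (zero_add _)

@[reassoc]
theorem lm_comp (x : C.o C.Γ ⟶ C.o A) (y : C.o A ⟶ C.o X) :
    C.lm B (x ≫ y) = C.lm B x ≫ C.U.sr B y := by
  rw [lm_eq, lm_eq, UF.sr_comp, Category.assoc]

theorem lm_id : C.lm B (𝟙 _) = C.li B := by rw [lm_eq, UF.sr_id, Category.comp_id]

theorem lm_tp (k : ℕ) (x : C.o C.Γ ⟶ C.o A) : C.lm B (x ≫ C.E.tp k _) = C.lm B x ≫ C.E.tp k _ := by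
  rw [lm_comp, UF.sr_tp]

theorem comp_lm (a : C.o C.Γ ⟶ C.o C.Γ) (x : C.o C.Γ ⟶ C.o A) :
    C.lm B (a ≫ x) = C.act B a ≫ C.lm B x := by
  rw [lm_comp, act_eq, C.lm_eq x, Category.assoc, la_li_assoc]

/-- Naturality of `x ⊗ 1`. -/
theorem lm_nat [C.G.Tors Y] {x : C.o C.Γ ⟶ C.o A} (hx : C.E.Dg n s x) {y : C.o B ⟶ C.o Y}
    (hy : C.E.Dg m t y) : y ≫ C.lm Y x = (m * n).negOnePow • C.lm B x ≫ C.U.sl A y := by
  rw [lm_eq, ← li_sl_assoc, C.inter hx hy, Linear.comp_units_smul, lm_eq, Category.assoc]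

@[reassoc]
theorem lm_j [C.G.Tors Y] (x : C.o C.Γ ⟶ C.o A) (f : B ⟶ Y) :
    C.U.j f ≫ C.lm Y x = C.lm B x ≫ C.U.j (A ◁ f) := by
  rw [lm_eq, ← li_sl_assoc, UF.sl_j, ← UF.sr_ex, lm_eq, Category.assoc]

@[reassoc]
theorem sr_lm (W : T.C) (x : C.o C.Γ ⟶ C.o A) :
    C.U.sr W (C.lm B x) ≫ C.U.j (α_ A B W).hom = C.lm (B ⊗ W) x := by
  rw [lm_eq, lm_eq, UF.sr_comp, Category.assoc, UF.sr_α, ← cancel_epi (C.la (B ⊗ W)), la_li_assoc,
    ← cancel_epi (C.U.j (α_ _ B W).hom), ← UF.j_comp_assoc, ← lam_α, ← UF.sr_j,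
    ← UF.sr_comp_assoc, la_li, UF.sr_id, Category.id_comp]

/-- The product of two classes is graded symmetric. -/
theorem lm_β [C.G.Tors A] {x : C.o C.Γ ⟶ C.o A} (hx : C.E.Dg n s x) {y : C.o C.Γ ⟶ C.o B}
    (hy : C.E.Dg m t y) :
    y ≫ C.lm B x ≫ C.U.j (β_ A B).hom = (m * n).negOnePow • x ≫ C.lm A y := by
  have h : C.li C.Γ ≫ C.U.j (β_ _ _).hom = C.li C.Γ := by
    rw [← cancel_mono (C.la C.Γ), Category.assoc, ← UF.j_comp, β_lam]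
  rw [reassoc_of% lm_nat hx hy, Linear.units_smul_comp, Category.assoc, UF.sl_β, lm_eq, lm_eq,
    Category.assoc, UF.sr_β_assoc, reassoc_of% h, li_sl_assoc]

theorem rep_lm {s : ℕ} {x : C.o C.Γ ⟶ C.o A} {c : ob C.Γ ⟶ C.Q s A} (h : C.E.Rep n s x c) :
    C.E.Rep n s (C.lm B x) (io (inv (C.G.lam B)) ≫ C.cr B c) :=
  (rep_sr h B).ι_comp (m := 0) (deg_io _) (zero_add n)

end

section

variable [C.G.Tors Z] {x y : C.o C.Γ ⟶ C.o C.Γ}

theorem dg_act (h : C.E.Dg n s x) : C.E.Dg n s (C.act Z x) :=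
  (dg_lm h).comp (C.U.dg_j _) (add_zero _) (add_zero _)

@[reassoc]
theorem act_comp (x y : C.o C.Γ ⟶ C.o C.Γ) : C.act Z (x ≫ y) = C.act Z x ≫ C.act Z y := by
  rw [act_eq, comp_lm, Category.assoc, ← act_eq]

@[simp] theorem act_id : C.act Z (𝟙 _) = 𝟙 _ := by rw [act_eq, lm_id, li_la]

@[simp] theorem act_τ : C.act Z (C.E.τ _) = C.E.τ _ := by
  rw [act_eq, lm_eq, UF.sr_τ, Category.assoc, τ_comm, li_la_assoc]

@[simp] theorem act_tp (k : ℕ) : C.act Z (C.E.tp k _) = C.E.tp k _ := by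
  rw [act_eq, lm_eq, UF.sr_tp, Category.assoc, tp_comm, li_la_assoc]

@[simp] theorem act_Γ (x : C.o C.Γ ⟶ C.o C.Γ) : C.act C.Γ x = x := by
  rw [act_eq, lm_eq, Category.assoc, sr_la, li_la_assoc]

/-- The action is central. -/
theorem act_nat [C.G.Tors Y] (hx : C.E.Dg n s x) {y : C.o Y ⟶ C.o Z} (hy : C.E.Dg m t y) :
    y ≫ C.act Z x = (m * n).negOnePow • C.act Y x ≫ y := by
  rw [act_eq, reassoc_of% lm_nat hx hy, Linear.units_smul_comp, Category.assoc, sl_la, act_eq,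
    Category.assoc]

theorem comp_act (hx : C.E.Dg n s x) {y : C.o C.Γ ⟶ C.o Z} (hy : C.E.Dg m t y) :
    y ≫ C.act Z x = (m * n).negOnePow • x ≫ y := by
  rw [act_nat hx hy, act_Γ]

omit [C.G.Tors Z] in
/-- Graded commutativity. -/
theorem comm (hx : C.E.Dg n s x) (hy : C.E.Dg m t y) : y ≫ x = (m * n).negOnePow • x ≫ y := by
  rw [← comp_act hx hy, act_Γ]

@[reassoc]
theorem act_j [C.G.Tors Y] (x : C.o C.Γ ⟶ C.o C.Γ) (f : Y ⟶ Z) :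
    C.U.j f ≫ C.act Z x = C.act Y x ≫ C.U.j f := by
  rw [act_eq, lm_j_assoc, ← UF.sl_j, sl_la, act_eq, Category.assoc]

theorem sr_act (W : T.C) (x : C.o C.Γ ⟶ C.o C.Γ) : C.U.sr W (C.act Z x) = C.act (Z ⊗ W) x := by
  rw [act_eq, act_eq, UF.sr_comp, UF.sr_j, lam_α, UF.j_comp, sr_lm_assoc]

theorem sl_act (W : T.C) (x : C.o C.Γ ⟶ C.o C.Γ) : C.U.sl W (C.act Z x) = C.act (W ⊗ Z) x := by
  rw [← cancel_mono (C.U.j (β_ W Z).hom), UF.sl_β, sr_act, act_j]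

theorem rep_act {s : ℕ} {z : Cob Laz s} (h : C.E.Rep n s x (C.φ C.Γ s z)) :
    C.E.Rep n s (C.act Z x) (C.φ Z s z) := by
  have h1 := (rep_lm (B := Z) h).comp_ι (m := 0) (deg_io (C.G.lam Z)) (add_zero n)
  rwa [mul_zero, Int.negOnePow_zero, one_smul, cr_φ, Category.assoc, Φ_nat, ← io_comp_assoc,
    IsIso.inv_hom_id, io_id, Category.id_comp] at h1

theorem ob_act {s : ℕ} {z : Cob Laz s} (h : C.E.Ob n s (C.φ C.Γ s z) x) :
    C.E.Ob n s (C.φ Z s z) (C.act Z x) := by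
  have h1 := ((ob_sr h Z).ι_comp (m := 0) (deg_io (inv (C.G.lam Z))) (zero_add n)).comp_ι (m := 0)
    (deg_io (C.G.lam Z)) (add_zero n)
  rwa [mul_zero, Int.negOnePow_zero, one_smul, cr_φ, Category.assoc, Φ_nat, ← io_comp_assoc,
    IsIso.inv_hom_id, io_id, Category.id_comp] at h1

end

end Cx

end Vale.Agent.P236SY
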