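import Vale.Agent.P236SY.Sym

/-!
# P236, synthetic calculus: the boundary map of a triangle which is split relative to the source

If `h : Z ⟶ X` kills all the cochains with source `V` (`E.Null V h`), then there is a boundary map
`E.bd N : (so V ⟶ so Z) →+ (so V ⟶ so X)` which raises the filtration by one.
-/

open CategoryTheory Limits

universe v u

namespace Vale.Agent.P236SY

open GData Vale.Agent.P251.S

namespace TD

variable {O : Type u} {D : GData.{v} O} (E : TD D)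

/-- `h` kills the cochains with source `V`. -/
def Null (V : D.Cat) {Z X : D.Cat} (h : Z ⟶ X) : Prop :=
  ∀ (s : ℕ) (c : V ⟶ E.K.M.obj (E.K.B s Z)), c ≫ E.K.M.map (E.Fm s h) = 0

variable {E} {V Z X : D.Cat} {h : Z ⟶ X}

theorem Null.lift (N : E.Null V h) {s : ℕ} (g : V ⟶ E.K.B s Z) :
    ∃ w : V ⟶ E.K.B (s + 1) X, w ≫ E.oc s X = g ≫ E.Fm s h := by
  obtain ⟨w, hw⟩ := E.exists_oc (g ≫ E.Fm s h) (by
    rw [Category.assoc, E.K.un_nat, ← Category.assoc, N])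
  exact ⟨w, hw.symm⟩

theorem Null.ker (N : E.Null V h) {a : ℤ} (hh : Deg a h) {s : ℕ} {g : V ⟶ E.K.B s Z}
    (hg : g ∈ E.ker s V Z) : g ≫ E.Fm s h = 0 := by
  rw [mem_ker] at hg
  cases s with
  | zero => rw [dr_self, Category.comp_id] at hg; rw [hg, zero_comp]
  | succ s =>
    obtain ⟨c, rfl⟩ := E.exists_k g ((congrArg (g ≫ ·) (E.dr_one s _ Z).symm).trans hg)
    rw [Category.assoc, E.k_nat s hh, Linear.comp_units_smul, ← Category.assoc, N, zero_comp,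
      smul_zero]

theorem cl_eq_of_oc {i : ℤ} {s : ℕ} (hi : i.toNat ≤ s + 1) {w w' : V ⟶ E.K.B (s + 1) X}
    (e : w ≫ E.oc s X = w' ≫ E.oc s X) : E.cl i hi w = E.cl i hi w' :=
  E.cl_congr hi hi (Nat.le_succ s) (Nat.le_succ s) (by omega) (by rwa [dr_one])

/-- The boundary map on representatives. -/
noncomputable def Null.bd₀ (N : E.Null V h) (i : ℤ) :
    (V ⟶ E.K.B i.toNat Z) →+ (E.so V ⟶ E.so X) :=
  AddMonoidHom.mk' (fun g => E.cl (i + 1) (s := i.toNat + 1) (by omega) (N.lift g).choose)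
    fun g g' => by
      rw [← map_add]
      refine cl_eq_of_oc _ ?_
      rw [(N.lift _).choose_spec, Preadditive.add_comp, Preadditive.add_comp,
        (N.lift g).choose_spec, (N.lift g').choose_spec]

theorem Null.bd₀_eq (N : E.Null V h) (i : ℤ) {g : V ⟶ E.K.B i.toNat Z}
    {w : V ⟶ E.K.B (i.toNat + 1) X} (e : w ≫ E.oc _ X = g ≫ E.Fm _ h) :
    N.bd₀ i g = E.cl (i + 1) (by omega) w :=
  cl_eq_of_oc _ ((N.lift g).choose_spec.trans e.symm)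

/-- The boundary map. -/
noncomputable def Null.bd (N : E.Null V h) {a : ℤ} (hh : Deg a h) :
    (E.so V ⟶ E.so Z) →+ (E.so V ⟶ E.so X) :=
  E.syD.lift fun i => QuotientAddGroup.lift (E.ker i.toNat V Z) (N.bd₀ i) fun g hg => by
    rw [AddMonoidHom.mem_ker, N.bd₀_eq i (w := 0) (by rw [N.ker hh hg, zero_comp]), map_zero]

namespace Null

variable (N : E.Null V h) {a : ℤ} (hh : Deg a h)

theorem bd_cl {i j : ℤ} (e : i + 1 = j) {s : ℕ} (hi : i.toNat ≤ s) (hj : j.toNat ≤ s + 1)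
    {g : V ⟶ E.K.B s Z} {w : V ⟶ E.K.B (s + 1) X} (hw : w ≫ E.oc s X = g ≫ E.Fm s h) :
    N.bd hh (E.cl i hi g) = E.cl j hj w := by
  subst e
  refine (E.syD.lift_hof _ i _).trans ?_
  refine (N.bd₀_eq i (g := g ≫ E.dr hi Z) (w := w ≫ E.dr (Nat.succ_le_succ hi) X) ?_).trans
    (E.cl_dr _ _ _ _)
  rw [Category.assoc, Category.assoc, ← E.dr_one _ (Nat.le_succ _), dr_dr, ← dr_nat,
    ← reassoc_of% hw, E.dr_succ hi]

/-- Normal form of a homogeneous element and of its boundary. -/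
theorem exists_bd {n i : ℤ} {x : E.so V ⟶ E.so Z} (hx : E.Dg n i x) :
    ∃ (g : V ⟶ E.K.B i.toNat Z) (w : V ⟶ E.K.B (i.toNat + 1) X), Deg (-n) g ∧ Deg (-n + a) w ∧
      w ≫ E.oc _ X = g ≫ E.Fm _ h ∧ x = E.cl i le_rfl g ∧
      N.bd hh x = E.cl (i + 1) (by omega) w := by
  obtain ⟨g, hg, rfl⟩ := hx
  obtain ⟨w, hw⟩ := N.lift g
  obtain ⟨w, dw, hw⟩ := (hg.comp (deg_Fm _ hh) rfl).left (E.deg_oc _ _) hw.symm (add_zero _)
  exact ⟨g, w, hg, dw, hw.symm, rfl, N.bd_cl hh rfl _ _ hw.symm⟩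

theorem dg_bd {n i m j : ℤ} {x : E.so V ⟶ E.so Z} (hx : E.Dg n i x) (hm : n - a = m)
    (hj : i + 1 = j) : E.Dg m j (N.bd hh x) := by
  obtain ⟨g, w, -, dw, -, -, e⟩ := N.exists_bd hh hx
  rw [e]
  exact (dg_cl _ _ (dw.cast (by omega))).cast rfl hj

theorem bd_τ (x : E.so V ⟶ E.so Z) : N.bd hh x ≫ E.τ _ = x ≫ E.ι h := by
  refine dg_ind x (by simp) (fun n i x hx => ?_) (fun a b ha hb => by simp [ha, hb])
  obtain ⟨g, w, -, -, hw, rfl, e⟩ := N.exists_bd hh hx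
  rw [e, E.cl_τ (j := i) (by omega) _ (by omega), cl_ι, ← hw, cl_oc]

theorem τ_bd (x : E.so V ⟶ E.so Z) : N.bd hh (x ≫ E.τ _) = N.bd hh x ≫ E.τ _ := by
  refine dg_ind x (by simp) (fun n i x hx => ?_) (fun a b ha hb => by simp [ha, hb])
  obtain ⟨g, w, -, -, hw, rfl, e⟩ := N.exists_bd hh hx
  rw [e, E.cl_τ (i := i + 1) (j := i) (by omega) _ (by omega),
    E.cl_τ (i := i) rfl _ (by omega), N.bd_cl hh (sub_add_cancel i 1) _ _ hw]

/-- Compatibility with the composition on the target side. -/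
theorem bd_post {Z' X' : D.Cat} {h' : Z' ⟶ X'} (N' : E.Null V h') {a' : ℤ} (hh' : Deg a' h')
    {t : ℕ} {j : ℤ} (hj : j.toNat ≤ t) (z : Z ⟶ E.K.B t Z') (y : X ⟶ E.K.B t X') (e : ℤˣ)
    (c : z ≫ E.Fm t h' = e • h ≫ y) (x : E.so V ⟶ E.so Z) :
    N'.bd hh' (x ≫ E.cl j hj z) = e • N.bd hh x ≫ E.cl j hj y := by
  refine dg_ind x (by simp) (fun n i x hx => ?_) (fun a b ha hb => by simp [ha, hb])
  obtain ⟨g, w, -, -, hw, rfl, e'⟩ := N.exists_bd hh hx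
  rw [e', E.cl_comp rfl _ hj (by omega), E.cl_comp rfl _ hj (by omega),
    ← E.cl_dr (i + 1 + j) (s := i.toNat + t + 1) (by omega) (by omega), Units.smul_def,
    ← map_zsmul]
  refine N'.bd_cl hh' (by omega) _ _ ?_
  simp only [Preadditive.zsmul_comp, Category.assoc]
  rw [← E.dr_one _ (Nat.le_succ _), dr_dr, ← oc_ad, oc_nat_assoc, reassoc_of% hw, ← ad_nat,
    ← Fm_comp_assoc, ← Fm_comp_assoc, c, Units.smul_def, map_zsmul, Preadditive.zsmul_comp,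
    Preadditive.comp_zsmul]

theorem bd_ι {Z' X' : D.Cat} {h' : Z' ⟶ X'} (N' : E.Null V h') {a' : ℤ} (hh' : Deg a' h')
    (z : Z ⟶ Z') (y : X ⟶ X') (e : ℤˣ) (c : z ≫ h' = e • h ≫ y) (x : E.so V ⟶ E.so Z) :
    N'.bd hh' (x ≫ E.ι z) = e • N.bd hh x ≫ E.ι y :=
  N.bd_post hh N' hh' (t := 0) (j := 0) le_rfl z y e c x

/-- Compatibility with the composition on the source side. -/
theorem bd_pre (hX : E.Sym X) {V' : D.Cat} (N' : E.Null V' h) (u : E.so V' ⟶ E.so V)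
    (x : E.so V ⟶ E.so Z) : N'.bd hh (u ≫ x) = u ≫ N.bd hh x := by
  refine dg_ind x (by simp) (fun n i x hx => ?_) (fun a b ha hb => by simp [ha, hb])
  refine dg_ind u (by simp) (fun m j u hu => ?_) (fun a b ha hb => by simp [ha, hb])
  obtain ⟨g, w, -, -, hw, rfl, e'⟩ := N.exists_bd hh hx
  obtain ⟨u, -, rfl⟩ := hu
  rw [e', E.cl_comp rfl _ _ (by omega), E.cl_comp rfl _ _ (by omega)]
  refine N'.bd_cl hh (by omega) _ _ ?_
  simp only [Category.assoc]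
  rw [← hX.mid, ← Fm_comp_assoc, hw, Fm_comp_assoc, ad_nat]

variable {Y : D.Cat} {f : X ⟶ Y} {g : Y ⟶ Z} (W : E.Tri f g h)
include W

theorem bd_zero₂ (y : E.so V ⟶ E.so Y) : N.bd hh (y ≫ E.ι g) = 0 := by
  refine dg_ind y (by simp) (fun n i y hy => ?_) (fun a b ha hb => by simp [ha, hb])
  obtain ⟨y, -, rfl⟩ := hy
  rw [cl_ι, N.bd_cl hh rfl _ (by omega) (w := 0), map_zero]
  rw [Category.assoc, ← Fm_comp, E.tri_zero (E.tri_rot W), map_zero, zero_comp, comp_zero]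

theorem bd_zero₃ (x : E.so V ⟶ E.so Z) : N.bd hh x ≫ E.ι f = 0 := by
  refine dg_ind x (by simp) (fun n i x hx => ?_) (fun a b ha hb => by simp [ha, hb])
  obtain ⟨u, w, -, -, hw, rfl, e⟩ := N.exists_bd hh hx
  rw [e, cl_ι, cl_eq_of_oc (w' := 0), map_zero]
  rw [Category.assoc, oc_nat, reassoc_of% hw, ← Fm_comp,
    E.tri_zero (E.tri_rot (E.tri_rot W)), map_zero, zero_comp, comp_zero]

include N in
/-- exactness at the middle object -/
theorem co₂ {b n m s : ℤ} (hf : Deg (-b) f) {x : E.so V ⟶ E.so Y} (hx : E.Dg n s x)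
    (h0 : x ≫ E.ι g = 0) (hm : m + b = n) : ∃ y, E.Dg m s y ∧ x = y ≫ E.ι f := by
  rcases le_or_gt s 0 with hs | hs
  · obtain ⟨x, dx, rfl⟩ := hx.exists 0 (by omega)
    rw [cl_ι, E.cl_eq_zero_neg hs] at h0
    obtain ⟨y, hy⟩ := E.tri_co W x h0
    obtain ⟨y, dy, rfl⟩ := dx.left hf hy (show -m + -b = -n by omega)
    exact ⟨E.cl (s := 0) s (by omega) y, dg_cl _ _ dy, by rw [cl_ι]; rfl⟩
  · obtain ⟨r, rfl⟩ : ∃ r : ℕ, s = r + 1 := ⟨(s - 1).toNat, by omega⟩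
    obtain ⟨x, dx, rfl⟩ := hx.exists (r + 1) (by omega)
    rw [cl_ι, E.cl_eq_zero_oc rfl, Category.assoc, oc_nat, ← Category.assoc] at h0
    obtain ⟨y, hy⟩ := E.tri_co (tri_Fm r W) _ h0
    have h1 : (y ≫ E.K.un _) ≫ E.K.M.map (E.Fm r f) = 0 := by
      rw [Category.assoc, ← E.K.un_nat, ← reassoc_of% hy, oc_un, comp_zero]
    obtain ⟨w, hw⟩ := E.tri_co (E.tri_rot (E.tri_rot (E.tri_M (tri_Fm r W)))) _ h1
    rw [N] at hw
    obtain ⟨y, rfl⟩ := E.exists_oc y hw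
    rw [Category.assoc, ← oc_nat] at hy
    obtain ⟨y, dy, hy⟩ := (dx.comp (E.deg_oc _ _) (add_zero _)).left
      ((deg_Fm (r + 1) hf).comp (E.deg_oc _ _) (add_zero _)) hy (show -m + -b = -n by omega)
    refine ⟨E.cl (s := r + 1) _ (by omega) y, dg_cl _ _ dy, ?_⟩
    rw [cl_ι]
    exact cl_eq_of_oc _ (by rw [hy, Category.assoc])

/-- exactness at the third object -/
theorem co₃ {b n m s : ℤ} (hg : Deg (-b) g) {x : E.so V ⟶ E.so Z} (hx : E.Dg n s x)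
    (h0 : N.bd hh x = 0) (hm : m + b = n) : ∃ y, E.Dg m s y ∧ x = y ≫ E.ι g := by
  obtain ⟨u, w, du, -, hw, rfl, e⟩ := N.exists_bd hh hx
  rw [e, E.cl_eq_zero _ (show (s + 1).toNat - 1 ≤ _ by omega) rfl] at h0
  have h1 : u ≫ E.Fm _ h = 0 := by
    rw [← hw, ← E.dr_one _ (Nat.le_succ _), ← E.dr_dr (show (s + 1).toNat - 1 ≤ _ by omega)
      (show s.toNat ≤ (s + 1).toNat - 1 by omega), reassoc_of% h0, zero_comp]
  obtain ⟨y, hy⟩ := E.tri_co (tri_Fm _ (E.tri_rot W)) u h1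
  obtain ⟨y, dy, rfl⟩ := du.left (deg_Fm _ hg) hy (show -m + -b = -n by omega)
  exact ⟨E.cl s le_rfl y, dg_cl _ _ dy, by rw [cl_ι]⟩

/-- exactness at the first object -/
theorem co₁ {n m s t : ℤ} {x : E.so V ⟶ E.so X} (hx : E.Dg n s x) (h0 : x ≫ E.ι f = 0)
    (hm : m - a = n) (ht : t + 1 = s) : ∃ y, E.Dg m t y ∧ x = N.bd hh y := by
  have H' := E.tri_rot (E.tri_rot W)
  rcases le_or_gt s 0 with hs | hs
  · obtain ⟨x, dx, rfl⟩ := hx.exists 0 (by omega)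
    rw [cl_ι, E.cl_eq_zero_neg hs] at h0
    obtain ⟨y, hy⟩ := E.tri_co H' x h0
    obtain ⟨y, dy, rfl⟩ := dx.left hh hy (show -m + a = -n by omega)
    obtain ⟨w, hw⟩ := N.lift (s := 0) y
    refine ⟨E.cl (s := 0) t (by omega) y, dg_cl _ _ dy, ?_⟩
    rw [N.bd_cl hh ht _ (by omega) hw, ← E.cl_oc (s := 0) s (by omega), hw]
    rfl
  · obtain ⟨r, rfl⟩ : ∃ r : ℕ, s = r + 1 := ⟨(s - 1).toNat, by omega⟩
    obtain ⟨x, dx, rfl⟩ := hx.exists (r + 1) (by omega)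
    rw [cl_ι, E.cl_eq_zero_oc rfl, Category.assoc, oc_nat, ← Category.assoc] at h0
    obtain ⟨y, hy⟩ := E.tri_co (tri_Fm r H') _ h0
    obtain ⟨y, dy, hy⟩ := (dx.comp (E.deg_oc _ _) (add_zero _)).left (deg_Fm r hh) hy
      (show -m + a = -n by omega)
    exact ⟨E.cl (s := r) t (by omega) y, dg_cl _ _ dy, (N.bd_cl hh ht _ _ hy).symm⟩

end Null

end TD

end Vale.Agent.P236SY
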