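import Vale.Agent.P236SY.Nf
import Vale.Agent.P236K.AlgB
import Vale.Agent.P236K.Trans
import Vale.Agent.P236TD.Defs

/-!
# P236, synthetic calculus: the input of the Toda construction from a synthetic relation
-/

open CategoryTheory MonoidalCategory Limits Pretriangulated MonObj

namespace Vale.Agent.P236SY

open GData Vale.Agent.P251 Vale.Agent.P251.T Vale.Agent.P251.S Vale.Agent.P251.H Vale.Agent.P251.M
  Vale.Agent.P251.F Vale.Agent.P251.I TD Vale.Agent.P236EL Vale.Agent.P236Z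
open Vale.Agent.P251.St (SHCat)

variable {T : SHCat}

theorem io_tens {S A : T.C} {σ : ob S ⟶ ob (𝟙_ T.C)} {u : ob (𝟙_ T.C) ⟶ ob (𝟙_ T.C)}
    {θ : S ⟶ 𝟙_ T.C} (h : σ ≫ u = io θ) (g : A ⟶ 𝟙_ T.C) :
    io ((θ ⊗ₘ g) ≫ (λ_ _).hom) = wr σ A ≫ io (λ_ A).hom ≫ io g ≫ u := by
  rw [MonoidalCategory.tensorHom_def, io_comp, io_comp, ← wr_io, ← h, wr_comp, Category.assoc,
    Category.assoc, wr_ex_assoc, ← io_comp_assoc, ← leftUnitor_naturality, unitors_equal, wr_rho,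
    io_comp_assoc]

@[reassoc]
theorem rho_wl_α (X Y : T.C) {M : T.C} (v : ob (𝟙_ T.C) ⟶ ob M) :
    io (ρ_ (X ⊗ Y)).inv ≫ wl (X ⊗ Y) v ≫ io (α_ X Y M).hom = wl X (io (ρ_ Y).inv ≫ wl Y v) := by
  rw [wl_α, wl_comp, wl_io, ← io_comp_assoc]
  congr 2
  monoidal

theorem tens_eq_zero {A B M : T.C} {n a : ℤ} {v : (𝟙_ T.C)⟦n⟧ ⟶ M} {x : A ⟶ B}
    {σ : ob A ⟶ ob (𝟙_ T.C)} {u : ob (𝟙_ T.C) ⟶ ob B} (du : Deg a u) (h : σ ≫ u = io x)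
    (h0 : u ≫ io (ρ_ B).inv ≫ wl B ((ush _ n).inv ≫ io v) = 0) : v ⊗ₘ x = 0 := by
  have h1 := interchange du (deg_ush (𝟙_ T.C) n)
  rw [← cancel_mono (β_ _ _).hom, BraidedCategory.braiding_naturality, zero_comp,
    MonoidalCategory.tensorHom_def, ← io_eq_zero, io_comp, io_comp, ← wr_io, ← wl_io, ← h,
    ← (ush (𝟙_ T.C) n).hom_inv_id_assoc (io v), wr_comp, wl_comp, Category.assoc,
    reassoc_of% h1, Linear.units_smul_comp, Category.assoc, ← io_hom_inv_assoc (ρ_ B) (wl B _),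
    wr_rho_assoc, h0]
  simp

namespace Cx

variable {C : Cx T} {t : Cob Laz 1}

theorem exists_v₀ (ht : IsT1 3 t) :
    ∃ v, C.E.Rep 4 0 v (C.φ C.Γ 0 v1 ≫ C.E.K.Qm 1 (io (C.red C.Γ))) := by
  obtain ⟨v, hv⟩ := (chart_Γ (C := C) (J := Unit)).cm.exists_rep' (n := 4) (cy_v1 ht)
    (by norm_num) fun r hr c => by omega
  exact ⟨v, by rwa [← psi_comp, psi_un] at hv⟩

theorem span_v (ht : IsT1 3 t) {v u : C.o C.Γ ⟶ C.o (C.Γ ⊗ C.M)}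
    (hv : C.E.Rep 4 0 v (C.φ C.Γ 0 v1 ≫ C.E.K.Qm 1 (io (C.red C.Γ)))) (hu : C.E.Dg 4 0 u) :
    ∃ a : ℤ, u = a • v := by
  have H := (chart_Γ (C := C) (J := Unit)).cm
  obtain ⟨F, hF, h⟩ := H.exists_rep (s := 0) (w := 1) hu (by norm_num)
  obtain ⟨a, ha⟩ := span_v1 ht hF
  obtain ⟨y, hy, e⟩ := H.eq_add h (x' := a • v)
    (by rw [map_zsmul, ← psi_comp, psi_un]; exact hv.zsmul a) ha (by norm_num)
  exact ⟨a, by rw [e, H.eq_zero' (s := 1) hy fun r hr c => by omega, zero_comp, add_zero]⟩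

theorem v_uniq {v u : C.o C.Γ ⟶ C.o (C.Γ ⊗ C.M)} {c : ob C.Γ ⟶ C.Q 0 (C.Γ ⊗ C.M)}
    (hv : C.E.Rep 4 0 v c) (hu : C.E.Rep 4 0 u c) : u = v := by
  obtain ⟨y, hy, e⟩ := hu.eq_add hv (by rw [sub_self]; exact cb_zero _ _)
  rw [e, (chart_Γ (J := Unit)).cm.eq_zero' (s := 1) hy fun r hr c => by omega, zero_comp, add_zero]

@[reassoc]
theorem dl_j : C.dl C.Γ ≫ io C.G.j = io (C.G.lam C.M) ≫ sm 1 C.δ := by
  rw [← C.G.lam_nat, dl, Category.assoc, ← io_comp, Gam.lam, unitors_equal, rightUnitor_naturality]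

theorem three_B (s : ℕ) (X : T.C) : (3 : ℤ) • 𝟙 (C.E.K.B s (ob (X ⊗ C.M))) = 0 := by
  rw [← C.E.Fm_id, ← map_zsmul, three_id, map_zero]

variable (C) in
/-- the structure map of the second stage -/
noncomputable def p₂ : C.U.I ⊗ C.U.I ⊗ C.Γ ⟶ 𝟙_ T.C :=
  (C.U.ε ▷ _ ≫ (λ_ _).hom) ≫ (C.U.ε ▷ _ ≫ (λ_ _).hom) ≫ C.G.j

theorem io_p₂ : io C.p₂ = C.E.dr (Nat.zero_le 2) (ob C.Γ) ≫ io C.G.j := by
  rw [C.E.dr_succ (Nat.zero_le 1), C.E.dr_one, p₂, io_comp, io_comp _ C.G.j, Category.assoc]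
  rfl

theorem af_p₂ {H : T.C} [MonObj H] [IsCommMonObj H] (hH : Tr.IsHF 3 η[H]) :
    Tr.AF η[H] 2 C.p₂ := by
  obtain ⟨u, _⟩ := Dt.exists_thom C.D hH.conc
  have h : ∀ X, Tr.Null η[H] (C.U.ε ▷ X ≫ (λ_ X).hom) := fun X => by
    have h1 := (C.U.dt X).zero
    rw [← io_comp, io_eq_zero] at h1
    rw [Tr.Null, ← P236K.un_thom' C.D u, ← Category.assoc, h1, zero_comp]
  exact (Tr.AF.of_null (h _)).succ ((h _).post _)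

/-- The cube of the Bockstein of `x` on the second stage of the tower. -/
theorem exists_cube (ht : IsT1 3 t) {n : ℤ} {x v : C.o C.Γ ⟶ C.o (C.Γ ⊗ C.M)}
    (hx : C.E.Dg (n + 1) 1 x) {f : ob (𝟙_ T.C) ⟶ ob (C.Γ ⊗ C.M)}
    (hf : x ≫ C.E.τ _ = C.E.ι (io C.G.j ≫ f)) {u : ob (𝟙_ T.C) ⟶ ob (𝟙_ T.C)}
    (hu : u = f ≫ io (C.G.lam C.M) ≫ sm 1 C.δ)
    (hv : C.E.Rep 4 0 v (C.φ C.Γ 0 v1 ≫ C.E.K.Qm 1 (io (C.red C.Γ))))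
    (h0 : (bd tf_Γ x ≫ bd tf_Γ x ≫ bd tf_Γ x ≫ v) ≫ C.E.tp 3 _ = 0) :
    ∃ z : ob (𝟙_ T.C) ⟶ ob (C.U.I ⊗ C.U.I ⊗ C.Γ), Deg (-(3 * n)) z ∧ (3 : ℤ) • z = 0 ∧
      z ≫ io C.p₂ = u ≫ u ≫ u ∧ ∀ w : ob (𝟙_ T.C) ⟶ ob C.M, Deg (-4) w →
        z ≫ io (ρ_ _).inv ≫ wl _ w = 0 := by
  have dθ : C.E.Dg n 2 (bd tf_Γ x) := dg_bd _ hx (by ring) rfl
  have h1 : bd tf_Γ x ≫ C.E.tp 2 _ = C.E.ι (io C.G.j ≫ f ≫ C.dl C.Γ) := by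
    rw [tp_succ, tp_succ, tp_zero, Category.id_comp, ← Category.assoc, bd_τ, Category.assoc,
      ← τ_comm, reassoc_of% hf, ← ι_comp, Category.assoc]
  obtain ⟨g, w, dg, -, hw, hg, e⟩ := (tf_Γ (C := C)).null.exists_bd (C.deg_dl C.Γ)
    (dθ.comp (dθ.comp hx rfl rfl) (l := 3 * n + 1) (u := 5) (by ring) rfl)
  obtain ⟨g₂, d₂, e₂⟩ := j_surj' (C := C) (three_B 2 C.Γ)
    (dg.comp (C.E.deg_dr (show 2 ≤ 5 by omega) _) (add_zero _))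
  refine ⟨g₂ ≫ C.E.Fm 2 (C.dl C.Γ), d₂.comp (deg_Fm 2 (C.deg_dl _)) (by ring), ?_, ?_,
    fun w' dw => ?_⟩
  · rw [← Preadditive.zsmul_comp, ← Category.comp_id g₂, ← Preadditive.comp_zsmul]
    exact (congrArg (fun k => (g₂ ≫ k) ≫ _) (three_B 2 C.Γ)).trans (by rw [comp_zero, zero_comp])
  · have h2 : g₂ ≫ C.E.dr (Nat.zero_le 2) _ = u ≫ u ≫ f := by
      have h3 := congrArg (· ≫ C.E.tp 5 _) hg
      simp only at h3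
      rw [C.E.cl_tp 5 (j := 0) rfl _ (Nat.zero_le _), ← C.E.cl_dr 0 le_rfl (Nat.zero_le 5),
        ← ι_eq, C.E.tp_add 2 3, C.E.tp_add 2 1, Category.assoc, Category.assoc,
        ← tp_comm_assoc, ← tp_comm_assoc, ← C.E.tp_comm_assoc 2 x, reassoc_of% h1, reassoc_of% h1,
        tp_succ, tp_zero, Category.id_comp, hf, ← ι_comp, ← ι_comp] at h3
      rw [← sub_eq_zero]
      refine j_inj (C := C) ?_
      rw [Preadditive.comp_sub, ← reassoc_of% e₂, dr_dr, ← C.E.ι_inj h3, hu]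
      simp only [Category.assoc, dl_j_assoc, sub_self]
    rw [io_p₂, Category.assoc, dr_nat_assoc, reassoc_of% h2, Fm_zero, dl_j, ← hu]
  · obtain ⟨a, ha⟩ := span_v ht hv (dg_ι ((deg_io (ρ_ C.Γ).inv).comp (Deg.wl _ dw) (zero_add _)))
    have h2 : (bd tf_Γ (bd tf_Γ x ≫ bd tf_Γ x ≫ x) ≫ C.E.ι (io (ρ_ C.Γ).inv ≫ wl _ w')) ≫
        C.E.tp 3 _ = 0 := by
      rw [comp_bd tf_Γ, comp_bd tf_Γ, ha, Preadditive.comp_zsmul, Preadditive.zsmul_comp,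
        Category.assoc _ _ v, Category.assoc _ _ v, h0, smul_zero]
    replace hw : w ≫ C.E.oc 5 _ = g ≫ C.E.Fm 5 _ := hw
    rw [show bd tf_Γ _ = _ from e, cl_ι, C.E.cl_tp 3 (j := 3) rfl _ (by omega),
      C.E.cl_eq_zero (m := 2) _ (by omega) rfl, Category.assoc, dr_nat,
      C.E.dr_succ (show 2 ≤ 5 by omega), Category.assoc, reassoc_of% hw, dr_nat_assoc,
      reassoc_of% e₂] at h2
    have h3 := j_inj' (C := C) (three_B 2 C.Γ) h2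
    rw [← cancel_mono (io (α_ _ _ _).hom), ← cancel_mono (io (C.U.I ◁ (α_ _ _ _).hom)),
      Category.assoc, Category.assoc, Category.assoc, Category.assoc, rho_wl_α_assoc, ← wl_io,
      ← wl_comp, Category.assoc, rho_wl_α, zero_comp, zero_comp]
    exact h3

theorem tinat₀ (ht : IsT1 3 t) {j : ℕ} {x v : C.o C.Γ ⟶ C.o (C.Γ ⊗ C.M)} {y : Cob Laz 1}
    {z : Cob Laz 0} {m : ℤ} (hy : Cob.IsWt (Det.w0 j) y) (hz : Cob.IsWt (Det.w0 j) z)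
    (hm' : ¬ 3 ∣ m) (hm : y - Cob.d 0 z - m * t ^ 3 ^ (j + 1) ∈ Det.II 1)
    (hx : C.E.Rep (4 * 3 ^ (j + 1) - 1) 1 x (C.φ C.Γ 1 y ≫ C.E.K.Qm 2 (io (C.red C.Γ))))
    (hv : C.E.Rep 4 0 v (C.φ C.Γ 0 v1 ≫ C.E.K.Qm 1 (io (C.red C.Γ))))
    (h0 : (bd tf_Γ x ≫ bd tf_Γ x ≫ bd tf_Γ x ≫ v) ≫ C.E.tp 3 _ = 0) {H₀ : T.C}
    {e₀ : 𝟙_ T.C ⟶ H₀} (hH₀ : Tr.IsHF 3 e₀) : P236TD.TINat j T e₀ C.δ := by
  have := locallySmall_self.{0} T.C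
  obtain ⟨H, _, _, hH⟩ := Dt.exists_HFmon C.F (p := 3) (by norm_num)
  have hn : (4 * 3 ^ (j + 1) - 1 : ℤ) + 1 = 2 * Det.w0 j := by rw [Det.w0]; ring
  rw [P236TD.TINat]
  generalize hN : (4 * 3 ^ (j + 1) - 2 : ℤ) = N
  have hN' : (4 * 3 ^ (j + 1) - 1 : ℤ) = N + 1 := by omega
  rw [hN'] at hx hn
  obtain ⟨g₁, d₁, e₁⟩ := hx.dg.exists_up
  obtain ⟨f₀, d₀, e₂⟩ := j_surj (C := C) (d₁.comp (C.E.deg_ε _) (add_zero _))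
  have e₃ : x ≫ C.E.τ _ = C.E.ι (io C.G.j ≫ f₀) := by rw [e₁, up_τ, e₂]
  obtain ⟨z', dz, z3, zp, zv⟩ := exists_cube ht hx.dg e₃ rfl hv h0
  have dσ := deg_ush (𝟙_ T.C) N
  have d₂ := d₀.comp (deg_io (C.G.lam C.M)) rfl
  obtain ⟨θ, hθ⟩ := Deg.exists_io (dσ.comp (d₂.comp (deg_sm 1 C.δ) rfl) (by ring))
  obtain ⟨f, hf⟩ := Deg.exists_io ((deg_ush _ 1).comp (dσ.comp d₂ rfl) (by ring))
  obtain ⟨X, hX⟩ := Deg.exists_io (((Deg.wr _ dσ).comp ((deg_io (λ_ _).hom).comp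
    ((Deg.wr _ dσ).comp ((deg_io (λ_ _).hom).comp dσ rfl) rfl) rfl) rfl).comp dz (by ring))
  refine ⟨(𝟙_ T.C)⟦N⟧, Iso.refl _, f, θ, sm_inj ?_, fun hA => ?_, _, C.p₂, X,
    P236K.af_change C.F hH hH₀ (af_p₂ hH), io_inj ?_, io_inj ?_,
    fun w => tens_eq_zero dz hX (zv _ ((deg_ush_inv _ _).comp (deg_io w) rfl))⟩
  · rw [← io_sm, ← hf, sm_eq 1 (θ⟦1⟧'), ush_nat, ← hθ, Category.assoc, Category.assoc]
  · refine not_af hH ht hy hz hm' hm hx hn (σ := io C.G.j ≫ (ush _ N).inv ≫ (ush _ 1).inv)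
      ((deg_io _).comp ((deg_ush_inv _ _).comp (deg_ush_inv _ _) rfl) (by ring)) ?_
      ((P236K.af_change C.F hH₀ hH hA).post (inv (C.G.lam C.M)))
    rw [e₃, io_comp, ← hf]
    simp only [Category.assoc, Iso.inv_hom_id_assoc]
    rw [← io_comp, IsIso.hom_inv_id, io_id, Category.comp_id]
  · rw [io_comp, ← hX, Category.assoc, zp, ← leftUnitor_naturality, ← Category.assoc (θ ⊗ₘ _),
      ← id_tensorHom, tensorHom_comp_tensorHom, Category.comp_id, io_tens hθ, io_tens hθ, ← hθ]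
    simp only [Category.assoc]
  · rw [io_zsmul, ← hX, ← Preadditive.comp_zsmul, show (9 : ℤ) = 3 * 3 from rfl, mul_smul, z3,
      smul_zero, comp_zero, io_zero]

theorem exists_unit (ht : IsT1 3 t) {j : ℕ} {n : ℤ} {x : C.o C.Γ ⟶ C.o (C.Γ ⊗ C.M)}
    {y : Cob Laz 1} (hy : Cob.IsWt (Det.w0 j) y)
    (hne : ∀ z, Cob.IsWt (Det.w0 j) z → y - Cob.d 0 z ∉ Det.II 1)
    (hx : C.E.Rep n 1 x (C.φ C.Γ 1 y ≫ C.E.K.Qm 2 (io (C.red C.Γ)))) :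
    ∃ (z : Cob Laz 0) (m : ℤ), Cob.IsWt (Det.w0 j) z ∧ ¬ 3 ∣ m ∧
      y - Cob.d 0 z - m * t ^ 3 ^ (j + 1) ∈ Det.II 1 := by
  obtain ⟨c, hc, hd⟩ := base_ker (C := C) hy.d (by
    rw [Φ_d, Category.assoc, ← C.E.K.d_naturality, ← Category.assoc, hx.cyc])
  obtain ⟨m, z, -, hz, -, hm, -⟩ := P236K.listM ht hy hc (r := 0) (by rw [hd]; simp)
  refine ⟨z, m, hz, ?_, hm⟩
  rintro ⟨k, rfl⟩
  refine hne z hz ?_
  have h1 := Ideal.add_mem _ hm (Det.three_mul_mem ((k : Cob Laz 1) * t ^ 3 ^ (j + 1)))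
  push_cast at h1
  rwa [← _root_.mul_assoc, sub_add_cancel] at h1

end Cx

/-- The synthetic form of the input, with an explicit leading term. -/
def SYN₀ (j : ℕ) : Prop := ∀ (T : SHCat) (C : Cx T) (t : Cob Laz 1), IsT1 3 t →
  ∃ (x v : C.o C.Γ ⟶ C.o (C.Γ ⊗ C.M)) (y : Cob Laz 1) (z : Cob Laz 0) (m : ℤ),
    Cob.IsWt (Det.w0 j) y ∧ Cob.IsWt (Det.w0 j) z ∧ ¬ 3 ∣ m ∧
    y - Cob.d 0 z - m * t ^ 3 ^ (j + 1) ∈ Det.II 1 ∧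
    C.E.Rep (4 * 3 ^ (j + 1) - 1) 1 x (C.φ C.Γ 1 y ≫ C.E.K.Qm 2 (io (C.red C.Γ))) ∧
    C.E.Rep 4 0 v (C.φ C.Γ 0 v1 ≫ C.E.K.Qm 1 (io (C.red C.Γ))) ∧
    (Cx.bd Cx.tf_Γ x ≫ Cx.bd Cx.tf_Γ x ≫ Cx.bd Cx.tf_Γ x ≫ v) ≫ C.E.tp 3 _ = 0

/-- The synthetic form of the input: a class `x` of filtration one on the Moore spectrum which is
detected modulo the ideal `I_3`, such that `τ ^ 3 v_1 θ ^ 3 = 0` for its Bockstein `θ`. -/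
def SYN (j : ℕ) : Prop := ∀ (T : SHCat) (C : Cx T) (t : Cob Laz 1), IsT1 3 t →
  ∃ (x v : C.o C.Γ ⟶ C.o (C.Γ ⊗ C.M)) (y : Cob Laz 1), Cob.IsWt (Det.w0 j) y ∧
    (∀ z, Cob.IsWt (Det.w0 j) z → y - Cob.d 0 z ∉ Det.II 1) ∧
    C.E.Rep (4 * 3 ^ (j + 1) - 1) 1 x (C.φ C.Γ 1 y ≫ C.E.K.Qm 2 (io (C.red C.Γ))) ∧
    C.E.Rep 4 0 v (C.φ C.Γ 0 v1 ≫ C.E.K.Qm 1 (io (C.red C.Γ))) ∧
    (Cx.bd Cx.tf_Γ x ≫ Cx.bd Cx.tf_Γ x ≫ Cx.bd Cx.tf_Γ x ≫ v) ≫ C.E.tp 3 _ = 0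

theorem tin_of_syn₀ {j : ℕ} (h : SYN₀ j) : P236TD.TIN j := by
  intro T F H₀ e₀ hH₀ M i δ hM
  have := locallySmall_self.{0} T.C
  obtain ⟨P⟩ := nonempty_MUMon F (stdEven T.C) (lineIso F)
  obtain ⟨bs⟩ := P.nonempty_muBasis
  obtain ⟨U⟩ := exists_uf (P.data bs).R
  obtain ⟨G⟩ := exists_gam (T := T.C)
  obtain ⟨t, ht⟩ := T1 3
  obtain ⟨x, v, y, z, m, hy, hz, hm', hm, hx, hv, h0⟩ :=
    h T ⟨F, P.data bs, P.muUniv bs, U, G, M, i, δ, hM⟩ t ht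
  exact Cx.tinat₀ ht hy hz hm' hm hx hv h0 hH₀

theorem tin_of_syn {j : ℕ} (h : SYN j) : P236TD.TIN j := tin_of_syn₀ fun T C t ht => by
  obtain ⟨x, v, y, hy, hne, hx, hv, h0⟩ := h T C t ht
  obtain ⟨z, m, hz, hm', hm⟩ := Cx.exists_unit ht hy hne hx
  exact ⟨x, v, y, z, m, hy, hz, hm', hm, hx, hv, h0⟩

end Vale.Agent.P236SY
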