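import Vale.Agent.P236SY.ST
import Vale.Agent.P236EL.Tool

/-!
# P236, synthetic calculus: charts

`C.CM e d θ`: the cochains of `W` are `Cob / 3` on the cells `e c` of dimensions `4 * d c`;
`C.Chart e d θ`: the same for the completed cochains of `Z`.
-/

open CategoryTheory MonoidalCategory Limits Pretriangulated MonObj

namespace Vale.Agent.P236SY

open GData Vale.Agent.P251 Vale.Agent.P251.T Vale.Agent.P251.S Vale.Agent.P251.H Vale.Agent.P251.M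
  Vale.Agent.P251.F Vale.Agent.P251.I TD Vale.Agent.P236EL
open Vale.Agent.P251.St (SHCat)

namespace TD

variable {O : Type*} {D : GData O} (E : TD D) {V Y Z : D.Cat} {t : ℕ}

theorem act_d (e : V ⟶ E.K.M.obj Z) (y : Z ⟶ E.K.M.obj Y) : E.act (t := 0) e y ≫ E.K.d 1 Y =
    E.cup (s := 1) (t := 0) (e ≫ E.K.d 1 Z) y + E.act (t := 1) e (y ≫ E.K.d 1 Y) := by
  have h := E.cup_d_zero (s := 0) e y
  rw [pow_zero, one_smul, cup_zero] at h
  exact h.trans (congrArg _ (congrArg (e ≫ ·) (Category.comp_id _)))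

theorem act_un (e : V ⟶ E.K.M.obj Z) : E.act (t := 0) e (E.K.un Z) = e :=
  (congrArg (e ≫ ·) (E.K.right_unit Z)).trans (Category.comp_id _)

theorem act_zsmul (k : ℤ) (e : V ⟶ E.K.M.obj Z) (c : Z ⟶ E.K.Q (t + 1) Y) :
    E.act e (k • c) = k • E.act e c := by
  rw [act, act, Functor.map_zsmul, Preadditive.zsmul_comp, Preadditive.comp_zsmul]

theorem zsmul_act (k : ℤ) (e : V ⟶ E.K.M.obj Z) (c : Z ⟶ E.K.Q (t + 1) Y) :
    E.act (k • e) c = k • E.act e c := Preadditive.zsmul_comp _ _ _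

theorem deg_act {a b k : ℤ} {e : V ⟶ E.K.M.obj Z} {c : Z ⟶ E.K.Q (t + 1) Y} (he : Deg a e)
    (hc : Deg b c) (h : a + b = k) : Deg k (E.act e c) :=
  he.comp ((E.deg_M hc).comp (E.deg_mo _ _) (add_zero _)) h

end TD

variable {J L : Type} {s : ℕ} {w : ℤ}

theorem mem_CW {d : J → ℤ} {F : J → Cob Laz s} :
    F ∈ CW 3 Laz d w s ↔ ∀ c, Cob.IsWt (2 * w - 2 * d c) (F c) :=
  forall_congr' fun c => by
    rw [show 2 * w - 2 * d c = (((3 : ℕ) : ℤ) - 1) * (w - d c) by push_cast; ring]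

/-- The coaction of an extension. -/
noncomputable def blk (θ : J → J → Cob Laz 1) (ζ : L → L → Cob Laz 1) (A : L → J → Cob Laz 1) :
    J ⊕ L → J ⊕ L → Cob Laz 1 :=
  Sum.elim (fun i => Sum.elim (θ i) 0) fun j => Sum.elim (A j) (ζ j)

variable {T : SHCat} [Fintype J] [Fintype L]

namespace Cx

variable {C : Cx T} {W X Y Z : T.C}

theorem psi_sum (e : J ⊕ L → (ob C.Γ ⟶ C.Q 0 Z)) (F : J ⊕ L → Cob Laz s) :
    C.psi e s F = C.psi (fun i => e (.inl i)) s (fun i => F (.inl i)) +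
      C.psi (fun j => e (.inr j)) s (fun j => F (.inr j)) := Fintype.sum_sum_type _

theorem psi_equiv (σ : L ≃ J) (e : J → (ob C.Γ ⟶ C.Q 0 Z)) (F : J → Cob Laz s) :
    C.psi (fun l => e (σ l)) s (fun l => F (σ l)) = C.psi e s F :=
  σ.sum_comp fun c => C.E.cup (t := 0) (C.φ C.Γ s (F c)) (e c)

theorem psi_un [Unique J] (F : J → Cob Laz s) :
    C.psi (fun _ : J => C.E.K.un (ob C.Γ)) s F = C.φ C.Γ s (F default) := by
  rw [psi_apply, Fintype.sum_unique, cup_un]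

theorem psi_three {e : J → (ob C.Γ ⟶ C.Q 0 Z)} (h : ∀ c, (3 : ℤ) • e c = 0) (F : J → Cob Laz s) :
    C.psi e s ((3 : ℕ) • F) = 0 := by
  rw [map_nsmul, psi_apply, Finset.smul_sum]
  refine Finset.sum_eq_zero fun c _ => ?_
  rw [← cupH_apply, ← map_nsmul, ← natCast_zsmul, Nat.cast_ofNat, h, map_zero]

/-- The cells of an extension. -/
theorem Cells.ext {e : J → (ob C.Γ ⟶ C.Q 0 X)} {e' : L → (ob C.Γ ⟶ C.Q 0 Z)} {d : J → ℤ}
    {d' : L → ℤ} {θ : J → J → Cob Laz 1} {ζ : L → L → Cob Laz 1} (H : C.Cells e d θ)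
    (H' : C.Cells e' d' ζ) {a b : ℤ} {f : ob X ⟶ ob Y} (hf : Deg (-(2 * a)) f)
    {x : ob Z ⟶ C.Q 1 X} {y : ob Z ⟶ C.Q 0 Y} (dy : Deg (2 * b) y)
    (hy : y ≫ C.E.K.d 1 (ob Y) = -x ≫ C.E.K.Qm 2 f) {A : L → J → Cob Laz 1}
    (hA : ∀ j, C.E.act (e' j) x = C.psi e 1 (A j))
    (wA : ∀ j i, Cob.IsWt (d' j - b - (d i + a)) (A j i)) :
    C.Cells (Sum.elim (fun i => e i ≫ C.E.K.Qm 1 f) fun j => C.E.act (t := 0) (e' j) y)
      (Sum.elim (fun i => d i + a) fun j => d' j - b) (blk θ ζ A) where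
  wt := by
    rintro (i | j) (i' | j')
    · exact (H.comp hf).wt i i'
    · exact Cob.isWt_zero _
    · exact wA j i'
    · simpa [blk] using H'.wt j j'
  deg := by
    rintro (i | j)
    · exact (H.comp hf).deg i
    · exact C.E.deg_act (H'.deg j) dy (by simp only [Sum.elim_inr]; ring)
  de := by
    rintro (i | j)
    · rw [psi_sum]
      exact ((H.comp hf).de i).trans (congrArg _ ((add_zero _).symm.trans
        (congrArg _ (map_zero _).symm)))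
    · rw [psi_sum, neg_add_rev]
      refine (C.E.act_d _ _).trans (congrArg₂ (· + ·) ?_ ?_)
      · rw [H'.de, ← cupH_apply, map_neg, AddMonoidHom.neg_apply, cupH_apply, psi_cup_sum]
        rfl
      · rw [hy, ← neg_one_zsmul, act_zsmul, act_comp, hA, psi_comp, neg_one_zsmul]
        rfl

theorem Cells.reindex {e : J → (ob C.Γ ⟶ C.Q 0 Z)} {d : J → ℤ} {θ : J → J → Cob Laz 1}
    (H : C.Cells e d θ) (σ : L ≃ J) :
    C.Cells (fun l => e (σ l)) (fun l => d (σ l)) fun l l' => θ (σ l) (σ l') :=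
  ⟨fun _ _ => H.wt _ _, fun _ => H.deg _, fun l => by rw [H.de, psi_equiv σ e (θ (σ l))]⟩

variable (C) in
/-- A chart modulo three. -/
structure CM (e : J → (ob C.Γ ⟶ C.Q 0 W)) (d : J → ℤ) (θ : J → J → Cob Laz 1) : Prop where
  cells : C.Cells e (fun c => 2 * d c) θ
  fc : C.Fc W
  three : ∀ c, (3 : ℤ) • e c = 0
  surj : ∀ {s : ℕ} {w : ℤ} {x : ob C.Γ ⟶ C.Q s W}, Deg (-(4 * w)) x →
    ∃ F ∈ CW 3 Laz d w s, x = C.psi e s F
  ker : ∀ {s : ℕ} {w : ℤ} {F : J → Cob Laz s}, F ∈ CW 3 Laz d w s → C.psi e s F = 0 →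
    ∃ F' ∈ CW 3 Laz d w s, F = (3 : ℕ) • F'
  odd : ∀ {s : ℕ} {a : ℤ} {x : ob C.Γ ⟶ C.Q s W}, Odd a → Deg a x → x = 0
  van : ∀ {n : ℤ} {s : ℕ}, (∀ c, ¬ ((4 : ℤ) ∣ n + s ∧ 3 * (s : ℤ) ≤ n - 4 * d c)) →
    C.E.Van (ob C.Γ) (ob W) n s

variable (C) in
/-- An integral chart. -/
structure Chart (e : J → (ob C.Γ ⟶ C.Q 0 Z)) (d : J → ℤ) (θ : J → J → Cob Laz 1) : Prop where
  cells : C.Cells e (fun c => 2 * d c) θ
  fc : C.Fc Z
  cm : C.CM (fun c => e c ≫ C.E.K.Qm 1 (io (C.red Z))) d θ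

theorem Cells.deg_cw {e : J → (ob C.Γ ⟶ C.Q 0 Z)} {d : J → ℤ} {θ : J → J → Cob Laz 1}
    (H : C.Cells e (fun c => 2 * d c) θ) {F : J → Cob Laz s} (hF : F ∈ CW 3 Laz d w s) {a : ℤ}
    (h : a = -(4 * w)) : Deg a (C.psi e s F) := H.deg_psi (mem_CW.1 hF) (by omega)

theorem Cells.DD_mem {e : J → (ob C.Γ ⟶ C.Q 0 Z)} {d : J → ℤ} {θ : J → J → Cob Laz 1}
    (H : C.Cells e (fun c => 2 * d c) θ) {F : J → Cob Laz s} (hF : F ∈ CW 3 Laz d w s) :
    DD θ s F ∈ CW 3 Laz d w (s + 1) :=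
  DD_mem_CW (fun c c' => by
    rw [show (((3 : ℕ) : ℤ) - 1) * (d c - d c') = 2 * d c - 2 * d c' by push_cast; ring]
    exact H.wt c c') hF

theorem CM.reindex {e : J → (ob C.Γ ⟶ C.Q 0 W)} {d : J → ℤ} {θ : J → J → Cob Laz 1}
    (H : C.CM e d θ) (σ : L ≃ J) :
    C.CM (fun l => e (σ l)) (fun l => d (σ l)) fun l l' => θ (σ l) (σ l') where
  cells := H.cells.reindex σ
  fc := H.fc
  three _ := H.three _
  surj hx := by
    obtain ⟨F, hF, rfl⟩ := H.surj hx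
    exact ⟨fun l => F (σ l), fun l => hF (σ l), (psi_equiv σ e F).symm⟩
  ker {s w F} hF h := by
    obtain ⟨F', hF', e⟩ := H.ker (w := w) (F := fun c => F (σ.symm c))
      (fun c => by simpa using hF (σ.symm c)) (by simpa [← psi_equiv σ] using h)
    exact ⟨fun l => F' (σ l), fun l => hF' (σ l), funext fun l => by simpa using congrFun e (σ l)⟩
  odd := H.odd
  van h := H.van fun c => by simpa using h (σ.symm c)

theorem Chart.reindex {e : J → (ob C.Γ ⟶ C.Q 0 Z)} {d : J → ℤ} {θ : J → J → Cob Laz 1}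
    (H : C.Chart e d θ) (σ : L ≃ J) {e' : L → (ob C.Γ ⟶ C.Q 0 Z)} {d' : L → ℤ}
    {θ' : L → L → Cob Laz 1} (he : ∀ l, e' l = e (σ l)) (hd : ∀ l, d' l = d (σ l))
    (hθ : ∀ l l', θ' l l' = θ (σ l) (σ l')) : C.Chart e' d' θ' := by
  obtain rfl := funext he
  obtain rfl := funext hd
  obtain rfl := funext₂ hθ
  exact ⟨H.cells.reindex σ, H.fc, H.cm.reindex σ⟩

/-- The chart of the sphere. -/
theorem chart_Γ [Unique J] : C.Chart (fun _ : J => C.E.K.un (ob C.Γ)) (fun _ => 0) 0 := by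
  have H : C.Cells (fun _ : J => C.E.K.un (ob C.Γ)) (fun _ => 2 * 0) 0 :=
    ⟨fun _ _ => Cob.isWt_zero _, fun _ => C.E.deg_un _, fun _ =>
      (C.E.K.d_d 0 _).trans (neg_zero.symm.trans (congrArg _ (map_zero _).symm))⟩
  refine ⟨H, Fc.base, H.red, Fc.base.M, fun _ => three_Q C _, fun {s w x} hx => ?_,
    fun {s w F} hF h => ?_, fun ha hc => base_odd ha hc, fun h => van_ΓM (by simpa using h default)⟩
  · obtain ⟨z, hz, rfl⟩ := base_surj (w := 2 * w) (hx.cast (by ring))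
    exact ⟨fun _ => z, mem_CW.2 fun _ => by simpa using hz, by rw [← psi_comp, psi_un]⟩
  · rw [← psi_comp, psi_un] at h
    obtain ⟨y, hy, e⟩ := base_ker (mem_CW.1 hF default) h
    exact ⟨fun _ => y, mem_CW.2 fun _ => hy, funext fun c => by
      rw [Subsingleton.elim c default, e]; exact natCast_zsmul y 3⟩

section ext

variable {e : J → (ob C.Γ ⟶ C.Q 0 X)} {e' : L → (ob C.Γ ⟶ C.Q 0 Z)} {d : J → ℤ} {d' : L → ℤ}
  {θ : J → J → Cob Laz 1} {ζ : L → L → Cob Laz 1} {a b c : ℤ} {f : ob X ⟶ ob Y}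
  {g : ob Y ⟶ ob Z}

theorem CM.ext_of (H : C.CM e d θ) (H' : C.CM e' d' ζ) (S : C.E.Ses (ob C.Γ) (4 * a) (4 * b) f g)
    (hY : C.Fc Y) {e₀ : J ⊕ L → (ob C.Γ ⟶ C.Q 0 Y)} {θ₀ : J ⊕ L → J ⊕ L → Cob Laz 1}
    (H₀ : C.Cells e₀ (fun c => 2 * Sum.elim (fun i => d i + a) (fun j => d' j - b) c) θ₀)
    (h1 : ∀ i, e₀ (.inl i) = e i ≫ C.E.K.Qm 1 f) (h2 : ∀ j, e₀ (.inr j) ≫ C.E.K.Qm 1 g = e' j)
    (h3 : ∀ j, (3 : ℤ) • e₀ (.inr j) = 0) :
    C.CM e₀ (Sum.elim (fun i => d i + a) fun j => d' j - b) θ₀ := by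
  have k1 : ∀ {s : ℕ} (F : J ⊕ L → Cob Laz s), C.psi e₀ s F = C.psi e s (fun i => F (.inl i)) ≫
      C.E.K.Qm (s + 1) f + C.psi (fun j => e₀ (.inr j)) s fun j => F (.inr j) := fun F => by
    rw [psi_sum, psi_comp, funext h1]
  have k2 : ∀ {s : ℕ} (F : L → Cob Laz s),
      C.psi (fun j => e₀ (.inr j)) s F ≫ C.E.K.Qm (s + 1) g = C.psi e' s F := fun F => by
    rw [psi_comp, funext h2]
  refine ⟨H₀, hY, ?_, fun {s w x} hx => ?_, fun {s w F} hF h => ?_, fun {s k x} hk hx => ?_,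
    fun {n s} h => S.van₂ (m := n - 4 * a) (l := n + 4 * b) (H.van fun i => ?_)
      (H'.van fun j => ?_) (by ring) rfl⟩
  · rintro (i | j)
    · rw [h1, ← Preadditive.zsmul_comp, H.three, zero_comp]
    · exact h3 j
  · obtain ⟨F₂, hF₂, k3⟩ := H'.surj (w := w + b) (hx.comp (deg_Qm _ S.deg₂) (by ring))
    have k4 : Sum.elim (0 : J → _) F₂ ∈
        CW 3 Laz (Sum.elim (fun i => d i + a) fun j => d' j - b) w s := by
      rintro (i | j)
      · exact Cob.isWt_zero _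
      · simpa only [Sum.elim_inr, show w - (d' j - b) = w + b - d' j by ring] using hF₂ j
    obtain ⟨y, dy, k5⟩ := S.ex (hx.sub (H₀.deg_cw k4 rfl)) (by
      rw [Preadditive.sub_comp, k3, k1, Preadditive.add_comp, k2, Category.assoc, ← C.E.K.Qm_comp,
        S.zero, C.E.K.Qm_zero', comp_zero, zero_add]
      exact sub_self _)
    obtain ⟨F₁, hF₁, rfl⟩ := H.surj (w := w - a) (dy.cast (by ring))
    refine ⟨Sum.elim F₁ F₂, ?_, ?_⟩
    · rintro (i | j)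
      · simpa only [Sum.elim_inl, show w - (d i + a) = w - a - d i by ring] using hF₁ i
      · exact k4 (.inr j)
    · rw [k1, sub_eq_iff_eq_add.1 k5, k1]
      exact congrArg _ ((congrArg (· + _) ((congrArg (· ≫ _) (map_zero _)).trans zero_comp)).trans
        (zero_add _))
  · rw [k1] at h
    obtain ⟨F₂, hF₂, k3⟩ := H'.ker (w := w + b) (F := fun j => F (.inr j)) (fun j => by
      simpa only [Sum.elim_inr, show w - (d' j - b) = w + b - d' j by ring] using hF (.inr j)) (by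
        have := congrArg (· ≫ C.E.K.Qm (s + 1) g) h
        simp only [Preadditive.add_comp, zero_comp] at this
        rwa [k2, Category.assoc, ← C.E.K.Qm_comp, S.zero, C.E.K.Qm_zero', comp_zero,
          zero_add] at this)
    rw [k3, psi_three h3, add_zero] at h
    obtain ⟨F₁, hF₁, k4⟩ := H.ker (w := w - a) (F := fun i => F (.inl i)) (fun i => by
      simpa only [Sum.elim_inl, show w - (d i + a) = w - a - d i by ring] using hF (.inl i))
      (S.inj h)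
    refine ⟨Sum.elim F₁ F₂, ?_, funext ?_⟩
    · rintro (i | j)
      · simpa only [Sum.elim_inl, show w - (d i + a) = w - a - d i by ring] using hF₁ i
      · simpa only [Sum.elim_inr, show w - (d' j - b) = w + b - d' j by ring] using hF₂ j
    · rintro (i | j)
      · exact congrFun k4 i
      · exact congrFun k3 j
  · obtain ⟨y, dy, rfl⟩ := S.ex hx (H'.odd (hk.add_even ⟨-(2 * b), by ring⟩)
      (hx.comp (deg_Qm _ S.deg₂) rfl))
    rw [H.odd (hk.add_even ⟨2 * a, by ring⟩) dy, zero_comp]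
  · have := h (.inl i)
    simp only [Sum.elim_inl] at this
    omega
  · have := h (.inr j)
    simp only [Sum.elim_inr] at this
    omega

variable {k : C.o Z ⟶ C.o X} {x : ob Z ⟶ C.Q 1 X} {A : L → J → Cob Laz 1}

theorem ST.cell' (S : C.ST a b c f g k) (hx : C.E.Rep c 1 k x) : ∃ (u : ℤˣ) (y : ob Z ⟶ C.Q 0 Y),
    Deg b y ∧ y ≫ C.E.K.Qm 1 (u • g) = C.E.K.un (ob Z) ∧
      y ≫ C.E.K.d 1 (ob Y) = -x ≫ C.E.K.Qm 2 f := by
  obtain ⟨u, y, dy, h1, h2⟩ := S.cell hx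
  refine ⟨-u, -y, dy.neg, ?_, by rw [Preadditive.neg_comp, h2]⟩
  rw [Units.smul_def, Qm_zsmul, Preadditive.comp_zsmul, Preadditive.neg_comp, h1, ← Units.smul_def,
    smul_neg, Units.neg_smul, neg_neg, smul_smul, Int.units_mul_self, one_smul]

theorem cells_ext (H : C.Cells e (fun c => 2 * d c) θ) (H' : C.Cells e' (fun c => 2 * d' c) ζ)
    (S : C.ST (4 * a) (4 * b) c f g k) (hx : C.E.Rep c 1 k x)
    (hA : ∀ j, C.E.act (e' j) x = C.psi e 1 (A j)) (wA : ∀ j, A j ∈ CW 3 Laz d (d' j - b - a) 1) :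
    ∃ (u : ℤˣ) (y : ob Z ⟶ C.Q 0 Y), (∀ j, C.E.act (t := 0) (e' j) y ≫ C.E.K.Qm 1 (u • g) = e' j) ∧
      C.Cells (Sum.elim (fun i => e i ≫ C.E.K.Qm 1 f) fun j => C.E.act (t := 0) (e' j) y)
        (fun c => 2 * Sum.elim (fun i => d i + a) (fun j => d' j - b) c) (blk θ ζ A) := by
  obtain ⟨u, y, dy, h1, h2⟩ := S.cell' hx
  refine ⟨u, y, fun j => by rw [← act_comp, h1, act_un], ?_⟩
  convert H.ext H' (a := 2 * a) (b := 2 * b) (S.deg₁.cast (by ring)) (dy.cast (by ring)) h2 hA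
    fun j i => by convert mem_CW.1 (wA j) i using 1; ring using 1
  funext c
  rcases c with i | j <;> simp only [Sum.elim_inl, Sum.elim_inr] <;> ring

/-- The chart of an extension, modulo three. -/
theorem CM.ext (H : C.CM e d θ) (H' : C.CM e' d' ζ) (S : C.ST (4 * a) (4 * b) c f g k)
    (hx : C.E.Rep c 1 k x) (hA : ∀ j, C.E.act (e' j) x = C.psi e 1 (A j))
    (wA : ∀ j, A j ∈ CW 3 Laz d (d' j - b - a) 1) : ∃ (u : ℤˣ) (e₂ : L → (ob C.Γ ⟶ C.Q 0 Y)),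
      (∀ j, e₂ j ≫ C.E.K.Qm 1 (u • g) = e' j) ∧
      C.CM (Sum.elim (fun i => e i ≫ C.E.K.Qm 1 f) e₂)
        (Sum.elim (fun i => d i + a) fun j => d' j - b) (blk θ ζ A) := by
  obtain ⟨u, y, h1, h2⟩ := cells_ext H.cells H'.cells S hx hA wA
  exact ⟨u, _, h1, H.ext_of H' ((S.usmul₂ u).ses _) (S.fc₂ H.fc H'.fc) h2 (fun _ => rfl) h1
    fun j => (C.E.zsmul_act _ _ _).symm.trans (by rw [H'.three]; exact zero_comp)⟩

theorem red_M {V : Gr T.C} (z : V ⟶ C.Q s X) (f : ob X ⟶ ob Y) :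
    (z ≫ C.E.K.Qm (s + 1) f) ≫ C.E.K.Qm (s + 1) (io (C.red Y)) =
      (z ≫ C.E.K.Qm (s + 1) (io (C.red X))) ≫ C.E.K.Qm (s + 1) (wr f C.M) := by
  rw [Category.assoc, Category.assoc, ← C.E.K.Qm_comp, ← C.E.K.Qm_comp, red_nat]

/-- The chart of an extension. -/
theorem Chart.ext (H : C.Chart e d θ) (H' : C.Chart e' d' ζ) (S : C.ST (4 * a) (4 * b) c f g k)
    (hx : C.E.Rep c 1 k x) (hA : ∀ j, C.E.act (e' j) x = C.psi e 1 (A j))
    (wA : ∀ j, A j ∈ CW 3 Laz d (d' j - b - a) 1) : ∃ (u : ℤˣ) (e₂ : L → (ob C.Γ ⟶ C.Q 0 Y)),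
      (∀ j, e₂ j ≫ C.E.K.Qm 1 (u • g) = e' j) ∧
      C.Chart (Sum.elim (fun i => e i ≫ C.E.K.Qm 1 f) e₂)
        (Sum.elim (fun i => d i + a) fun j => d' j - b) (blk θ ζ A) := by
  obtain ⟨u, y, h1, h2⟩ := cells_ext H.cells H'.cells S hx hA wA
  exact ⟨u, _, h1, h2, S.fc₂ H.fc H'.fc, H.cm.ext_of H'.cm (((S.usmul₂ u).wr C.M).ses _)
    (S.fc₂ H.fc H'.fc).M h2.red (fun i => red_M _ _)
    (fun j => (red_M _ _).symm.trans (congrArg (· ≫ _) (h1 j))) fun _ => three_Q C _⟩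

end ext

/-- Attaching a cell along a class of filtration one with a given cocycle. -/
theorem Chart.cone {e : J → (ob C.Γ ⟶ C.Q 0 X)} {d : J → ℤ} {θ : J → J → Cob Laz 1}
    (H : C.Chart e d θ) {n : ℤ} {k : C.o C.Γ ⟶ C.o X} {F : J → Cob Laz 1}
    (hF : F ∈ CW 3 Laz d w 1) (hk : C.E.Rep n 1 k (C.psi e 1 F)) (hn : n + 1 = 4 * w) :
    ∃ (Y : T.C) (f : ob X ⟶ ob Y) (g : ob Y ⟶ ob C.Γ) (y : ob C.Γ ⟶ C.Q 0 Y),
      C.ST 0 (-(4 * w)) n f g k ∧ y ≫ C.E.K.Qm 1 g = C.E.K.un _ ∧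
      C.Chart (Sum.elim (fun i => e i ≫ C.E.K.Qm 1 f) fun _ : Unit => y)
        (Sum.elim d fun _ => w) (blk θ 0 fun _ => F) := by
  obtain ⟨Y, f, g, S⟩ := exists_st hk.dg
  rw [hn] at S
  obtain ⟨u, e₂, h1, h2⟩ := H.ext (chart_Γ (J := Unit)) (a := 0) (b := -w) (A := fun _ => F)
    (by simpa using S) hk (fun _ => by
      rw [← Category.id_comp (C.E.K.un _), un_act, Category.id_comp]) fun _ => by simpa using hF
  exact ⟨Y, f, u • g, e₂ (), S.usmul₂ u, h1 (), by simpa using h2⟩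

end Cx

end Vale.Agent.P236SY
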