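import Vale.Agent.P236SY.Rep

/-!
# P236, synthetic calculus: cup products
-/

open CategoryTheory Limits

universe v u

namespace Vale.Agent.P236SY

open GData Vale.Agent.P251.S

namespace TD

variable {O : Type u} {D : GData.{v} O} (E : TD D)

/-- The action of the ring on the outer factor. -/
def mo : ∀ (t : ℕ) (U : D.Cat), E.K.M.obj (E.K.Q (t + 1) U) ⟶ E.K.Q (t + 1) U
  | 0, U => E.K.mu U
  | t + 1, U => mo t (E.K.M.obj U)

/-- The identification of `Q s (Q t U)` with `Q (s + t) U`. -/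
def aq (s : ℕ) : ∀ (t : ℕ) (U : D.Cat), E.K.Q s (E.K.Q t U) ⟶ E.K.Q (s + t) U
  | 0, _ => 𝟙 _
  | t + 1, U => aq s t (E.K.M.obj U)

/-- The identification of `Q (s + 1) (Q t U)` with `Q (s + t + 1) U`. -/
def aq' (s : ℕ) : ∀ (t : ℕ) (U : D.Cat), E.K.Q (s + 1) (E.K.Q t U) ⟶ E.K.Q (s + t + 1) U
  | 0, _ => 𝟙 _
  | t + 1, U => aq' s t (E.K.M.obj U)

/-- The identification of `M (Q t U)` with `Q (t + 1) U`. -/
def om : ∀ (t : ℕ) (U : D.Cat), E.K.M.obj (E.K.Q t U) ⟶ E.K.Q (t + 1) U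
  | 0, _ => 𝟙 _
  | t + 1, U => om t (E.K.M.obj U)

/-- The cobar differential without its first coface, up to sign. -/
def er (t : ℕ) (U : D.Cat) : E.K.Q (t + 1) U ⟶ E.K.Q (t + 2) U :=
  E.K.un _ ≫ E.om (t + 1) U - E.K.d (t + 1) U

theorem deg_mo (t : ℕ) (U : D.Cat) : Deg 0 (E.mo t U) := by
  induction t generalizing U with
  | zero => exact E.deg_mu U
  | succ t ih => exact ih _

theorem deg_aq (s t : ℕ) (U : D.Cat) : Deg 0 (E.aq s t U) := by
  induction t generalizing U with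
  | zero => exact deg_id _
  | succ t ih => exact ih _

@[reassoc]
theorem mo_nat (t : ℕ) {X Y : D.Cat} (f : X ⟶ Y) :
    E.mo t X ≫ E.K.Qm (t + 1) f = E.K.M.map (E.K.Qm (t + 1) f) ≫ E.mo t Y := by
  induction t generalizing X Y with
  | zero => exact (E.K.mu_nat f).symm
  | succ t ih => exact ih (E.K.M.map f)

@[reassoc]
theorem aq_nat (s t : ℕ) {X Y : D.Cat} (f : X ⟶ Y) :
    E.aq s t X ≫ E.K.Qm (s + t) f = E.K.Qm s (E.K.Qm t f) ≫ E.aq s t Y := by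
  induction t generalizing X Y with
  | zero => exact (Category.id_comp _).trans (Category.comp_id _).symm
  | succ t ih => exact ih (E.K.M.map f)

theorem om_aq (s t : ℕ) (U : D.Cat) : E.K.Qm s (E.om t U) ≫ E.aq s (t + 1) U = E.aq' s t U := by
  induction t generalizing U with
  | zero => exact (Category.comp_id _).trans (E.K.Qm_id s _)
  | succ t ih => exact ih _

@[reassoc]
theorem un_mo (t : ℕ) (U : D.Cat) : E.K.un _ ≫ E.mo t U = 𝟙 _ := by
  induction t generalizing U with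
  | zero => exact E.K.left_unit U
  | succ t ih => exact ih _

theorem un_om_mo (t : ℕ) (U : D.Cat) :
    E.K.M.map (E.K.un _ ≫ E.om (t + 1) U) ≫ E.mo (t + 1) U = E.om (t + 1) U := by
  induction t generalizing U with
  | zero =>
    exact (congrArg (fun z => E.K.M.map z ≫ E.K.mu _) (Category.comp_id _)).trans
      (E.K.right_unit _)
  | succ t ih => exact ih _

theorem er_zero (U : D.Cat) : E.er 0 U = E.K.M.map (E.K.un U) := by
  change E.K.un _ ≫ 𝟙 _ - (E.K.un _ + (-1 : ℤ) ^ (0 + 1) • E.K.M.map (E.K.un U)) = _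
  simp

theorem er_succ (t : ℕ) (U : D.Cat) :
    E.er (t + 1) U = E.er t (E.K.M.obj U) + (-1 : ℤ) ^ (t + 1) • E.K.lam (t + 2) U := by
  rw [er, er, E.K.d_succ, pow_succ _ (t + 1), mul_neg_one, neg_smul]
  exact (sub_add_eq_sub_sub _ _ _).trans (sub_neg_eq_add _ _)

theorem mo_er (t : ℕ) (U : D.Cat) :
    E.mo t U ≫ E.er t U = E.K.M.map (E.er t U) ≫ E.mo (t + 1) U := by
  induction t generalizing U with
  | zero => rw [er_zero]; exact (E.K.mu_nat _).symm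
  | succ t ih =>
    rw [er_succ, Preadditive.comp_add, Functor.map_add, Preadditive.add_comp,
      Preadditive.comp_zsmul, Functor.map_zsmul, Preadditive.zsmul_comp]
    exact congrArg₂ (· + ·) (ih _) (congrArg _ (E.mo_nat (t + 1) (E.K.un U)))

theorem Qm_zsmul (s : ℕ) {X Y : D.Cat} (k : ℤ) (f : X ⟶ Y) :
    E.K.Qm s (k • f) = k • E.K.Qm s f :=
  map_zsmul (AddMonoidHom.mk' (E.K.Qm s) (E.K.Qm_add s)) k f

theorem Qm_sum (s : ℕ) {X Y : D.Cat} {ι : Type*} (S : Finset ι) (f : ι → (X ⟶ Y)) :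
    E.K.Qm s (∑ i ∈ S, f i) = ∑ i ∈ S, E.K.Qm s (f i) :=
  map_sum (AddMonoidHom.mk' (E.K.Qm s) (E.K.Qm_add s)) f S

theorem aq_d (s t : ℕ) (U : D.Cat) : E.aq s (t + 1) U ≫ E.K.d (s + t + 1) U =
    E.K.d s (E.K.Q (t + 1) U) ≫ E.aq' s (t + 1) U +
      (-1 : ℤ) ^ (s + 1) • E.K.Qm s (E.er t U) ≫ E.aq s (t + 2) U := by
  induction t generalizing U with
  | zero =>
    rw [er_zero]
    exact (Category.id_comp _).trans (congrArg₂ (· + ·) (Category.comp_id _).symm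
      (congrArg _ (Category.comp_id _).symm))
  | succ t ih =>
    have h1 := ih (E.K.M.obj U)
    have h2 := E.aq_nat s (t + 2) (E.K.un U)
    change E.aq s (t + 1) (E.K.M.obj U) ≫ (E.K.d (s + t + 1) (E.K.M.obj U) +
      (-1 : ℤ) ^ (s + t + 1 + 1) • E.K.Qm (s + (t + 2)) (E.K.un U)) = _
    rw [Preadditive.comp_add, h1, er_succ, E.K.Qm_add, Preadditive.add_comp, smul_add, Qm_zsmul,
      Preadditive.zsmul_comp, smul_smul, ← pow_add, Preadditive.comp_zsmul,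
      show s + 1 + (t + 1) = s + t + 1 + 1 by ring]
    exact (add_assoc _ _ _).trans
      (congrArg₂ (· + ·) rfl (congrArg₂ (· + ·) rfl (congrArg _ h2)))

@[reassoc]
theorem mo_q (t : ℕ) (U : D.Cat) :
    E.mo t U ≫ E.K.q t U = E.K.M.map (E.K.q t U) ≫ E.K.mu (E.K.B t U) := by
  induction t generalizing U with
  | zero => rw [E.K.q_zero, CategoryTheory.Functor.map_id, Category.id_comp]; exact Category.comp_id _
  | succ t ih =>
    have h := E.mo_nat t (E.K.ρ U)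
    rw [E.K.q_succ, Functor.map_comp, Category.assoc, ← ih, ← reassoc_of% h]
    rfl

@[reassoc]
theorem aq_q (s t : ℕ) (U : D.Cat) : E.aq s (t + 1) U ≫ E.K.q (s + t) U =
    E.K.Qm s (E.K.q t U) ≫ E.K.q s (E.K.B t U) ≫ E.K.M.map (E.ad s t U) := by
  induction t generalizing U with
  | zero =>
    rw [E.K.q_zero, E.K.Qm_id, ad_zero, CategoryTheory.Functor.map_id, Category.comp_id]
    rfl
  | succ t ih =>
    have h := E.aq_nat s (t + 1) (E.K.ρ U)
    have h1 := ih (E.K.G.obj U)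
    rw [E.K.q_succ t, E.K.Qm_comp, Category.assoc, ad_succ, ← h1, ← reassoc_of% h]
    rfl

@[reassoc]
theorem ad_k (s t : ℕ) (h : s + t + 1 ≤ s + 1 + t) (U : D.Cat) :
    E.K.M.map (E.ad s t U) ≫ E.K.k (s + t) U =
      E.K.k s (E.K.B t U) ≫ E.ad (s + 1) t U ≫ E.dr h U := by
  induction t generalizing U with
  | zero => simp
  | succ t ih =>
    rw [E.dr_G (m := s + t + 1) (n := s + 1 + t) (by omega) h]
    exact ih _ _

theorem ρ_ad (s t : ℕ) (h : s + (t + 1) ≤ s + 1 + t) (U : D.Cat) :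
    E.Fm s (E.K.ρ (E.K.B t U)) ≫ E.ad (s + 1) t U ≫ E.dr h U =
      E.Fm s (E.K.k t U) ≫ E.ad s (t + 1) U := by
  induction t generalizing U with
  | zero => exact congrArg (_ ≫ ·) ((Category.id_comp _).trans (E.dr_self _ _ _))
  | succ t ih =>
    rw [E.dr_G (m := s + (t + 1)) (n := s + 1 + t) (by omega) h]
    exact ih _ _

variable {V Z U : D.Cat} {s t : ℕ}

/-- The cup product. -/
def cup (c : V ⟶ E.K.Q (s + 1) Z) (c' : Z ⟶ E.K.Q (t + 1) U) : V ⟶ E.K.Q (s + t + 1) U :=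
  c ≫ E.K.Qm s (E.K.M.map c' ≫ E.mo t U) ≫ E.aq s (t + 1) U

theorem cup_add_left (c d : V ⟶ E.K.Q (s + 1) Z) (c' : Z ⟶ E.K.Q (t + 1) U) :
    E.cup (c + d) c' = E.cup c c' + E.cup d c' := Preadditive.add_comp _ _ _ _ _ _

theorem cup_add_right (c : V ⟶ E.K.Q (s + 1) Z) (c' d : Z ⟶ E.K.Q (t + 1) U) :
    E.cup c (c' + d) = E.cup c c' + E.cup c d := by
  simp only [cup, Functor.map_add, Preadditive.add_comp, E.K.Qm_add, Preadditive.comp_add]

/-- The cup product as a biadditive map. -/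
def cupH (V Z U : D.Cat) (s t : ℕ) : (V ⟶ E.K.Q (s + 1) Z) →+ (Z ⟶ E.K.Q (t + 1) U) →+
    (V ⟶ E.K.Q (s + t + 1) U) :=
  AddMonoidHom.mk' (fun c => AddMonoidHom.mk' (E.cup c) (E.cup_add_right c))
    fun c d => AddMonoidHom.ext fun c' => E.cup_add_left c d c'

theorem cupH_apply (c : V ⟶ E.K.Q (s + 1) Z) (c' : Z ⟶ E.K.Q (t + 1) U) :
    E.cupH V Z U s t c c' = E.cup c c' := rfl

theorem comp_cup {V' : D.Cat} (f : V' ⟶ V) (c : V ⟶ E.K.Q (s + 1) Z) (c' : Z ⟶ E.K.Q (t + 1) U) :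
    E.cup (f ≫ c) c' = f ≫ E.cup c c' := Category.assoc _ _ _

theorem cup_mid {Z' : D.Cat} (c : V ⟶ E.K.Q (s + 1) Z) (f : Z ⟶ Z') (c' : Z' ⟶ E.K.Q (t + 1) U) :
    E.cup c (f ≫ c') = E.cup (c ≫ E.K.Qm (s + 1) f) c' := by
  simp only [cup, Functor.map_comp, Category.assoc, E.K.Qm_comp]
  rfl

theorem cup_comp {U' : D.Cat} (c : V ⟶ E.K.Q (s + 1) Z) (c' : Z ⟶ E.K.Q (t + 1) U) (f : U ⟶ U') :
    E.cup c (c' ≫ E.K.Qm (t + 1) f) = E.cup c c' ≫ E.K.Qm (s + t + 1) f := by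
  have h := E.aq_nat s (t + 1) f
  simp only [cup, Category.assoc]
  rw [Functor.map_comp, Category.assoc, ← mo_nat, ← Category.assoc (E.K.M.map c'), E.K.Qm_comp,
    Category.assoc, ← h]
  rfl

theorem cup_zero (c : V ⟶ E.K.Q (s + 1) Z) (e : Z ⟶ E.K.M.obj U) :
    E.cup (t := 0) c e = c ≫ E.K.Qm s (E.K.M.map e ≫ E.K.mu U) :=
  congrArg (c ≫ ·) (Category.comp_id _)

theorem cup_un (c : V ⟶ E.K.Q (s + 1) Z) : E.cup (t := 0) c (E.K.un Z) = c := by
  rw [cup_zero, E.K.right_unit, E.K.Qm_id, Category.comp_id]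

theorem un_cup (f : V ⟶ Z) (e : Z ⟶ E.K.M.obj U) :
    E.cup (s := 0) (t := 0) (f ≫ E.K.un Z) e = f ≫ e := by
  rw [cup_zero, E.K.Qm_zero, Category.assoc, ← E.K.un_nat_assoc, E.K.left_unit, Category.comp_id]

theorem cup_assoc {W : D.Cat} (a : V ⟶ E.K.Q (s + 1) Z) (b : Z ⟶ E.K.Q (t + 1) U)
    (e : U ⟶ E.K.M.obj W) :
    E.cup (t := 0) (E.cup a b) e = E.cup a (E.cup (t := 0) b e) := by
  have h1 : E.mo t U ≫ E.K.Qm t (E.K.M.map e ≫ E.K.mu W) =
      E.K.M.map (E.K.Qm t (E.K.M.map e ≫ E.K.mu W)) ≫ E.mo t W := by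
    cases t with
    | zero =>
      change E.K.mu U ≫ E.K.M.map e ≫ E.K.mu W = E.K.M.map (E.K.M.map e ≫ E.K.mu W) ≫ E.K.mu W
      rw [Functor.map_comp, Category.assoc, E.mu_assoc, E.K.mu_nat_assoc]
    | succ t => exact E.mo_nat t _
  have h2 := E.aq_nat s t (E.K.M.map e ≫ E.K.mu W)
  rw [cup_zero, cup_zero, cup, cup, Functor.map_comp, Category.assoc, Category.assoc,
    Category.assoc, ← h1, ← Category.assoc (E.K.M.map b), E.K.Qm_comp s (_ ≫ _), Category.assoc]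
  exact congrArg (a ≫ ·) (congrArg (_ ≫ ·) h2)

theorem deg_cup {a b k : ℤ} {c : V ⟶ E.K.Q (s + 1) Z} {c' : Z ⟶ E.K.Q (t + 1) U} (h : Deg a c)
    (h' : Deg b c') (e : a + b = k) : Deg k (E.cup c c') :=
  h.comp ((deg_Qm s ((E.deg_M h').comp (E.deg_mo _ _) (add_zero _))).comp (E.deg_aq _ _ _)
    (add_zero _)) e

/-- The Leibniz formula. -/
theorem cup_d (c : V ⟶ E.K.Q (s + 1) Z) (c' : Z ⟶ E.K.Q (t + 1) U) :
    E.cup c c' ≫ E.K.d (s + t + 1) U =
      (c ≫ E.K.d (s + 1) Z) ≫ E.K.Qm (s + 1) (E.K.M.map c' ≫ E.mo t U) ≫ E.aq' s (t + 1) U +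
        (-1 : ℤ) ^ s • E.cup (t := t + 1) c (c' ≫ E.K.d (t + 1) U) := by
  have h1 : (E.K.M.map c' ≫ E.mo t U) ≫ E.er t U = E.K.M.map c' ≫ E.om (t + 1) U -
      E.K.M.map (c' ≫ E.K.d (t + 1) U) ≫ E.mo (t + 1) U := by
    rw [Category.assoc, mo_er, er, Functor.map_sub, Preadditive.sub_comp, un_om_mo,
      Preadditive.comp_sub, Functor.map_comp, Category.assoc]
  have h2 : E.K.lam (s + 1) Z ≫ E.K.Qm (s + 1) (E.K.M.map c' ≫ E.mo t U) =
      E.K.Qm s (E.K.M.map c') := by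
    rw [CobarData.lam, ← E.K.Qm_comp, ← E.K.un_nat_assoc, un_mo, Category.comp_id]
    rfl
  rw [cup, cup, Category.assoc, Category.assoc, aq_d, Preadditive.comp_add, Preadditive.comp_add,
    E.K.d_naturality_assoc, Preadditive.comp_zsmul, ← E.K.Qm_comp_assoc, h1, E.K.Qm_sub,
    Preadditive.sub_comp, E.K.Qm_comp s (E.K.M.map c') (E.om _ _), Category.assoc, om_aq,
    E.K.d_succ s Z, Category.assoc,
    Preadditive.add_comp, Preadditive.zsmul_comp, reassoc_of% h2, smul_sub, pow_succ, mul_neg_one,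
    neg_smul, neg_smul, sub_neg_eq_add, Preadditive.comp_add, Preadditive.comp_add,
    Preadditive.comp_zsmul]
  exact (add_assoc _ _ _).symm

theorem cup_d_zero (c : V ⟶ E.K.Q (s + 1) Z) (e : Z ⟶ E.K.M.obj U) :
    E.cup (t := 0) c e ≫ E.K.d (s + 1) U = E.cup (s := s + 1) (t := 0) (c ≫ E.K.d (s + 1) Z) e +
      (-1 : ℤ) ^ s • E.cup (t := 1) c (e ≫ E.K.d 1 U) := E.cup_d (t := 0) c e

theorem cup_q (c : V ⟶ E.K.Q (s + 1) Z) (c' : Z ⟶ E.K.Q (t + 1) U) :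
    E.cup c c' ≫ E.K.q (s + t) U = c ≫ E.K.Qm s (E.K.M.map (c' ≫ E.K.q t U) ≫ E.K.mu _) ≫
      E.K.q s (E.K.B t U) ≫ E.K.M.map (E.ad s t U) := by
  rw [cup, Category.assoc, Category.assoc, aq_q, ← E.K.Qm_comp_assoc, Category.assoc, mo_q,
    Functor.map_comp, Category.assoc]

end TD

end Vale.Agent.P236SY
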