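import Vale.Agent.P236SY.SymT

/-!
# P236, synthetic calculus: exact sequences of cochains, completeness and convergence
-/

open CategoryTheory MonoidalCategory Limits Pretriangulated MonObj

namespace Vale.Agent.P236SY

open GData Vale.Agent.P251 Vale.Agent.P251.T Vale.Agent.P251.S Vale.Agent.P251.H Vale.Agent.P251.M
  Vale.Agent.P251.F Vale.Agent.P251.I TD
open Vale.Agent.P251.St (SHCat)

namespace TD

variable {O : Type*} {D : GData O} {E : TD D} {V W X Y Z : D.Cat} {a b c n m : ℤ} {s : ℕ}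

theorem STri.tri {f : X ⟶ Y} {g : Y ⟶ Z} {k : E.so Z ⟶ E.so X}
    (H : E.STri a b c (E.ι f) (E.ι g) k) : ∃ k₀ : Z ⟶ E.K.G.obj X, E.Tri f g (k₀ ≫ E.ε X) ∧
      Deg (-a) f ∧ Deg (-b) g ∧ Deg (-c) k₀ ∧ k = E.up k₀ := by
  obtain ⟨f₀, g₀, k₀, W, hf, hg, hk, e₁, e₂, rfl⟩ := H.ex
  obtain rfl := E.ι_inj e₁
  obtain rfl := E.ι_inj e₂
  exact ⟨k₀, W, hf, hg, hk, rfl⟩

theorem Cb.comp_Qm {x : V ⟶ E.K.Q (s + 1) X} (h : E.Cb a s x) {f : X ⟶ Y} (hf : Deg b f)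
    (e : a + b = c) : E.Cb c s (x ≫ E.K.Qm (s + 1) f) := by
  cases s with
  | zero => rw [show x = 0 from h, zero_comp]; exact cb_zero _ _
  | succ s =>
    obtain ⟨y, hy, rfl⟩ := h
    exact ⟨y ≫ E.K.Qm (s + 1) f, hy.comp (deg_Qm _ hf) e, by
      rw [Category.assoc, Category.assoc, E.K.d_naturality]⟩

theorem Cb.pre {x : V ⟶ E.K.Q (s + 1) X} (h : E.Cb a s x) {f : W ⟶ V} (hf : Deg b f)
    (e : b + a = c) : E.Cb c s (f ≫ x) := by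
  cases s with
  | zero => rw [show x = 0 from h, comp_zero]; exact cb_zero _ _
  | succ s =>
    obtain ⟨y, hy, rfl⟩ := h
    exact ⟨f ≫ y, hf.comp hy e, (Category.assoc _ _ _).symm⟩

theorem Cb.sub {x y : V ⟶ E.K.Q (s + 1) X} (h : E.Cb a s x) (h' : E.Cb a s y) :
    E.Cb a s (x - y) := by
  rw [sub_eq_add_neg]
  exact h.add h'.neg

theorem cyc_Qm {x : V ⟶ E.K.Q s X} (h : x ≫ E.K.d s X = 0) (f : X ⟶ Y) :
    (x ≫ E.K.Qm s f) ≫ E.K.d s Y = 0 := by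
  rw [Category.assoc, E.K.d_naturality, reassoc_of% h, zero_comp]

variable (E) in
/-- A short exact sequence of cochains, in the target. -/
structure Ses (V : D.Cat) (a b : ℤ) (f : X ⟶ Y) (g : Y ⟶ Z) : Prop where
  deg₁ : Deg (-a) f
  deg₂ : Deg (-b) g
  zero : f ≫ g = 0
  inj : ∀ {s : ℕ} {x : V ⟶ E.K.Q (s + 1) X}, x ≫ E.K.Qm (s + 1) f = 0 → x = 0
  ex : ∀ {s : ℕ} {k : ℤ} {x : V ⟶ E.K.Q (s + 1) Y}, Deg k x → x ≫ E.K.Qm (s + 1) g = 0 →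
    ∃ y, Deg (k + a) y ∧ x = y ≫ E.K.Qm (s + 1) f
  surj : ∀ {s : ℕ} {k : ℤ} {x : V ⟶ E.K.Q (s + 1) Z}, Deg k x →
    ∃ y, Deg (k + b) y ∧ x = y ≫ E.K.Qm (s + 1) g

theorem ses_of {f : X ⟶ Y} {g : Y ⟶ Z} {h : Z ⟶ X} (H : E.Tri f g h) (hf : Deg (-a) f)
    (hg : Deg (-b) g) (h0 : ∀ (s : ℕ) (x : V ⟶ E.K.Q (s + 1) Z), x ≫ E.K.Qm (s + 1) h = 0) :
    E.Ses V a b f g where
  deg₁ := hf
  deg₂ := hg
  zero := E.tri_zero H
  inj hx := by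
    obtain ⟨y, rfl⟩ := E.tri_co (tri_Qm _ (E.tri_rot (E.tri_rot H))) _ hx
    exact h0 _ y
  ex dx hx := by
    obtain ⟨y, hy⟩ := E.tri_co (tri_Qm _ H) _ hx
    exact dx.left (deg_Qm _ hf) hy (by ring)
  surj {_ _ x} dx := by
    obtain ⟨y, hy⟩ := E.tri_co (tri_Qm _ (E.tri_rot H)) x (h0 _ x)
    exact dx.left (deg_Qm _ hg) hy (by ring)

theorem STri.ses {f : X ⟶ Y} {g : Y ⟶ Z} {k : E.so Z ⟶ E.so X}
    (H : E.STri a b c (E.ι f) (E.ι g) k) (V : D.Cat) : E.Ses V a b f g := by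
  obtain ⟨k₀, W, hf, hg, -, -⟩ := H.tri
  exact ses_of W hf hg fun s x => by rw [E.K.Qm_comp, Qm_ε, comp_zero, comp_zero]

namespace Ses

variable {f : X ⟶ Y} {g : Y ⟶ Z} (H : E.Ses V a b f g)
include H

theorem cyc {x : V ⟶ E.K.Q (s + 1) X} (h : (x ≫ E.K.Qm (s + 1) f) ≫ E.K.d (s + 1) Y = 0) :
    x ≫ E.K.d (s + 1) X = 0 :=
  H.inj (by rw [Category.assoc, ← E.K.d_naturality, ← Category.assoc, h])

/-- exactness of cohomology in the middle -/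
theorem cb₂ {k : ℤ} {x : V ⟶ E.K.Q (s + 1) Y} (dx : Deg k x) (hx : x ≫ E.K.d (s + 1) Y = 0)
    (h : E.Cb (k - b) s (x ≫ E.K.Qm (s + 1) g)) : ∃ y, Deg (k + a) y ∧ y ≫ E.K.d (s + 1) X = 0 ∧
      E.Cb k s (x - y ≫ E.K.Qm (s + 1) f) := by
  cases s with
  | zero =>
    obtain ⟨y, dy, rfl⟩ := H.ex dx h
    exact ⟨y, dy, H.cyc hx, sub_self _⟩
  | succ s =>
    obtain ⟨u, du, hu⟩ := h
    obtain ⟨u, du₁, rfl⟩ := H.surj du
    have du' : Deg k u := du₁.cast (by ring)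
    obtain ⟨y, dy, hy⟩ := H.ex (dx.sub (du'.comp (E.deg_d _ _) (add_zero _)))
      (by rw [Preadditive.sub_comp, hu, Category.assoc, Category.assoc, E.K.d_naturality, sub_self])
    refine ⟨y, dy, H.cyc ?_, u, du', by rw [← hy, sub_sub_cancel]⟩
    rw [← hy, Preadditive.sub_comp, hx, Category.assoc, E.K.d_d, comp_zero, sub_zero]

/-- the connecting homomorphism -/
theorem conn {k : ℤ} {x : V ⟶ E.K.Q (s + 1) Z} (dx : Deg k x) (hx : x ≫ E.K.d (s + 1) Z = 0) :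
    ∃ (u : V ⟶ E.K.Q (s + 1) Y) (y : V ⟶ E.K.Q (s + 2) X), Deg (k + b) u ∧ Deg (k + b + a) y ∧
      x = u ≫ E.K.Qm (s + 1) g ∧ u ≫ E.K.d (s + 1) Y = y ≫ E.K.Qm (s + 2) f ∧
      y ≫ E.K.d (s + 2) X = 0 := by
  obtain ⟨u, du, rfl⟩ := H.surj dx
  obtain ⟨y, dy, hy⟩ := H.ex (du.comp (E.deg_d _ _) (add_zero _))
    (by rw [Category.assoc, ← E.K.d_naturality, ← Category.assoc, hx])
  exact ⟨u, y, du, dy, rfl, hy, H.cyc (by rw [← hy, Category.assoc, E.K.d_d, comp_zero])⟩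

theorem van₂ {l : ℤ} (h₁ : E.Van V X m s) (h₃ : E.Van V Z l s) (e₁ : m + a = n)
    (e₃ : n + b = l) : E.Van V Y n s := by
  intro x dx hx
  obtain ⟨y, dy, hy, h⟩ := H.cb₂ dx hx (by
    rw [show -(n + s) - b = -(l + s) by omega]
    exact h₃ _ (dx.comp (deg_Qm _ H.deg₂) (by omega)) (cyc_Qm hx g))
  simpa using h.add ((h₁ y (dy.cast (by omega)) hy).comp_Qm H.deg₁ (by omega))

theorem tf₂ (h₁ : E.TF V X) (h₃ : E.TF V Z) : E.TF V Y := by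
  intro s x hx
  refine of_pr (p := (· = 0)) x rfl (fun k => ?_) (fun a b ha hb => by rw [ha, hb, add_zero])
  have h1 : (3 : ℤ) • pr k x = 0 := by rw [← map_zsmul, hx, map_zero]
  obtain ⟨y, -, hy⟩ := H.ex (deg_pr k x) (h₃ _ _ (by rw [← Preadditive.zsmul_comp, h1, zero_comp]))
  rw [hy, h₁ _ y (H.inj (by rw [Preadditive.zsmul_comp, ← hy, h1])), zero_comp]

end Ses

namespace STri

variable {f : X ⟶ Y} {g : Y ⟶ Z} {k : E.so Z ⟶ E.so X} (H : E.STri a b c (E.ι f) (E.ι g) k)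
include H

theorem src_inj {x : Z ⟶ E.K.Q (s + 1) W} (h : g ≫ x = 0) : x = 0 := by
  obtain ⟨k₀, T, -, -, -, -⟩ := H.tri
  obtain ⟨y, rfl⟩ := E.tri_yo (E.tri_rot T) x h
  rw [Category.assoc, ε_comp_Q, comp_zero]

theorem src_ex {l : ℤ} {x : Y ⟶ E.K.Q (s + 1) W} (dx : Deg l x) (h : f ≫ x = 0) :
    ∃ y, Deg (l + b) y ∧ x = g ≫ y := by
  obtain ⟨k₀, T, -, hg, -, -⟩ := H.tri
  obtain ⟨y, hy⟩ := E.tri_yo T x h
  exact dx.right hg hy (by ring)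

theorem src_surj {l : ℤ} {x : X ⟶ E.K.Q (s + 1) W} (dx : Deg l x) :
    ∃ y, Deg (l + a) y ∧ x = f ≫ y := by
  obtain ⟨k₀, T, hf, -, -, -⟩ := H.tri
  obtain ⟨y, hy⟩ := E.tri_yo (E.tri_rot (E.tri_rot T)) x
    (by rw [Category.assoc, ε_comp_Q, comp_zero])
  exact dx.right hf hy (by ring)

theorem tf_src (h₁ : E.TF X W) (h₃ : E.TF Z W) : E.TF Y W := by
  intro s x hx
  refine of_pr (p := (· = 0)) x rfl (fun k => ?_) (fun a b ha hb => by rw [ha, hb, add_zero])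
  have h1 : (3 : ℤ) • pr k x = 0 := by rw [← map_zsmul, hx, map_zero]
  obtain ⟨y, -, hy⟩ := H.src_ex (deg_pr k x)
    (h₁ _ _ (by rw [← Preadditive.comp_zsmul, h1, comp_zero]))
  rw [hy, h₃ _ y (H.src_inj (by rw [Preadditive.comp_zsmul, ← hy, h1])), comp_zero]

end STri

/-! ### completeness -/

theorem cb_of_seq (hV : Cpl V) (x : ℕ → (V ⟶ E.K.Q (s + 1) Z)) (dx : ∀ i, Deg a (x i))
    (h : ∀ i, E.Cb a s (x i - (3 : ℤ) • x (i + 1))) : E.Cb a s (x 0) := by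
  cases s with
  | zero => exact hV.uniq x dx fun i => sub_eq_zero.1 (h i)
  | succ s =>
    choose u du hu using h
    obtain ⟨B, dB, hB⟩ := hV.ex u du
    refine ⟨B 0, dB 0, sub_eq_zero.1 (hV.uniq (fun i => x i - B i ≫ E.K.d _ _)
      (fun i => (dx i).sub ((dB i).comp (E.deg_d _ _) (add_zero _))) fun i => ?_)⟩
    rw [smul_sub, ← Preadditive.zsmul_comp, sub_eq_sub_iff_sub_eq_sub, ← Preadditive.sub_comp, hB,
      hu]

/-- Spanning of the cohomology, from spanning modulo three. -/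
theorem span_of_mod (hV : Cpl V) (S : AddSubgroup (V ⟶ E.K.Q (s + 1) Z)) (k : ℕ)
    (hS : ∀ z ∈ S, E.Cb a s ((3 : ℤ) ^ k • z))
    (h : ∀ x, Deg a x ∧ x ≫ E.K.d (s + 1) Z = 0 → ∃ y, (Deg a y ∧ y ≫ E.K.d (s + 1) Z = 0) ∧
      ∃ z ∈ S, E.Cb a s (x - z - (3 : ℤ) • y))
    {x : V ⟶ E.K.Q (s + 1) Z} (dx : Deg a x) (hx : x ≫ E.K.d (s + 1) Z = 0) :
    ∃ z ∈ S, E.Cb a s (x - z) := by
  obtain ⟨y, rfl, h1, h2⟩ := exists_seq h ⟨dx, hx⟩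
  have h3 : ∀ j, ∃ z ∈ S, E.Cb a s (y 0 - z - (3 : ℤ) ^ j • y j) := by
    intro j
    induction j with
    | zero => exact ⟨0, S.zero_mem, by simpa using cb_zero a s⟩
    | succ j ih =>
      obtain ⟨z, hz, e⟩ := ih
      obtain ⟨z', hz', e'⟩ := h2 j
      refine ⟨z + (3 : ℤ) ^ j • z', S.add_mem hz (S.zsmul_mem hz' _), ?_⟩
      convert e.add (e'.zsmul (3 ^ j)) using 1
      rw [smul_sub, smul_sub, smul_smul, pow_succ]
      abel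
  obtain ⟨z, hz, e⟩ := h3 k
  have h4 := cb_of_seq hV (fun i => (3 : ℤ) ^ k • y (k + i)) (fun i => (h1 _).1.zsmul _) fun i => by
    obtain ⟨z', hz', e'⟩ := h2 (k + i)
    convert (e'.zsmul (3 ^ k)).add (hS z' hz') using 1
    rw [smul_sub, smul_sub, smul_comm (3 : ℤ), ← add_assoc]
    abel
  exact ⟨z, hz, by simpa using e.add h4⟩

theorem dg_uniq (hV : Cpl V) {t : ℤ} (x : ℕ → (E.so V ⟶ E.so Z)) (dx : ∀ i, E.Dg n t (x i))
    (h : ∀ i, x i = (3 : ℤ) • x (i + 1)) : x 0 = 0 := by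
  choose g dg hg using dx
  rw [hg, E.cl_eq_zero _ (Nat.sub_le _ 1) rfl]
  refine hV.uniq (fun i => g i ≫ E.dr (Nat.sub_le _ 1) Z)
    (fun i => (dg i).comp (E.deg_dr _ _) (add_zero _)) fun i => ?_
  have h1 := h i
  rwa [hg, hg, ← map_zsmul, ← sub_eq_zero, ← map_sub, E.cl_eq_zero _ (Nat.sub_le _ 1) rfl,
    Preadditive.sub_comp, sub_eq_zero, Preadditive.zsmul_comp] at h1

theorem dg_nak (hV : Cpl V) {t : ℤ} {p : (E.so V ⟶ E.so Z) → Prop}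
    (h : ∀ x, E.Dg n t x ∧ p x → ∃ y, (E.Dg n t y ∧ p y) ∧ x = (3 : ℤ) • y)
    {x : E.so V ⟶ E.so Z} (hx : E.Dg n t x) (hp : p x) : x = 0 := by
  obtain ⟨y, rfl, h1, h2⟩ := exists_seq h ⟨hx, hp⟩
  exact dg_uniq hV y (fun i => (h1 i).1) h2

/-! ### convergence -/

variable (E) in
/-- The tower is eventually zero in each stem. -/
def Conv (V Z : D.Cat) : Prop :=
  ∀ n : ℤ, ∃ N : ℕ, ∀ s, N ≤ s → ∀ g : V ⟶ E.K.B s Z, Deg (-n) g → g = 0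

theorem Conv.tgt {f : X ⟶ Y} {g : Y ⟶ Z} {h : Z ⟶ X} (H : E.Tri f g h) (hf : Deg a f)
    (hg : Deg b g) (h₁ : E.Conv V X) (h₃ : E.Conv V Z) : E.Conv V Y := fun n => by
  obtain ⟨N, hN⟩ := h₁ (n + a)
  obtain ⟨N', hN'⟩ := h₃ (n - b)
  refine ⟨N + N', fun s hs x dx => ?_⟩
  obtain ⟨y, hy⟩ := E.tri_co (tri_Fm s H) x
    (hN' s (by omega) _ (dx.comp (deg_Fm s hg) (by ring)))
  obtain ⟨y, dy, rfl⟩ := dx.left (deg_Fm s hf) hy (show -(n + a) + a = -n by ring)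
  rw [hN s (by omega) y dy, zero_comp]

theorem Conv.src {f : X ⟶ Y} {g : Y ⟶ Z} {h : Z ⟶ X} (H : E.Tri f g h) (hf : Deg a f)
    (hg : Deg b g) (h₁ : E.Conv X W) (h₃ : E.Conv Z W) : E.Conv Y W := fun n => by
  obtain ⟨N, hN⟩ := h₁ (n - a)
  obtain ⟨N', hN'⟩ := h₃ (n + b)
  refine ⟨N + N', fun s hs x dx => ?_⟩
  obtain ⟨y, hy⟩ := E.tri_yo H x (hN s (by omega) _ (hf.comp dx (by ring)))
  obtain ⟨y, dy, rfl⟩ := dx.right hg hy (show b + -(n + b) = -n by ring)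
  rw [hN' s (by omega) y dy, comp_zero]

theorem Conv.of_tgt (h : E.Conv V X) {f : Y ⟶ X} {g : X ⟶ Y} (hf : Deg a f) (e : f ≫ g = 𝟙 _) :
    E.Conv V Y := fun n => by
  obtain ⟨N, hN⟩ := h (n - a)
  refine ⟨N, fun s hs x dx => ?_⟩
  rw [← Category.comp_id x, ← E.Fm_id, ← e, Fm_comp, ← Category.assoc,
    hN s hs _ (dx.comp (deg_Fm s hf) (by ring)), zero_comp]

theorem Conv.of_src (h : E.Conv X W) {f : Y ⟶ X} {g : X ⟶ Y} (hg : Deg a g) (e : f ≫ g = 𝟙 _) :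
    E.Conv Y W := fun n => by
  obtain ⟨N, hN⟩ := h (n - a)
  refine ⟨N, fun s hs x dx => ?_⟩
  rw [← Category.id_comp x, ← e, Category.assoc, hN s hs _ (hg.comp dx (by ring)), comp_zero]

theorem Conv.B (h : E.Conv V Z) (k : ℕ) : E.Conv V (E.K.B k Z) := fun n => by
  obtain ⟨N, hN⟩ := h n
  refine ⟨N, fun s hs x dx => ?_⟩
  rw [← cancel_mono (E.ad s k Z), zero_comp]
  exact hN _ (by omega) _ (dx.comp (E.deg_ad _ _ _) (add_zero _))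

/-- Infinitely `τ`-divisible classes vanish. -/
theorem Conv.eq_zero (h : E.Conv V Z) {x : E.so V ⟶ E.so Z}
    (hx : ∀ k : ℕ, ∃ (t : ℤ) (l : ℕ) (y : E.so V ⟶ E.so Z), (k : ℤ) ≤ t ∧ E.Dg n t y ∧
      x = y ≫ E.tp l _) : x = 0 := by
  obtain ⟨N, hN⟩ := h n
  obtain ⟨t, l, y, ht, ⟨g, dg, rfl⟩, rfl⟩ := hx N
  rw [hN _ (by omega) g dg, map_zero, zero_comp]

theorem Conv.zero_of_van (h : E.Conv V Z) (hv : ∀ r, s ≤ r → E.Van V Z n r)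
    {x : E.so V ⟶ E.so Z} (hx : E.Dg n s x) : x = 0 :=
  h.eq_zero fun k => by
    obtain ⟨y, hy, e⟩ := div_of_van k (fun r h1 _ => hv r h1) hx
    exact ⟨_, k, y, by omega, hy, e⟩

end TD

end Vale.Agent.P236SY
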