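import Vale.Agent.P236SY.Cv

/-!
# P236, synthetic calculus: convergence and the vanishing line
-/

open CategoryTheory MonoidalCategory Limits Pretriangulated MonObj

namespace Vale.Agent.P236SY

open GData Vale.Agent.P251 Vale.Agent.P251.T Vale.Agent.P251.S Vale.Agent.P251.H Vale.Agent.P251.M
  Vale.Agent.P251.F Vale.Agent.P251.I TD
open Vale.Agent.P251.St (SHCat)

variable {T : SHCat}

theorem conn_gr {P : T.C} {m n : ℤ} (h : Conn m P) (hn : n < m) {f : ob (𝟙_ T.C) ⟶ ob P}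
    (hf : Deg (-n) f) : f = 0 := by
  obtain ⟨g, hg⟩ := Deg.exists_io ((deg_ush (𝟙_ T.C) n).comp hf (by omega))
  rw [← cancel_epi (ush (𝟙_ T.C) n).hom, hg, h n hn g, io_zero, comp_zero]

namespace Cx

variable (C : Cx T)

theorem bigCell_B (s : ℕ) {X : T.C} {m : ℤ} (h : BigCell T.C m X) :
    BigCell T.C (m + s) (C.E.K.B s (ob X)).obj := by
  have hI : BigCell T.C 1 C.U.I :=
    ((C.D.conn _ _ _ C.U.dist.rot).shift (-1) 1 (by norm_num)).of_iso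
      ((shiftFunctorCompIsoId T.C (1 : ℤ) (-1) (add_neg_cancel 1)).app C.U.I)
  induction s generalizing X m with
  | zero => simpa using h
  | succ s ih =>
    rw [show m + (s + 1 : ℕ) = 1 + m + s by push_cast; ring]
    exact ih (hI.tensor h _ rfl)

theorem conn_B (s : ℕ) : Conn s (C.E.K.B s (ob (𝟙_ T.C))).obj := by
  have h := C.bigCell_B s ((BigCell.sphere (n := 0) 0 le_rfl).of_iso
    ((shiftFunctorZero T.C ℤ).app (𝟙_ T.C)))
  rw [zero_add] at h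
  exact h.conn C.D.conn_unit fun Y k f => StableCat.compact k Y f

theorem conv_Γ : C.E.Conv (ob C.Γ) (ob C.Γ) := fun n => by
  refine ⟨n.toNat + 1, fun s hs g dg => ?_⟩
  have hc := C.conn_B s
  have H := dt_of_dist C.G.dist
  have h1 : g ≫ C.E.Fm s (io C.G.j) = 0 := by
    have d1 := dg.comp (deg_Fm s (deg_io C.G.j)) (add_zero _)
    obtain ⟨u, hu⟩ := Deg.exists_sm ((deg_sm 1 C.G.d).comp d1 rfl)
    obtain ⟨y, hy⟩ := H.rot'.yo (g ≫ C.E.Fm s (io C.G.j)) (by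
      rw [hu, C.G.conn (fun f => sm_inj ?_) (fun f => sm_inj ?_) u, sm_zero]
      · rw [sm_zero]
        exact conn_gr hc (n := n - 1) (by omega) ((deg_sm _ f).cast (by ring))
      · rw [sm_zero, ← cancel_epi (ush (𝟙_ T.C) 1).inv, comp_zero]
        exact conn_gr hc (n := n) (by omega) ((deg_ush_inv _ _).comp (deg_sm _ f) (by ring)))
    obtain ⟨y, dy, hy⟩ := d1.right (deg_io _) hy (zero_add _)
    rw [hy, conn_gr hc (by omega) dy, comp_zero]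
  obtain ⟨y, hy⟩ := C.E.tri_co (tri_Fm s (C.E.tri_rot (C.E.tri_rot ⟨_, _, H⟩))) g h1
  obtain ⟨y, dy, rfl⟩ := dg.left (deg_Fm s (deg_sm 1 C.G.d)) hy (sub_add_cancel _ 1)
  have := C.G.three
  rw [(C.G.cpl C.Γ).nak (fun f hf => ⟨f ≫ C.E.Fm s (io (inv ((3 : ℤ) • 𝟙 C.G.L))),
    hf.comp (deg_Fm s (deg_io _)) (add_zero _), ?_⟩) dy, zero_comp]
  rw [← Preadditive.comp_zsmul, ← map_zsmul, ← io_zsmul, ← Category.comp_id (inv _),
    ← Preadditive.comp_zsmul, IsIso.inv_hom_id, io_id, Fm_id, Category.comp_id]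

/-- Finite torsion complexes. -/
inductive Fc : T.C → Prop
  | base : Fc C.Γ
  | dt {X Y Z : T.C} {a b : ℤ} {f : ob X ⟶ ob Y} {g : ob Y ⟶ ob Z} {h : ob Z ⟶ ob X} :
      DT a b f g h → Fc X → Fc Z → Fc Y
  | ret {X Y : T.C} {a b : ℤ} {f : ob Y ⟶ ob X} {g : ob X ⟶ ob Y} :
      Deg a f → Deg b g → f ≫ g = 𝟙 _ → Fc X → Fc Y

variable {C} {V W X Y Z : T.C}

theorem Fc.tors (h : C.Fc X) : C.G.Tors X := by
  induction h with
  | base => infer_instance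
  | dt H _ _ _ _ => exact Gam.Tors.dt₂ H
  | ret _ _ e _ _ => exact Gam.Tors.of_retract _ _ e

theorem Fc.of_iso (h : C.Fc X) (e : Y ≅ X) : C.Fc Y :=
  h.ret (deg_io e.hom) (deg_io e.inv) (io_hom_inv e)

theorem Fc.dt₃ {a b : ℤ} {f : ob X ⟶ ob Y} {g : ob Y ⟶ ob Z} {h : ob Z ⟶ ob X} (H : DT a b f g h)
    (h₁ : C.Fc X) (h₂ : C.Fc Y) : C.Fc Z := Fc.dt H.rot h₂ h₁

theorem Fc.dt₁ {a b : ℤ} {f : ob X ⟶ ob Y} {g : ob Y ⟶ ob Z} {h : ob Z ⟶ ob X} (H : DT a b f g h)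
    (h₂ : C.Fc Y) (h₃ : C.Fc Z) : C.Fc X := Fc.dt H.rot' h₃ h₂

theorem Fc.tensor (h : C.Fc X) (h' : C.Fc Y) : C.Fc (X ⊗ Y) := by
  have := h'.tors
  induction h with
  | base => exact h'.of_iso (asIso (C.G.lam Y))
  | dt H _ _ h₁ h₃ => exact Fc.dt (DT.wr Y H) h₁ h₃
  | ret hf hg e _ h₁ => exact h₁.ret (Deg.wr Y hf) (Deg.wr Y hg) (by rw [← wr_comp, e, wr_id])

theorem Fc.M (h : C.Fc X) : C.Fc (X ⊗ C.M) := Fc.dt₃ (C.dt_red X) h h

theorem fc_M : C.Fc C.M := (Fc.M Fc.base).of_iso (asIso (C.G.lam C.M)).symm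

theorem Fc.conv_src (h : C.Fc V) {Z : Gr T.C} (hZ : C.E.Conv (ob C.Γ) Z) : C.E.Conv (ob V) Z := by
  induction h with
  | base => exact hZ
  | dt H _ _ h₁ h₃ => exact Conv.src ⟨_, _, H⟩ H.deg₁ H.deg₂ h₁ h₃
  | ret _ hg e _ h₁ => exact h₁.of_src hg e

theorem Fc.conv (h : C.Fc V) (h' : C.Fc Z) : C.E.Conv (ob V) (ob Z) := by
  refine h.conv_src ?_
  induction h' with
  | base => exact C.conv_Γ
  | dt H _ _ h₁ h₃ => exact Conv.tgt ⟨_, _, H⟩ H.deg₁ H.deg₂ h₁ h₃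
  | ret hf _ e _ h₁ => exact h₁.of_tgt hf e

theorem conv_M {V : Gr T.C} (h : C.E.Conv V (ob Z)) : C.E.Conv V (ob (Z ⊗ C.M)) :=
  Conv.tgt (C.E.tri_rot (C.tri_red Z)) (deg_io _) (C.deg_dl Z) h h

/-! ### reduction modulo three -/

variable {n : ℤ} {s : ℕ}

theorem ses_red {V : Gr T.C} (h : C.E.TF V (ob Z)) :
    C.E.Ses V 0 0 ((3 : ℤ) • 𝟙 (ob Z)) (io (C.red Z)) :=
  ses_of (C.tri_red Z) ((deg_id _).zsmul 3) (deg_io _) h.dl

theorem cb_red {V : Gr T.C} (h : C.E.TF V (ob Z)) {a : ℤ} {x : V ⟶ C.Q s Z} (dx : Deg a x)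
    (hx : x ≫ C.E.K.d (s + 1) _ = 0) (hc : C.E.Cb a s (x ≫ C.E.K.Qm (s + 1) (io (C.red Z)))) :
    ∃ y, (Deg a y ∧ y ≫ C.E.K.d (s + 1) _ = 0) ∧ C.E.Cb a s (x - (3 : ℤ) • y) := by
  obtain ⟨y, dy, hy, e⟩ := (ses_red h).cb₂ dx hx (by rwa [sub_zero])
  rw [Qm_zsmul, C.E.K.Qm_id, Preadditive.comp_zsmul, Category.comp_id] at e
  exact ⟨y, ⟨dy.cast (add_zero a), hy⟩, e⟩

/-- Vanishing modulo three implies vanishing. -/
theorem van_of_red [C.G.Tors V] (h : C.E.TF (ob V) (ob Z))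
    (hv : C.E.Van (ob V) (ob (Z ⊗ C.M)) n s) : C.E.Van (ob V) (ob Z) n s := fun x dx hx => by
  obtain ⟨z, hz, e⟩ := span_of_mod (C.G.cpl V) ⊥ 0
    (fun z hz => by rw [AddSubgroup.mem_bot.1 hz, smul_zero]; exact cb_zero _ _)
    (fun x ⟨dx, hx⟩ => by
      obtain ⟨y, hy, e⟩ := cb_red h dx hx
        (hv _ (dx.comp (deg_Qm _ (deg_io _)) (add_zero _)) (cyc_Qm hx _))
      exact ⟨y, hy, 0, AddSubgroup.zero_mem _, by rwa [sub_zero]⟩) dx hx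
  rwa [AddSubgroup.mem_bot.1 hz, sub_zero] at e

/-- Sparseness and the vanishing line for the Moore spectrum. -/
theorem van_ΓM (h : ¬ ((4 : ℤ) ∣ n + s ∧ 3 * (s : ℤ) ≤ n)) :
    C.E.Van (ob C.Γ) (ob (C.Γ ⊗ C.M)) n s := fun x dx hx => by
  have : Fact (Nat.Prime 3) := ⟨Nat.prime_three⟩
  rcases Int.even_or_odd' (n + s) with ⟨w, hw | hw⟩
  · obtain ⟨z, hz, rfl⟩ := base_surj (w := w) (dx.cast (by omega))
    obtain ⟨y, -, hy⟩ := base_ker (C := C) hz.d (by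
      rw [Φ_d, Category.assoc, ← C.E.K.d_naturality, ← Category.assoc, hx])
    cases s with
    | zero =>
      obtain ⟨u, -, rfl⟩ := P257.H709.exists_of_cocycle_modP_zero 3 (by norm_num)
        (by push_cast at h hw ⊢; omega) hz hy
      rw [map_zsmul]
      exact three_red _
    | succ s =>
      obtain ⟨y, u, hy', -, rfl⟩ := exists_of_cocycle_modP 3 (by norm_num)
        (by push_cast at h hw ⊢; omega) hz hy
      refine ⟨C.φ C.Γ s y ≫ C.E.K.Qm (s + 1) (io (C.red C.Γ)),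
        (deg_Φ _ _ hy' rfl).comp (deg_Qm _ (deg_io _)) (by omega), ?_⟩
      rw [map_add, map_zsmul, Preadditive.add_comp, Φ_d, Category.assoc, Category.assoc,
        C.E.K.d_naturality]
      exact add_eq_left.2 (three_red _)
  · rw [base_odd (a := -(n + s)) ⟨-w - 1, by omega⟩ dx]
    exact cb_zero _ _

theorem van_Γ (h : ¬ ((4 : ℤ) ∣ n + s ∧ 3 * (s : ℤ) ≤ n)) : C.E.Van (ob C.Γ) (ob C.Γ) n s :=
  van_of_red tf_Γ (van_ΓM h)

theorem _root_.Vale.Agent.P236SY.TD.STri.M {a b c : ℤ} {f : ob X ⟶ ob Y} {g : ob Y ⟶ ob Z}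
    {k : C.o Z ⟶ C.o X} (H : C.E.STri a b c (C.E.ι f) (C.E.ι g) k) (W : T.C) :
    C.E.STri a b c (C.E.ι (wr f W)) (C.E.ι (wr g W)) (C.U.sr W k) := by
  rw [← UF.sr_ι, ← UF.sr_ι]
  exact UF.stri_sr W H

end Cx

end Vale.Agent.P236SY
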