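import Vale.Agent.P236SY.GrTens
import Vale.Agent.P251.S.TelTens

/-!
# P236, synthetic calculus: torsion objects

`G.L` is the sphere with three inverted, `G.Γ` the fibre of `𝟙 ⟶ G.L`, and `G.Tors X` means that
`G.L ⊗ X` is zero.
-/

set_option linter.unusedSectionVars false

open CategoryTheory MonoidalCategory Limits Pretriangulated

universe v u

namespace Vale.Agent.P236SY

open GData Vale.Agent.P251.T Vale.Agent.P251.S Vale.Agent.P251.H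

section Cpl

variable {O : Type u} {D : GData.{v} O}

/-- The groups of homogeneous maps out of `V` are complete at three. -/
structure Cpl (V : D.Cat) : Prop where
  ex : ∀ {X : D.Cat} {a : ℤ} (c : ℕ → (V ⟶ X)), (∀ i, Deg a (c i)) →
    ∃ b : ℕ → (V ⟶ X), (∀ i, Deg a (b i)) ∧ ∀ i, b i - (3 : ℤ) • b (i + 1) = c i
  uniq : ∀ {X : D.Cat} {a : ℤ} (b : ℕ → (V ⟶ X)), (∀ i, Deg a (b i)) →
    (∀ i, b i = (3 : ℤ) • b (i + 1)) → b 0 = 0

theorem exists_seq {A : Type*} {p : A → Prop} {r : A → A → Prop}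
    (h : ∀ x, p x → ∃ y, p y ∧ r x y) {x : A} (hx : p x) :
    ∃ b : ℕ → A, b 0 = x ∧ (∀ i, p (b i)) ∧ ∀ i, r (b i) (b (i + 1)) := by
  choose! φ h1 h2 using h
  have h3 : ∀ i, p (φ^[i] x) := fun i => by
    induction i with
    | zero => exact hx
    | succ i ih => rw [Function.iterate_succ_apply']; exact h1 _ ih
  exact ⟨fun i => φ^[i] x, rfl, h3, fun i =>
    (congrArg (r _) (Function.iterate_succ_apply' φ i x)).mpr (h2 _ (h3 i))⟩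

/-- Nakayama lemma. -/
theorem Cpl.nak {V X : D.Cat} (hV : Cpl V) {a : ℤ}
    (h : ∀ f : V ⟶ X, Deg a f → ∃ g, Deg a g ∧ f = (3 : ℤ) • g) {f : V ⟶ X} (hf : Deg a f) :
    f = 0 := by
  obtain ⟨b, rfl, h1, h2⟩ := exists_seq h hf
  exact hV.uniq b h1 h2

end Cpl

variable {T : Type u} [Category.{v} T] [Preadditive T] [HasZeroObject T] [HasShift T ℤ]
  [∀ n : ℤ, (shiftFunctor T n).Additive] [Pretriangulated T] [MonoidalCategory T]
  [SymmetricCategory T] [TensorTriangulated T]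

variable (T) in
/-- The sphere with three inverted and the fibre of its unit. -/
structure Gam where
  /-- the torsion unit -/
  Γ : T
  /-- the localization -/
  L : T
  /-- the augmentation -/
  j : Γ ⟶ 𝟙_ T
  /-- the unit -/
  l : 𝟙_ T ⟶ L
  /-- the boundary map -/
  d : L ⟶ Γ⟦(1 : ℤ)⟧
  dist : Dist j l d
  three : IsIso ((3 : ℤ) • 𝟙 L)
  idem : IsZero (L ⊗ Γ)
  ex : ∀ {V : T}, IsZero (L ⊗ V) → ∀ {X : T} (c : ℕ → (V ⟶ X)),
    ∃ b : ℕ → (V ⟶ X), ∀ i, b i - (3 : ℤ) • b (i + 1) = c i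
  uniq : ∀ {V : T}, IsZero (L ⊗ V) → ∀ {X : T} (b : ℕ → (V ⟶ X)),
    (∀ i, b i = (3 : ℤ) • b (i + 1)) → b 0 = 0
  conn : ∀ {X : T}, (∀ f : 𝟙_ T ⟶ X, f = 0) → (∀ f : (𝟙_ T)⟦(1 : ℤ)⟧ ⟶ X, f = 0) →
    ∀ f : L ⟶ X, f = 0

theorem zsmul_wr (n : ℤ) (A B : T) : (n • 𝟙 A) ▷ B = n • 𝟙 (A ⊗ B) :=
  ((tensorRight B).map_zsmul).trans (congrArg _ (id_whiskerRight _ _))

theorem zsmul_wl (n : ℤ) (A B : T) : A ◁ (n • 𝟙 B) = n • 𝟙 (A ⊗ B) :=
  ((tensorLeft A).map_zsmul).trans (congrArg _ (MonoidalCategory.whiskerLeft_id _ _))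

theorem exists_gam [MonoidalClosed T] [HasCoproducts.{0} T] : Nonempty (Gam T) := by
  let U := tel (X := fun _ : ℕ => 𝟙_ T) fun _ => (3 : ℤ) • 𝟙 (𝟙_ T)
  obtain ⟨Γ, j, d, hd⟩ := exists_fibre (U.ι 0)
  have h3 : IsIso ((3 : ℤ) • 𝟙 U.obj) := by
    obtain ⟨M, i, δ, hM⟩ := exists_cone ((3 : ℤ) • 𝟙 (𝟙_ T))
    obtain ⟨a, ha⟩ := hM.desc₃ ((3 : ℤ) • 𝟙 M) (by simpa using hM.zero₁₂)
    have h9 : ((3 : ℤ) • 𝟙 M) ≫ ((3 : ℤ) • 𝟙 M) = 0 := by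
      have h := hM.zero₃₁
      rw [Functor.map_zsmul, CategoryTheory.Functor.map_id, Preadditive.comp_zsmul,
        Category.comp_id] at h
      rw [Preadditive.zsmul_comp, Category.id_comp, ← ha, ← Preadditive.zsmul_comp, h, zero_comp]
    have hz : IsZero (U.obj ⊗ M) := Tel.isZero_const
      (w := (((3 : ℤ) • 𝟙 (𝟙_ T)) ▷ M : 𝟙_ T ⊗ M ⟶ _)) (U.tensR M) ⟨2, by
        rw [pow_two]
        change (((3 : ℤ) • 𝟙 (𝟙_ T)) ▷ M) ≫ (((3 : ℤ) • 𝟙 (𝟙_ T)) ▷ M) = 0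
        rw [zsmul_wr, ← zsmul_wl, ← MonoidalCategory.whiskerLeft_comp, h9]
        exact (tensorLeft _).map_zero _ _⟩
    have h1 : IsIso (U.obj ◁ ((3 : ℤ) • 𝟙 (𝟙_ T))) :=
      (Triangle.isZero₃_iff_isIso₁ _ (tensorLeftTriangle_distinguished U.obj _ hM)).1 hz
    have h2 : (3 : ℤ) • 𝟙 U.obj = (ρ_ _).inv ≫ (U.obj ◁ ((3 : ℤ) • 𝟙 (𝟙_ T))) ≫ (ρ_ _).hom := by
      rw [zsmul_wl]
      simp
    rw [h2]
    infer_instance
  have hiso : ∀ {V : T}, IsZero (U.obj ⊗ V) → IsIso (sigmaSub (X := fun _ : ℕ => 𝟙_ T ⊗ V)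
      fun _ => ((3 : ℤ) • 𝟙 (𝟙_ T)) ▷ V) := fun {V} hV =>
    (Triangle.isZero₃_iff_isIso₁ _ (U.tensR V).dist).1 hV
  refine ⟨⟨Γ, U.obj, j, U.ι 0, d, hd, h3, ?_, fun {V} hV X c => ?_, fun {V} hV X b hb => ?_,
    fun {X} h0 h1 f => ?_⟩⟩
  · have h4 : IsIso (U.obj ◁ ((3 : ℤ) • 𝟙 (𝟙_ T))) := by
      rw [zsmul_wl, ← zsmul_wr]
      infer_instance
    exact (Triangle.isZero₁_iff_isIso₂ _ (tensorLeftTriangle_distinguished U.obj _ hd)).2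
      (Tel.isIso_const (w := U.obj ◁ ((3 : ℤ) • 𝟙 (𝟙_ T))) (U.tensL U.obj))
  · have := hiso hV
    let y := inv (sigmaSub (X := fun _ : ℕ => 𝟙_ T ⊗ V) fun _ => ((3 : ℤ) • 𝟙 (𝟙_ T)) ▷ V) ≫
      Sigma.desc fun i => (λ_ V).hom ≫ c i
    refine ⟨fun i => (λ_ V).inv ≫ Sigma.ι (fun _ : ℕ => 𝟙_ T ⊗ V) i ≫ y, fun i => ?_⟩
    have h := ι_sigmaSub_assoc (X := fun _ : ℕ => 𝟙_ T ⊗ V)
      (fun _ => ((3 : ℤ) • 𝟙 (𝟙_ T)) ▷ V) i y
    rw [IsIso.hom_inv_id_assoc, Sigma.ι_desc, zsmul_wr, Preadditive.sub_comp,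
      Preadditive.zsmul_comp, Category.id_comp, Preadditive.zsmul_comp] at h
    rw [← Preadditive.comp_zsmul, ← Preadditive.comp_sub, ← h, Iso.inv_hom_id_assoc]
  · have := hiso hV
    have h : Sigma.desc (fun i => (λ_ V).hom ≫ b i) = 0 := by
      rw [← cancel_epi (sigmaSub (X := fun _ : ℕ => 𝟙_ T ⊗ V)
        fun _ => ((3 : ℤ) • 𝟙 (𝟙_ T)) ▷ V), sigmaSub_desc, comp_zero]
      refine Sigma.hom_ext _ _ fun i => ?_
      rw [Sigma.ι_desc, comp_zero, zsmul_wr, Preadditive.zsmul_comp, Category.id_comp, hb i,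
        Preadditive.comp_zsmul, sub_self]
    have h' := congrArg (Sigma.ι (fun _ : ℕ => 𝟙_ T ⊗ V) 0 ≫ ·) h
    simp only [Sigma.ι_desc, comp_zero] at h'
    rw [← cancel_epi (λ_ V).hom, h', comp_zero]
  · obtain ⟨y, rfl⟩ := U.exists_of_ι_comp_eq_zero f fun _ => h0 _
    have hy : y = 0 := shift_hom_ext _ _ fun _ => (h1 _).trans comp_zero.symm
    rw [hy, comp_zero]

namespace Gam

variable (G : Gam T)

/-- Torsion objects. -/
class Tors (X : T) : Prop where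
  zero : IsZero (G.L ⊗ X)

instance : G.Tors G.Γ := ⟨G.idem⟩

instance tors_left (X Y : T) [h : G.Tors X] : G.Tors (X ⊗ Y) :=
  ⟨((tensorRight Y).map_isZero h.zero).of_iso (α_ _ _ _).symm⟩

instance tors_right (X Y : T) [h : G.Tors Y] : G.Tors (X ⊗ Y) :=
  ⟨(G.tors_left Y X).zero.of_iso (whiskerLeftIso _ (β_ _ _))⟩

variable {G}

theorem tors_iff {X : T} : G.Tors X ↔ wl G.L (𝟙 (ob X)) = 0 := by
  rw [wl_id, ← io_id, io_eq_zero, ← IsZero.iff_id_eq_zero]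
  exact ⟨fun h => h.zero, fun h => ⟨h⟩⟩

theorem Tors.of_retract {X Y : T} [h : G.Tors Y] (f : ob X ⟶ ob Y) (g : ob Y ⟶ ob X)
    (e : f ≫ g = 𝟙 _) : G.Tors X := by
  rw [tors_iff] at h ⊢
  rw [← e, ← Category.id_comp g, wl_comp, wl_comp, h, zero_comp, comp_zero]

theorem Tors.of_iso {X Y : T} [G.Tors Y] (e : ob X ≅ ob Y) : G.Tors X :=
  Tors.of_retract e.hom e.inv e.hom_inv_id

instance (X : T) [G.Tors X] (n : ℤ) : G.Tors (X⟦n⟧) := Tors.of_iso (ush X n)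

theorem Tors.dt₂ {X Y Z : T} [h₁ : G.Tors X] [h₃ : G.Tors Z] {a b : ℤ} {f : ob X ⟶ ob Y}
    {g : ob Y ⟶ ob Z} {h : ob Z ⟶ ob X} (H : DT a b f g h) : G.Tors Y := by
  rw [tors_iff] at h₁ h₃ ⊢
  obtain ⟨y, hy⟩ := (DT.wl G.L H).co (wl G.L (𝟙 _)) (by
    rw [← wl_comp, ← Category.comp_id (_ ≫ g), wl_comp, h₃, comp_zero])
  rw [hy, ← Category.id_comp f, wl_comp, h₁, zero_comp, comp_zero]

theorem Tors.dt₃ {X Y Z : T} [G.Tors X] [G.Tors Y] {a b : ℤ} {f : ob X ⟶ ob Y}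
    {g : ob Y ⟶ ob Z} {h : ob Z ⟶ ob X} (H : DT a b f g h) : G.Tors Z := Tors.dt₂ H.rot

theorem Tors.dt₁ {X Y Z : T} [G.Tors Y] [G.Tors Z] {a b : ℤ} {f : ob X ⟶ ob Y}
    {g : ob Y ⟶ ob Z} {h : ob Z ⟶ ob X} (H : DT a b f g h) : G.Tors X := Tors.dt₂ H.rot'

theorem isIso_three (X : T) : IsIso ((3 : ℤ) • 𝟙 (ob (G.L ⊗ X))) := by
  have := G.three
  rw [← io_id, ← io_zsmul, ← zsmul_wr]
  infer_instance

/-- An object which is killed by a power of three is torsion. -/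
theorem tors_of_pow {X : T} (k : ℕ) (h : (3 : ℤ) ^ k • 𝟙 (ob X) = 0) : G.Tors X := by
  have := isIso_three (G := G) X
  have h1 : ∀ (k : ℕ) (f : ob (G.L ⊗ X) ⟶ ob (G.L ⊗ X)), (3 : ℤ) ^ k • f = 0 → f = 0 := by
    intro k
    induction k with
    | zero => simp
    | succ k ih =>
      intro f hf
      rw [← cancel_mono ((3 : ℤ) • 𝟙 (ob (G.L ⊗ X))), zero_comp]
      refine ih _ ?_
      rw [Preadditive.comp_zsmul, Category.comp_id, smul_smul, ← pow_succ, hf]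
  exact tors_iff.2 (h1 k _ (by rw [← wl_zsmul, h, wl_zero]))

variable (G)

theorem cpl (V : T) [h : G.Tors V] : Cpl (ob V) where
  ex {X a} c hc := by
    choose c' hc' using fun i => Deg.exists_sm (Y := X.obj) (hc i)
    obtain ⟨b, hb⟩ := G.ex h.zero c'
    exact ⟨fun i => sm a (b i), fun i => deg_sm _ _, fun i => by
      rw [hc', ← hb, sub_eq_add_neg, sub_eq_add_neg, sm_add, sm_neg, sm_zsmul]⟩
  uniq {X a} b hb e := by
    choose b' hb' using fun i => Deg.exists_sm (Y := X.obj) (hb i)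
    rw [hb', G.uniq h.zero b' fun i => sm_inj (by rw [sm_zsmul, ← hb', ← hb', e]), sm_zero]

theorem to_L (V : T) [G.Tors V] {X : T} (f : ob V ⟶ ob (G.L ⊗ X)) : f = 0 := by
  have := isIso_three (G := G) X
  refine ind f rfl (fun a f hf => (G.cpl V).nak (fun f hf => ?_) hf)
    (fun a b ha hb => by rw [ha, hb, add_zero])
  have hi : Deg (-0) (asIso ((3 : ℤ) • 𝟙 (ob (G.L ⊗ X)))).inv := Deg.inv ((deg_id _).zsmul _)
  refine ⟨f ≫ inv ((3 : ℤ) • 𝟙 (ob (G.L ⊗ X))), hf.comp hi (by simp), ?_⟩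
  rw [← Category.comp_id (_ ≫ inv _), ← Preadditive.comp_zsmul, Category.assoc, IsIso.inv_hom_id,
    Category.comp_id]

/-- The counit `Γ ⊗ X ⟶ X`. -/
def lam (X : T) : G.Γ ⊗ X ⟶ X := (G.j ▷ X) ≫ (λ_ X).hom

theorem dt (X : T) : DT 0 0 (io (G.lam X)) (io ((λ_ X).inv ≫ (G.l ▷ X))) (wr (sm 1 G.d) X) :=
  (DT.wr X (dt_of_dist G.dist)).iso (Iso.refl _) (ioI (λ_ X).symm) (Iso.refl _) (deg_id _)
    (deg_io _) (deg_id _) (by simp [wr_io, io_comp, lam]) (by simp [wr_io, io_comp])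
    (by simp) rfl rfl

@[reassoc]
theorem lam_nat {X Y : T} (f : ob X ⟶ ob Y) : wl G.Γ f ≫ io (G.lam Y) = io (G.lam X) ≫ f := by
  rw [lam, lam, io_comp, io_comp, wl_ex_assoc, wl_lam, Category.assoc]

theorem lam_inj {V : T} [G.Tors V] {X : T} {f : ob V ⟶ ob (G.Γ ⊗ X)}
    (h : f ≫ io (G.lam X) = 0) : f = 0 := by
  obtain ⟨y, rfl⟩ := (G.dt X).rot'.co f h
  rw [G.to_L V y, zero_comp]

theorem lam_surj {V : T} [G.Tors V] {X : T} {a : ℤ} {f : ob V ⟶ ob X} (hf : Deg a f) :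
    ∃ g : ob V ⟶ ob (G.Γ ⊗ X), Deg a g ∧ f = g ≫ io (G.lam X) := by
  obtain ⟨y, hy⟩ := (G.dt X).co f (G.to_L V _)
  exact hf.left (deg_io _) hy (add_zero a)

instance isIso_lam (X : T) [G.Tors X] : IsIso (G.lam X) := by
  obtain ⟨g, hg, e⟩ := G.lam_surj (deg_id (ob X))
  obtain ⟨g, rfl⟩ := Deg.exists_io hg
  refine ⟨g, io_inj ?_, io_inj (by rw [io_comp, ← e, io_id])⟩
  rw [← sub_eq_zero]
  apply G.lam_inj
  rw [Preadditive.sub_comp, io_comp, Category.assoc, ← e, io_id, Category.comp_id,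
    Category.id_comp, sub_self]

theorem lam_Γ : G.lam G.Γ = (G.Γ ◁ G.j) ≫ (ρ_ G.Γ).hom := by
  apply io_inj
  rw [← sub_eq_zero, ← cancel_mono (io (ρ_ G.Γ).inv), zero_comp]
  apply G.lam_inj
  rw [← io_sub, ← io_comp, ← io_comp, io_eq_zero, Preadditive.sub_comp, Preadditive.sub_comp,
    sub_eq_zero]
  simp only [lam, Category.assoc, Iso.hom_inv_id_assoc]
  rw [whisker_exchange_assoc, ← rightUnitor_inv_naturality_assoc, leftUnitor_naturality,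
    unitors_equal, Iso.inv_hom_id, Category.comp_id]

theorem from_L {N : T} (k : ℕ) (h : (3 : ℤ) ^ k • 𝟙 (ob N) = 0) {V : T}
    (f : ob (G.L ⊗ V) ⟶ ob N) : f = 0 := by
  have := isIso_three (G := G) V
  have h1 : ∀ (k : ℕ) (f : ob (G.L ⊗ V) ⟶ ob N), (3 : ℤ) ^ k • f = 0 → f = 0 := by
    intro k
    induction k with
    | zero => simp
    | succ k ih =>
      intro f hf
      rw [← cancel_epi ((3 : ℤ) • 𝟙 (ob (G.L ⊗ V))), comp_zero]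
      refine ih _ ?_
      rw [Preadditive.zsmul_comp, Category.id_comp, smul_smul, ← pow_succ, hf]
  exact h1 k f (by rw [← Category.comp_id f, ← Preadditive.comp_zsmul, h, comp_zero])

theorem lam_pre_inj {N : T} (k : ℕ) (h : (3 : ℤ) ^ k • 𝟙 (ob N) = 0) {V : T} {f : ob V ⟶ ob N}
    (hf : io (G.lam V) ≫ f = 0) : f = 0 := by
  obtain ⟨y, rfl⟩ := (G.dt V).yo f hf
  rw [G.from_L k h y, comp_zero]

theorem lam_pre_surj {N : T} (k : ℕ) (h : (3 : ℤ) ^ k • 𝟙 (ob N) = 0) {V : T} {a : ℤ}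
    {f : ob (G.Γ ⊗ V) ⟶ ob N} (hf : Deg a f) :
    ∃ g : ob V ⟶ ob N, Deg a g ∧ f = io (G.lam V) ≫ g := by
  obtain ⟨y, hy⟩ := (G.dt V).rot'.yo f (G.from_L k h _)
  exact hf.right (deg_io _) hy (zero_add a)

end Gam

end Vale.Agent.P236SY
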