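import Vale.Agent.P236SY.Ring

/-!
# P236, synthetic calculus: tensor products of synthetic morphisms
-/

set_option linter.unusedSectionVars false

open CategoryTheory MonoidalCategory Limits Pretriangulated MonObj

universe v u

namespace Vale.Agent.P236SY

open GData Vale.Agent.P251.T Vale.Agent.P251.S Vale.Agent.P251.H TD

variable {T : Type u} [Category.{v} T] [Preadditive T] [HasZeroObject T] [HasShift T ℤ]
  [∀ n : ℤ, (shiftFunctor T n).Additive] [Pretriangulated T] [MonoidalCategory T]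
  [SymmetricCategory T] [TensorTriangulated T]

namespace UF

variable {R : T} [MonObj R] (U : UF R)

/-- An object of `T` in the synthetic category. -/
noncomputable abbrev o (X : T) : U.td.Syn := U.td.so (ob X)

/-- A morphism of `T` in the synthetic category. -/
noncomputable def j {X Y : T} (f : X ⟶ Y) : U.o X ⟶ U.o Y := U.td.ι (io f)

theorem j_eq {X Y : T} (f : X ⟶ Y) : U.j f = U.td.ι (io f) := rfl

@[simp] theorem j_id (X : T) : U.j (𝟙 X) = 𝟙 _ := U.td.ι_id _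

@[reassoc]
theorem j_comp {X Y Z : T} (f : X ⟶ Y) (g : Y ⟶ Z) : U.j (f ≫ g) = U.j f ≫ U.j g := by
  rw [j, io_comp, ι_comp]; rfl

theorem dg_j {X Y : T} (f : X ⟶ Y) : U.td.Dg 0 0 (U.j f) := dg_ι (deg_io f)

@[reassoc (attr := simp)]
theorem j_hom_inv {X Y : T} (e : X ≅ Y) : U.j e.hom ≫ U.j e.inv = 𝟙 _ := by
  rw [← j_comp, e.hom_inv_id, j_id]

@[reassoc (attr := simp)]
theorem j_inv_hom {X Y : T} (e : X ≅ Y) : U.j e.inv ≫ U.j e.hom = 𝟙 _ := by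
  rw [← j_comp, e.inv_hom_id, j_id]

@[reassoc (attr := simp)]
theorem j_ββ (A B : T) : U.j (β_ A B).hom ≫ U.j (β_ B A).hom = 𝟙 _ := by
  rw [← j_comp, SymmetricCategory.symmetry, j_id]

instance {X Y : T} (f : X ⟶ Y) [IsIso f] : IsIso (U.j f) :=
  ⟨U.j (inv f), U.j_hom_inv (asIso f), U.j_inv_hom (asIso f)⟩

/-- `W ⊗ x` -/
noncomputable def sl (W : T) {A B : T} : (U.o A ⟶ U.o B) →+ (U.o (W ⊗ A) ⟶ U.o (W ⊗ B)) :=
  (U.cL W).S

/-- `x ⊗ W` -/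
noncomputable def sr (W : T) {A B : T} : (U.o A ⟶ U.o B) →+ (U.o (A ⊗ W) ⟶ U.o (B ⊗ W)) :=
  (U.cR W).S

section

variable (W : T) {A B C : T} {n s : ℤ}

@[simp] theorem sl_id (A : T) : U.sl W (𝟙 (U.o A)) = 𝟙 _ := (U.cL W).S_id _
@[simp] theorem sr_id (A : T) : U.sr W (𝟙 (U.o A)) = 𝟙 _ := (U.cR W).S_id _
@[reassoc] theorem sl_comp (x : U.o A ⟶ U.o B) (y : U.o B ⟶ U.o C) :
    U.sl W (x ≫ y) = U.sl W x ≫ U.sl W y := (U.cL W).S_comp x y
@[reassoc] theorem sr_comp (x : U.o A ⟶ U.o B) (y : U.o B ⟶ U.o C) :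
    U.sr W (x ≫ y) = U.sr W x ≫ U.sr W y := (U.cR W).S_comp x y
theorem sl_ι (f : ob A ⟶ ob B) : U.sl W (U.td.ι f) = U.td.ι (wl W f) := (U.cL W).S_ι f
theorem sr_ι (f : ob A ⟶ ob B) : U.sr W (U.td.ι f) = U.td.ι (wr f W) := (U.cR W).S_ι f
theorem sl_j (f : A ⟶ B) : U.sl W (U.j f) = U.j (W ◁ f) := by rw [j, sl_ι, wl_io]; rfl
theorem sr_j (f : A ⟶ B) : U.sr W (U.j f) = U.j (f ▷ W) := by rw [j, sr_ι, wr_io]; rfl
@[simp] theorem sl_τ (A : T) : U.sl W (U.td.τ (U.o A)) = U.td.τ _ := (U.cL W).S_τ _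
@[simp] theorem sr_τ (A : T) : U.sr W (U.td.τ (U.o A)) = U.td.τ _ := (U.cR W).S_τ _
@[simp] theorem sl_tp (k : ℕ) (A : T) : U.sl W (U.td.tp k (U.o A)) = U.td.tp k _ :=
  (U.cL W).S_tp k _
@[simp] theorem sr_tp (k : ℕ) (A : T) : U.sr W (U.td.tp k (U.o A)) = U.td.tp k _ :=
  (U.cR W).S_tp k _

variable {U}

theorem dg_sl {x : U.o A ⟶ U.o B} (h : U.td.Dg n s x) : U.td.Dg n s (U.sl W x) := (U.cL W).dg h
theorem dg_sr {x : U.o A ⟶ U.o B} (h : U.td.Dg n s x) : U.td.Dg n s (U.sr W x) := (U.cR W).dg h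

theorem stri_sl {a b c : ℤ} {f : U.o A ⟶ U.o B} {g : U.o B ⟶ U.o C} {k : U.o C ⟶ U.o A}
    (H : U.td.STri a b c f g k) : U.td.STri a b c (U.sl W f) (U.sl W g) (U.sl W k) :=
  (U.cL W).stri H

theorem stri_sr {a b c : ℤ} {f : U.o A ⟶ U.o B} {g : U.o B ⟶ U.o C} {k : U.o C ⟶ U.o A}
    (H : U.td.STri a b c f g k) : U.td.STri a b c (U.sr W f) (U.sr W g) (U.sr W k) :=
  (U.cR W).stri H

variable (U)

@[reassoc]
theorem sl_β (x : U.o A ⟶ U.o B) :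
    U.sl W x ≫ U.j (β_ W B).hom = U.j (β_ W A).hom ≫ U.sr W x :=
  CF.S_nat₀ (Φ := U.cL W) (Ψ := U.cR W) (fun X => io (β_ W X.obj).hom) (fun f => wl_β W f)
    (fun X => by
      change io _ ≫ wl _ (io _) = io _ ≫ io _
      rw [wl_io, ← io_comp, ← io_comp, swp_β]) x

@[reassoc]
theorem sr_β (x : U.o A ⟶ U.o B) :
    U.sr W x ≫ U.j (β_ B W).hom = U.j (β_ A W).hom ≫ U.sl W x := by
  rw [← cancel_epi (U.j (β_ W A).hom), ← sl_β_assoc, j_ββ, j_ββ_assoc, Category.comp_id]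

@[reassoc]
theorem sl_lam (x : U.o A ⟶ U.o B) : U.sl (𝟙_ T) x ≫ U.j (λ_ B).hom = U.j (λ_ A).hom ≫ x :=
  (CF.S_nat₀ (Φ := U.cL (𝟙_ T)) (Ψ := U.td.cI) (fun X => io (λ_ X.obj).hom) (fun f => wl_lam f)
    (fun X => by
      change io _ ≫ wl _ (io _) = io _ ≫ 𝟙 _
      rw [wl_io, ← io_comp, swp_unit, Category.comp_id]) x).trans (by rw [CF.cI_S]; rfl)

@[reassoc]
theorem sr_rho (x : U.o A ⟶ U.o B) : U.sr (𝟙_ T) x ≫ U.j (ρ_ B).hom = U.j (ρ_ A).hom ≫ x := by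
  rw [← braiding_leftUnitor, ← braiding_leftUnitor, j_comp, j_comp, sr_β_assoc, sl_lam,
    Category.assoc]

@[reassoc]
theorem sl_α (W' : T) (x : U.o A ⟶ U.o B) : U.sl (W ⊗ W') x ≫ U.j (α_ W W' B).hom =
    U.j (α_ W W' A).hom ≫ U.sl W (U.sl W' x) :=
  (CF.S_nat₀ (Φ := U.cL (W ⊗ W')) (Ψ := (U.cL W').comp (U.cL W))
    (fun X => io (α_ W W' X.obj).hom) (fun f => wl_α W W' f)
    (fun X => by
      change io _ ≫ wl _ (io _) = io _ ≫ wl _ (io _) ≫ io _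
      rw [wl_io, wl_io, ← io_comp, ← io_comp, ← io_comp, swp_tensor]) x).trans
    (by rw [CF.comp_S]; rfl)

@[reassoc]
theorem smid_α (Z : T) (x : U.o A ⟶ U.o B) : U.sr Z (U.sl W x) ≫ U.j (α_ W B Z).hom =
    U.j (α_ W A Z).hom ≫ U.sl W (U.sr Z x) := by
  have h := CF.S_nat₀ (Φ := (U.cL W).comp (U.cR Z)) (Ψ := (U.cR Z).comp (U.cL W))
    (fun X => io (α_ W X.obj Z).hom) (fun f => mid_α W Z f)
    (fun X => by
      change (wr (io _) _ ≫ io _) ≫ wl _ (io _) = io _ ≫ wl _ (io _) ≫ io _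
      rw [wl_io, wl_io, wr_io, ← io_comp, ← io_comp, ← io_comp, ← io_comp, Category.assoc,
        swp_mid]) x
  rwa [CF.comp_S, CF.comp_S] at h

@[reassoc]
theorem sr_α (Z : T) (x : U.o A ⟶ U.o B) : U.sr Z (U.sr W x) ≫ U.j (α_ B W Z).hom =
    U.j (α_ A W Z).hom ≫ U.sr (W ⊗ Z) x := by
  have h := CF.S_nat₀ (Φ := (U.cR W).comp (U.cR Z)) (Ψ := U.cR (W ⊗ Z))
    (fun X => io (α_ X.obj W Z).hom) (fun f => wr_α W Z f)
    (fun X => by
      change (wr (io _) _ ≫ io _) ≫ wl _ (io _) = io _ ≫ io _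
      rw [wl_io, wr_io, ← io_comp, ← io_comp, ← io_comp]
      congr 1
      monoidal) x
  rwa [CF.comp_S] at h

variable {U W}

/-- Interchange with a morphism of filtration zero. -/
theorem sl_wr {W' : T} {b : ℤ} {f : ob W ⟶ ob W'} (hf : Deg b f) {x : U.o A ⟶ U.o B}
    (hx : U.td.Dg n s x) :
    U.sl W x ≫ U.td.ι (wr f B) = (n * b).negOnePow • U.td.ι (wr f A) ≫ U.sl W' x :=
  CF.S_nat (Φ := U.cL W) (Ψ := U.cL W') (fun X => wr f X.obj)
    (fun {_ _ a g} hg => by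
      change wl W g ≫ wr f _ = _ • wr f _ ≫ wl W' g
      rw [interchange hf hg, smul_smul, mul_comm a b, Int.units_mul_self, one_smul])
    (fun X => (swp_nat₁ f _ _).symm) hx

theorem sr_wl {W' : T} {b : ℤ} {f : ob W ⟶ ob W'} (hf : Deg b f) {x : U.o A ⟶ U.o B}
    (hx : U.td.Dg n s x) :
    U.sr W x ≫ U.td.ι (wl B f) = (n * b).negOnePow • U.td.ι (wl A f) ≫ U.sr W' x :=
  CF.S_nat (Φ := U.cR W) (Ψ := U.cR W') (fun X => wl X.obj f)
    (fun hg => interchange hg hf) (fun _ => (wl_α _ _ f).symm) hx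

variable (U)

@[reassoc]
theorem sl_ex {W' : T} (f : W ⟶ W') (x : U.o A ⟶ U.o B) :
    U.sl W x ≫ U.j (f ▷ B) = U.j (f ▷ A) ≫ U.sl W' x := by
  refine dg_ind x (by simp) (fun n s x hx => ?_) (fun a b ha hb => by simp [ha, hb])
  have h := sl_wr (deg_io f) hx
  rwa [mul_zero, Int.negOnePow_zero, one_smul, wr_io, wr_io] at h

@[reassoc]
theorem sr_ex {W' : T} (f : W ⟶ W') (x : U.o A ⟶ U.o B) :
    U.sr W x ≫ U.j (B ◁ f) = U.j (A ◁ f) ≫ U.sr W' x := by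
  refine dg_ind x (by simp) (fun n s x hx => ?_) (fun a b ha hb => by simp [ha, hb])
  have h := sr_wl (deg_io f) hx
  rwa [mul_zero, Int.negOnePow_zero, one_smul, wl_io, wl_io] at h

variable {U}

/-- The interchange law in the synthetic category. -/
theorem inter {W' : T} (hs : U.td.Sym (ob (W' ⊗ B))) {m t : ℤ} {y : U.o W ⟶ U.o W'}
    (hy : U.td.Dg m t y) {x : U.o A ⟶ U.o B} (hx : U.td.Dg n s x) :
    U.sl W x ≫ U.sr B y = (n * m).negOnePow • U.sr A y ≫ U.sl W' x := by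
  obtain ⟨g, hg, rfl⟩ := hy
  have h := CF.S_inter (Φ := U.cL W) (Ψ := U.cL W') (b := m) (t := t.toNat)
    (fun X => wr g X.obj ≫ (U.cR X.obj).νs _ (ob W'))
    (fun {X Y a f} hf => by
      have h1 := CF.νs_θ (Φ := U.cR X.obj) (Ψ := U.cR Y.obj) (fun Z => wl Z.obj f)
        (fun Z => (wl_α _ _ f).symm) t.toNat (ob W')
      have h2 := interchange hg hf
      change wl W f ≫ wr g _ ≫ _ = _ • (wr g _ ≫ _) ≫ U.td.Fm _ (wl W' f)
      rw [Category.assoc, h1, reassoc_of% h2, Linear.units_smul_comp, smul_smul, neg_mul,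
        Int.negOnePow_neg, mul_comm a m, Int.units_mul_self, one_smul, Category.assoc])
    (fun X => by
      have h1 := CF.νs_θ (Φ := U.cR (U.I ⊗ X.obj)) (Ψ := (U.cR X.obj).comp U.td.cF)
        (fun Z => io (swp Z.obj U.I X.obj)) (fun Z => by
          change io _ ≫ wl _ (io _) = io _ ≫ wl _ (io _) ≫ io _
          rw [wl_io, wl_io, ← io_comp, ← io_comp, ← io_comp, swp_cyc]) t.toNat (ob W')
      rw [CF.comp_νs] at h1
      change io (swp W U.I X.obj) ≫ wl U.I (wr g _ ≫ _) ≫ _ = (wr g _ ≫ _) ≫ _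
      rw [wl_comp, Category.assoc, ← swp_nat₁_assoc, Category.assoc]
      exact congrArg (_ ≫ ·) h1.symm)
    (X := U.o A) (Y := U.o B) hs hx t le_rfl
  exact (congrArg (_ ≫ ·) ((U.cR B).S_cl t le_rfl g)).trans
    (h.trans (congrArg (_ • · ≫ _) ((U.cR A).S_cl t le_rfl g).symm))

end

/-- Cones of classes of filtration one. -/
theorem exists_stri {A X : T} {n : ℤ} {x : U.o A ⟶ U.o X} (hx : U.td.Dg n 1 x) :
    ∃ (C : T) (i : ob X ⟶ ob C) (p : ob C ⟶ ob A) (h : ob A ⟶ ob (U.I ⊗ X)), Deg (-n) h ∧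
      x = U.td.up h ∧ DT 0 (n + 1) i p (h ≫ U.td.ε (ob X)) ∧
      U.td.STri 0 (-(n + 1)) n (U.td.ι i) (U.td.ι p) x := by
  obtain ⟨h, dh, rfl⟩ := hx.exists_up
  obtain ⟨C, i, p, H⟩ := exists_dt (dh.comp (U.td.deg_ε (ob X)) (add_zero _))
  have H' : DT 0 (n + 1) i p (h ≫ U.td.ε (ob X)) := H.rot.cast rfl (by ring)
  exact ⟨C.obj, i, p, h, dh, rfl, H', i, p, h, ⟨_, _, H'⟩, H'.deg₁, H'.deg₂.cast (by ring), dh,
    rfl, rfl, rfl⟩

end UF

end Vale.Agent.P236SY
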