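import Vale.Agent.P236SY.Phi
import Vale.Agent.P236SY.Ten
import Vale.Agent.P236SY.Gam
import Vale.Agent.P257.H709.LowPi
import Vale.Agent.P251.M.BGlueD
import Vale.Agent.P251.M.LineIso
import Vale.Agent.P251.St.Base

/-!
# P236, synthetic calculus: the context, and the cochains of the sphere

`Cx T` bundles `MU`, the fibre of its unit, the torsion unit `Γ` and a Moore spectrum `M`.
-/

open CategoryTheory MonoidalCategory Limits Pretriangulated MonObj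

namespace Vale.Agent.P236SY

open GData Vale.Agent.P251 Vale.Agent.P251.T Vale.Agent.P251.S Vale.Agent.P251.H Vale.Agent.P251.M
  Vale.Agent.P251.F Vale.Agent.P251.I TD
open Vale.Agent.P251.St (SHCat)

namespace TD

variable {O : Type*} {D : GData O} {E : TD D} {X Y Z : D.Cat}

theorem tri_Qm (s : ℕ) {f : X ⟶ Y} {g : Y ⟶ Z} {h : Z ⟶ X} (H : E.Tri f g h) :
    E.Tri (E.K.Qm s f) (E.K.Qm s g) (E.K.Qm s h) := by
  induction s generalizing X Y Z with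
  | zero => exact H
  | succ s ih => exact ih (E.tri_M H)

theorem ε_Q (s : ℕ) (X : D.Cat) : E.ε (E.K.Q (s + 1) X) = 0 := by
  induction s generalizing X with
  | zero => exact E.ε_M X
  | succ s ih => exact ih _

theorem ε_comp_Q {s : ℕ} (c : X ⟶ E.K.Q (s + 1) Y) : E.ε X ≫ c = 0 := by
  rw [← E.ε_nat, ε_Q, comp_zero]

theorem Qm_ε (s : ℕ) (X : D.Cat) : E.K.Qm (s + 1) (E.ε X) = 0 := by
  rw [E.K.Qm_succ, M_ε, E.K.Qm_zero']

theorem exists_q (s : ℕ) {V : D.Cat} (Z : D.Cat) (e : V ⟶ E.K.M.obj (E.K.B s Z)) :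
    ∃ c : V ⟶ E.K.Q (s + 1) Z, c ≫ E.K.q s Z = e := by
  induction s generalizing Z with
  | zero => exact ⟨e, Category.comp_id _⟩
  | succ s ih =>
    obtain ⟨c, rfl⟩ := ih (E.K.G.obj Z) e
    obtain ⟨σ, h, -⟩ := E.K.split Z
    refine ⟨c ≫ E.K.Qm s σ, ?_⟩
    rw [E.K.q_succ, E.K.Qm_succ, Category.assoc, ← E.K.Qm_comp_assoc, h, E.K.Qm_id,
      Category.id_comp]

theorem null_of_Q {V : D.Cat} {h : Z ⟶ X} {a : ℤ} (hh : Deg a h)
    (H : ∀ (s : ℕ) (c : V ⟶ E.K.Q (s + 1) Z), c ≫ E.K.Qm (s + 1) h = 0) : E.Null V h := by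
  intro s e
  obtain ⟨c, rfl⟩ := exists_q s Z e
  have h1 := congrArg (c ≫ ·) (E.K.q_naturality s h)
  simp only [reassoc_of% H s c, zero_comp] at h1
  rw [Bm_eq s hh, Units.smul_def, Functor.map_zsmul, Preadditive.comp_zsmul,
    Preadditive.comp_zsmul, ← Units.smul_def, eq_comm, smul_eq_zero_iff_eq] at h1
  rwa [Category.assoc]

variable (E) in
/-- The cochains are torsion free. -/
def TF (V Z : D.Cat) : Prop := ∀ (s : ℕ) (c : V ⟶ E.K.Q (s + 1) Z), (3 : ℤ) • c = 0 → c = 0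

end TD

/-- The context. -/
structure Cx (T : SHCat) where
  /-- the suspension spectra -/
  F : SpaceFunctor T.C
  /-- complex cobordism -/
  D : MUData T.C
  hD : MUUniv (lineIso F) D
  /-- the fibre of the unit -/
  U : UF D.R
  /-- the torsion unit -/
  G : Gam T.C
  /-- the Moore spectrum -/
  M : T.C
  /-- the bottom cell -/
  i : 𝟙_ T.C ⟶ M
  /-- the top cell -/
  δ : M ⟶ (𝟙_ T.C)⟦(1 : ℤ)⟧
  dist : Dist ((3 : ℤ) • 𝟙 (𝟙_ T.C)) i δ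

namespace Cx

variable {T : SHCat} (C : Cx T)

/-- the tower data -/
noncomputable abbrev E : TD (shD T.C) := C.U.td

/-- the torsion sphere -/
abbrev Γ : T.C := C.G.Γ

/-- the objects of the synthetic category -/
noncomputable abbrev o (X : T.C) : C.E.Syn := C.U.o X

/-- the cochains of degree `s` -/
noncomputable abbrev Q (s : ℕ) (X : T.C) : Gr T.C := C.E.K.Q (s + 1) (ob X)

/-- the cochain `z ⊗ 1` -/
noncomputable abbrev φ (X : T.C) (s : ℕ) : Cob Laz s →+ (ob X ⟶ C.Q s X) := Φ C.D C.U X s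

/-- The reduction modulo three. -/
def red (X : T.C) : X ⟶ X ⊗ C.M := (ρ_ X).inv ≫ X ◁ C.i

/-- The pinch map. -/
noncomputable def dl (X : T.C) : ob (X ⊗ C.M) ⟶ ob X := wl X (sm 1 C.δ) ≫ io (ρ_ X).hom

theorem deg_dl (X : T.C) : Deg 1 (C.dl X) := (Deg.wl _ (deg_sm _ _)).comp (deg_io _) rfl

theorem dt_red (X : T.C) : DT 0 0 ((3 : ℤ) • 𝟙 (ob X)) (io (C.red X)) (C.dl X) :=
  (DT.wl X (dt_of_dist C.dist)).iso (ioI (ρ_ X).symm) (ioI (ρ_ X).symm) (Iso.refl _) (deg_io _)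
    (deg_io _) (deg_id _) (by simp [io_zsmul, wl_zsmul]) (by simp [wl_io, red, io_comp])
    (by simp [dl]) rfl rfl

theorem tri_red (X : T.C) : C.E.Tri ((3 : ℤ) • 𝟙 (ob X)) (io (C.red X)) (C.dl X) :=
  ⟨_, _, C.dt_red X⟩

@[reassoc]
theorem red_nat {X Y : T.C} (f : ob X ⟶ ob Y) :
    f ≫ io (C.red Y) = io (C.red X) ≫ wr f C.M := by
  rw [red, red, io_comp, io_comp, Category.assoc, ← wr_ex, rho_inv_wr_assoc]

theorem dl_nat {X Y : T.C} {a : ℤ} {f : ob X ⟶ ob Y} (hf : Deg a f) :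
    wr f C.M ≫ C.dl Y = a.negOnePow • C.dl X ≫ f := by
  rw [dl, dl, reassoc_of% interchange hf (deg_sm 1 C.δ), _root_.mul_one, Linear.units_smul_comp,
    Category.assoc, wr_rho, Category.assoc]

theorem three_M : (3 : ℤ) • 𝟙 C.M = 0 := by
  obtain ⟨V⟩ := exists_unitCof C.D.R
  have : Fact (Nat.Prime 3) := ⟨Nat.prime_three⟩
  obtain ⟨v, hv⟩ := C.dist.desc₃ ((3 : ℤ) • 𝟙 C.M) (by simpa using C.dist.zero₁₂)
  rw [← hv, P257.H709.pi_low C.D V (p := 3) (by norm_num) C.dist le_rfl (by norm_num) v, comp_zero]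

theorem three_id (X : T.C) : (3 : ℤ) • 𝟙 (ob (X ⊗ C.M)) = 0 := by
  rw [← io_id, ← io_zsmul, ← zsmul_wl, C.three_M, MonoidalPreadditive.whiskerLeft_zero, io_zero]

theorem three_tgt {V : Gr T.C} {X : T.C} (f : V ⟶ ob (X ⊗ C.M)) : (3 : ℤ) • f = 0 := by
  rw [← Category.comp_id f, ← Preadditive.comp_zsmul, three_id, comp_zero]

theorem three_Q {V : Gr T.C} {X : T.C} {s : ℕ} (c : V ⟶ C.E.K.Q s (ob (X ⊗ C.M))) :
    (3 : ℤ) • c = 0 := by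
  rw [← Category.comp_id c, ← Preadditive.comp_zsmul, ← C.E.K.Qm_id, ← Qm_zsmul, three_id,
    C.E.K.Qm_zero', comp_zero]

instance : C.G.Tors C.M :=
  Gam.tors_of_pow 1 (by rw [pow_one, ← io_id, ← io_zsmul, C.three_M, io_zero])

variable {C}

theorem red_div {V : Gr T.C} {X : T.C} {s : ℕ} {a : ℤ} {c : V ⟶ C.E.K.Q s (ob X)} (hc : Deg a c)
    (h : c ≫ C.E.K.Qm s (io (C.red X)) = 0) : ∃ y, Deg a y ∧ c = (3 : ℤ) • y := by
  obtain ⟨y, hy⟩ := C.E.tri_co (tri_Qm s (C.tri_red X)) c h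
  obtain ⟨y, dy, rfl⟩ := hc.left (deg_Qm s ((deg_id _).zsmul 3)) hy (add_zero a)
  exact ⟨y, dy, by rw [Qm_zsmul, C.E.K.Qm_id, Preadditive.comp_zsmul, Category.comp_id]⟩

theorem three_red {V : Gr T.C} {X : T.C} {s : ℕ} (c : V ⟶ C.E.K.Q s (ob X)) :
    ((3 : ℤ) • c) ≫ C.E.K.Qm s (io (C.red X)) = 0 := by
  rw [Preadditive.zsmul_comp, three_Q]

theorem _root_.Vale.Agent.P236SY.TD.TF.dl {V : Gr T.C} {X : T.C} (h : C.E.TF V (ob X)) (s : ℕ)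
    (c : V ⟶ C.Q s (X ⊗ C.M)) : c ≫ C.E.K.Qm (s + 1) (C.dl X) = 0 :=
  h s _ (by rw [← Preadditive.zsmul_comp, three_Q, zero_comp])

theorem _root_.Vale.Agent.P236SY.TD.TF.null {V : Gr T.C} {X : T.C} (h : C.E.TF V (ob X)) :
    C.E.Null V (C.dl X) := null_of_Q (C.deg_dl X) h.dl

theorem _root_.Vale.Agent.P236SY.TD.TF.lift {V : Gr T.C} {X : T.C} (h : C.E.TF V (ob X)) {s : ℕ}
    {a : ℤ} {c : V ⟶ C.Q s (X ⊗ C.M)} (hc : Deg a c) :
    ∃ y : V ⟶ C.Q s X, Deg a y ∧ c = y ≫ C.E.K.Qm (s + 1) (io (C.red X)) := by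
  obtain ⟨y, hy⟩ := C.E.tri_co (C.E.tri_rot (tri_Qm (s + 1) (C.tri_red X))) c (h.dl s c)
  exact hc.left (deg_Qm _ (deg_io _)) hy (add_zero a)

/-! ### the cochains of the sphere -/

theorem j_inj {X : T.C} {f : ob (𝟙_ T.C) ⟶ ob (X ⊗ C.M)} (h : io C.G.j ≫ f = 0) : f = 0 :=
  C.G.lam_pre_inj 1 (by rw [pow_one, three_id]) (by
    rw [Gam.lam, unitors_equal, rightUnitor_naturality, io_comp, Category.assoc, h, comp_zero])

theorem j_surj {X : T.C} {a : ℤ} {f : ob C.Γ ⟶ ob (X ⊗ C.M)} (hf : Deg a f) :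
    ∃ g : ob (𝟙_ T.C) ⟶ ob (X ⊗ C.M), Deg a g ∧ f = io C.G.j ≫ g := by
  obtain ⟨g, hg, e⟩ := C.G.lam_pre_surj 1 (by rw [pow_one, three_id])
    ((deg_io (ρ_ C.Γ).hom).comp hf (zero_add a))
  refine ⟨g, hg, ?_⟩
  rwa [Gam.lam, unitors_equal, rightUnitor_naturality, io_comp, Category.assoc,
    cancel_epi] at e

variable (C) in
/-- The comparison of the cochains of `Γ ⊗ M`. -/
noncomputable def cm (s : ℕ) : C.Q s (C.Γ ⊗ C.M) ≅ ob (Am C.D.R (s + 1) ⊗ C.M) :=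
  C.U.th (s + 1) _ ≪≫ ioI (whiskerLeftIso _ (asIso (C.G.lam C.M)))

theorem deg_cm (s : ℕ) : Deg 0 (C.cm s).hom := (C.U.deg_th _ _).comp (deg_io _) rfl

theorem φ_cm {s : ℕ} (z : Cob Laz s) :
    (C.φ C.Γ s z ≫ C.E.K.Qm (s + 1) (io (C.red C.Γ))) ≫ (C.cm s).hom =
      io C.G.j ≫ pt _ (C.D.ev s z) ≫ io (C.red _) := by
  have h : C.red C.Γ ≫ C.G.lam C.M = C.G.j ≫ C.i := by
    rw [red, Gam.lam, Category.assoc, whisker_exchange_assoc, ← rightUnitor_inv_naturality_assoc,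
      leftUnitor_naturality, unitors_equal, Iso.inv_hom_id_assoc]
  change (_ ≫ _) ≫ (C.U.th _ _).hom ≫ io (_ ◁ C.G.lam C.M) = _
  rw [← wl_io, ← UF.th_nat, Φ_nat, Category.assoc, Φ_nat_assoc, ← io_comp_assoc, h, Φ_th,
    io_comp, Category.assoc, red_nat, red, ← unitors_inv_equal, ← leftUnitor_inv_naturality,
    io_comp_assoc]

theorem base_odd {s : ℕ} {a : ℤ} (ha : Odd a) {c : ob C.Γ ⟶ C.Q s (C.Γ ⊗ C.M)} (hc : Deg a c) :
    c = 0 := by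
  have : Fact (Nat.Prime 3) := ⟨Nat.prime_three⟩
  obtain ⟨k, hk⟩ := ha.neg
  obtain ⟨g, hg, e⟩ := j_surj (hc.comp (deg_cm s) (add_zero a))
  obtain ⟨f, hf⟩ := Deg.exists_io ((deg_ush (𝟙_ T.C) (2 * k + 1)).comp hg (by omega))
  rw [C.D.odd 3 (by norm_num) s C.M C.i C.δ C.dist k f, io_zero, ← comp_zero (f := (ush _ _).hom),
    cancel_epi] at hf
  rw [← cancel_mono (C.cm s).hom, e, hf, comp_zero, zero_comp]

theorem base_surj {s : ℕ} {w : ℤ} {c : ob C.Γ ⟶ C.Q s (C.Γ ⊗ C.M)} (hc : Deg (-(2 * w)) c) :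
    ∃ z, Cob.IsWt w z ∧ c = C.φ C.Γ s z ≫ C.E.K.Qm (s + 1) (io (C.red C.Γ)) := by
  have : Fact (Nat.Prime 3) := ⟨Nat.prime_three⟩
  obtain ⟨g, hg, e⟩ := j_surj (hc.comp (deg_cm s) (add_zero _))
  obtain ⟨f, hf⟩ := Deg.exists_io ((deg_gS w).comp hg (by omega))
  obtain ⟨z, a, hz, ha, rfl⟩ := C.D.surj 3 (by norm_num) s C.M C.i C.δ C.dist w f
  refine ⟨z, hz, ?_⟩
  rw [← cancel_mono (C.cm s).hom, e, φ_cm, ha, pt_of, Category.assoc, ← io_comp]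
  exact congrArg _ ((Iso.eq_inv_comp _).2 hf)

theorem base_ker {s : ℕ} {w : ℤ} {z : Cob Laz s} (hz : Cob.IsWt w z)
    (h : C.φ C.Γ s z ≫ C.E.K.Qm (s + 1) (io (C.red C.Γ)) = 0) :
    ∃ y, Cob.IsWt w y ∧ z = (3 : ℤ) • y := by
  have : Fact (Nat.Prime 3) := ⟨Nat.prime_three⟩
  obtain ⟨a, ha⟩ := C.D.ev_wt s w z hz
  have h1 := φ_cm (C := C) z
  rw [h, zero_comp] at h1
  have h2 := j_inj h1.symm
  rw [ha, pt_of, Category.assoc, ← io_comp, ← comp_zero (f := (gS T.C w).inv), cancel_epi,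
    io_eq_zero] at h2
  exact C.D.ker 3 (by norm_num) s C.M C.i C.δ C.dist w z hz a ha h2

theorem odd_Γ {s : ℕ} {a : ℤ} (ha : Odd a) {c : ob C.Γ ⟶ C.Q s C.Γ} (hc : Deg a c) : c = 0 :=
  (C.G.cpl C.Γ).nak (fun _ hf => red_div hf
    (base_odd ha (hf.comp (deg_Qm _ (deg_io _)) (add_zero a)))) hc

theorem tf_of_odd {V : Gr T.C} {X : T.C}
    (h1 : ∀ (s : ℕ) (a : ℤ) (c : V ⟶ C.Q s X), Odd a → Deg a c → c = 0)
    (h2 : ∀ (s : ℕ) (a : ℤ) (c : V ⟶ C.Q s (X ⊗ C.M)), Odd a → Deg a c → c = 0) :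
    C.E.TF V (ob X) := by
  intro s c h
  refine of_pr (p := (· = 0)) c rfl (fun a => ?_) (fun a b ha hb => by rw [ha, hb, add_zero])
  rcases Int.even_or_odd a with ha | ha
  · obtain ⟨y, hy⟩ := C.E.tri_co (C.E.tri_rot (C.E.tri_rot (tri_Qm (s + 1) (C.tri_red X))))
      (pr a c) (by rw [Qm_zsmul, C.E.K.Qm_id, Preadditive.comp_zsmul, Category.comp_id,
        ← map_zsmul, h, map_zero])
    obtain ⟨y, dy, e⟩ := (deg_pr a c).left (deg_Qm _ (C.deg_dl X)) hy (sub_add_cancel a 1)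
    rw [e, h2 s _ y (ha.sub_odd odd_one) dy, zero_comp]
  · exact h1 s a _ ha (deg_pr a c)

theorem tf_Γ : C.E.TF (ob C.Γ) (ob C.Γ) :=
  tf_of_odd (fun _ _ _ ha hc => odd_Γ ha hc) fun _ _ _ ha hc => base_odd ha hc

end Cx

end Vale.Agent.P236SY
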