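import Vale.Agent.P236SY.Chart
import Vale.Agent.P236EL.Fact

/-!
# P236, synthetic calculus: the dictionary between charts and the twisted cobar complex
-/

open CategoryTheory MonoidalCategory Limits Pretriangulated MonObj

namespace Vale.Agent.P236SY

open GData Vale.Agent.P251 Vale.Agent.P251.T Vale.Agent.P251.S Vale.Agent.P251.H Vale.Agent.P251.M
  Vale.Agent.P251.F Vale.Agent.P251.I TD Vale.Agent.P236EL
open Vale.Agent.P251.St (SHCat)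

variable {T : SHCat} {J : Type} [Fintype J] {d : J → ℤ} {θ : J → J → Cob Laz 1} {s : ℕ}
  {n w a : ℤ}

variable (θ d w s) in
/-- `F` is a cocycle modulo `q`. -/
abbrev Cy (q : ℕ) (F : J → Cob Laz s) : Prop := F ∈ ZC 3 θ d w q s

variable (θ d w s) in
/-- `F` is a coboundary modulo `q`. -/
abbrev By (q : ℕ) (F : J → Cob Laz s) : Prop := F ∈ BQ 3 θ d w q s

theorem cy_iff {q : ℕ} {F : J → Cob Laz s} : Cy d θ s w q F ↔
    F ∈ CW 3 Laz d w s ∧ ∃ c ∈ CW 3 Laz d w (s + 1), DD θ s F = q • c := by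
  simp only [mem_ZC, eq_comm]

theorem by_iff {q : ℕ} {F : J → Cob Laz s} : By d θ s w q F ↔
    ∃ b ∈ BC 3 θ d w s, ∃ u ∈ CW 3 Laz d w s, F = b + q • u := by
  simp only [mem_BQ, eq_comm]

theorem Cy.of_eq {F : J → Cob Laz s} (hF : F ∈ CW 3 Laz d w s) (h : DD θ s F = 0) (q : ℕ) :
    Cy d θ s w q F := cy_iff.2 ⟨hF, 0, zero_mem _, by rw [h, smul_zero]⟩

namespace Cx

variable {C : Cx T} {W Z : T.C}

theorem Cells.cb {e : J → (ob C.Γ ⟶ C.Q 0 Z)} (H : C.Cells e (fun c => 2 * d c) θ)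
    {b : J → Cob Laz s} (hb : b ∈ BC 3 θ d w s) (ha : a = -(4 * w)) :
    C.E.Cb a s (C.psi e s b) := by
  cases s with
  | zero => rw [AddSubgroup.mem_bot.1 hb, map_zero]; exact cb_zero _ _
  | succ s =>
    obtain ⟨y, hy, rfl⟩ := hb
    exact ⟨_, H.deg_cw hy ha, (H.psi_d y).symm⟩

theorem Cells.BC_le {e : J → (ob C.Γ ⟶ C.Q 0 Z)} (H : C.Cells e (fun c => 2 * d c) θ)
    {b : J → Cob Laz s} (hb : b ∈ BC 3 θ d w s) : b ∈ CW 3 Laz d w s := by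
  cases s with
  | zero => rw [AddSubgroup.mem_bot.1 hb]; exact zero_mem _
  | succ s =>
    obtain ⟨y, hy, rfl⟩ := hb
    exact H.DD_mem hy

namespace CM

variable {e : J → (ob C.Γ ⟶ C.Q 0 W)} (H : C.CM e d θ) {F F' : J → Cob Laz s}
  {x x' y : C.o C.Γ ⟶ C.o W}
include H

theorem conv : C.E.Conv (ob C.Γ) (ob W) := Fc.base.conv H.fc

theorem cyc (h : Cy d θ s w 3 F) : C.psi e s F ≫ C.E.K.d (s + 1) _ = 0 := by
  obtain ⟨-, c, -, h⟩ := cy_iff.1 h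
  rw [H.cells.psi_d, h, psi_three H.three]

theorem exists_cy {z : ob C.Γ ⟶ C.Q s W} (dz : Deg (-(4 * w)) z)
    (hz : z ≫ C.E.K.d (s + 1) _ = 0) : ∃ F, Cy d θ s w 3 F ∧ z = C.psi e s F := by
  obtain ⟨F, hF, rfl⟩ := H.surj dz
  exact ⟨F, cy_iff.2 ⟨hF, H.ker (H.cells.DD_mem hF) (by rw [← H.cells.psi_d, hz])⟩, rfl⟩

theorem cb (h : By d θ s w 3 F) (ha : a = -(4 * w)) : C.E.Cb a s (C.psi e s F) := by
  obtain ⟨b, hb, u, -, rfl⟩ := by_iff.1 h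
  rw [map_add, psi_three H.three, add_zero]
  exact H.cells.cb hb ha

theorem of_cb (hF : F ∈ CW 3 Laz d w s) (h : C.E.Cb a s (C.psi e s F)) (ha : a = -(4 * w)) :
    By d θ s w 3 F := by
  subst ha
  rw [by_iff]
  cases s with
  | zero =>
    obtain ⟨u, hu, e⟩ := H.ker hF h
    exact ⟨0, zero_mem _, u, hu, by rw [zero_add, e]⟩
  | succ s =>
    obtain ⟨b, db, hb⟩ := h
    obtain ⟨B, hB, rfl⟩ := H.surj db
    obtain ⟨u, hu, e⟩ := H.ker (sub_mem hF (H.cells.DD_mem hB))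
      (by rw [map_sub, hb, H.cells.psi_d, sub_self])
    exact ⟨_, ⟨B, hB, rfl⟩, u, hu, by rw [← e, add_sub_cancel]⟩

theorem exists_rep (hx : C.E.Dg n s x) (hn : n + s = 4 * w) :
    ∃ F, Cy d θ s w 3 F ∧ C.E.Rep n s x (C.psi e s F) := by
  obtain ⟨z, hz⟩ := hx.exists_rep
  obtain ⟨F, hF, rfl⟩ := H.exists_cy (w := w) (hz.deg.cast (by rw [hn])) hz.cyc
  exact ⟨F, hF, hz⟩

theorem exists_ob (hF : Cy d θ s w 3 F) (hn : n + s = 4 * w) :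
    ∃ y, C.E.Ob n s (C.psi e s F) y := TD.exists_ob (H.cells.deg_cw hF.1 (by rw [hn])) (H.cyc hF)

/-- The `τ`-torsion consists of obstructions. -/
theorem exists_of_τ {m t : ℤ} (hy : C.E.Dg m t y) (h : y ≫ C.E.τ _ = 0) (hm : m = n - 1)
    (ht : t = s + 2) (hn : n + s = 4 * w) : ∃ F, Cy d θ s w 3 F ∧ C.E.Ob n s (C.psi e s F) y := by
  obtain ⟨z, hz⟩ := hy.exists_ob h hm ht
  obtain ⟨F, hF, rfl⟩ := H.exists_cy (w := w) (hz.deg.cast (by rw [hn])) hz.cyc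
  exact ⟨F, hF, hz⟩

theorem rep_congr (h : C.E.Rep n s x (C.psi e s F)) (h' : By d θ s w 3 (F' - F))
    (hn : n + s = 4 * w) : C.E.Rep n s x (C.psi e s F') :=
  h.cob (by rw [← map_sub]; exact H.cb h' (by rw [hn]))

theorem rep_uniq (h : C.E.Rep n s x (C.psi e s F)) (h' : C.E.Rep n s x (C.psi e s F'))
    (hF : F ∈ CW 3 Laz d w s) (hF' : F' ∈ CW 3 Laz d w s) (hn : n + s = 4 * w) :
    By d θ s w 3 (F - F') :=
  H.of_cb (sub_mem hF hF') (by rw [map_sub]; exact h.uniq h') (by rw [hn])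

theorem div (h : C.E.Rep n s x (C.psi e s F)) (h' : By d θ s w 3 F) (hn : n + s = 4 * w) :
    ∃ y, C.E.Dg n (s + 1) y ∧ x = y ≫ C.E.τ _ := h.div (H.cb h' (by rw [hn]))

theorem eq_add (h : C.E.Rep n s x (C.psi e s F)) (h' : C.E.Rep n s x' (C.psi e s F'))
    (hF : By d θ s w 3 (F - F')) (hn : n + s = 4 * w) :
    ∃ y, C.E.Dg n (s + 1) y ∧ x = x' + y ≫ C.E.τ _ :=
  h.eq_add h' (by rw [← map_sub]; exact H.cb hF (by rw [hn]))

theorem by_of_τ {t : ℤ} (h : C.E.Rep n s x (C.psi e s F)) (hF : F ∈ CW 3 Laz d w s)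
    (hy : C.E.Dg n t y) (ht : t = s + 1) (hx : x = y ≫ C.E.τ _) (hn : n + s = 4 * w) :
    By d θ s w 3 F := H.of_cb hF (h.cb_of_τ hy ht hx) (by rw [hn])

theorem by_of_zero (h : C.E.Rep n s (0 : C.o C.Γ ⟶ C.o W) (C.psi e s F))
    (hF : F ∈ CW 3 Laz d w s) (hn : n + s = 4 * w) : By d θ s w 3 F :=
  H.of_cb hF h.cb_of_zero (by rw [hn])

theorem van_of (h : ∀ F, Cy d θ s w 3 F → By d θ s w 3 F) (hn : n + s = 4 * w) :
    C.E.Van (ob C.Γ) (ob W) n s := fun z dz hz => by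
  obtain ⟨F, hF, rfl⟩ := H.exists_cy (w := w) (dz.cast (by rw [hn])) hz
  exact H.cb (h F hF) (by rw [hn])

theorem sparse (h : ¬ (4 : ℤ) ∣ n + s) : C.E.Van (ob C.Γ) (ob W) n s := H.van fun _ h' => h h'.1

/-- Vanishing of the cohomology in the filtrations `≥ s` implies vanishing of the group. -/
theorem eq_zero (hx : C.E.Dg n s x) (h : ∀ (r : ℕ) (w : ℤ), s ≤ r → n + r = 4 * w →
    (∃ c, 3 * (r : ℤ) ≤ n - 4 * d c) → ∀ F, Cy d θ r w 3 F → By d θ r w 3 F) : x = 0 :=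
  H.conv.zero_of_van (fun r hr => by
    by_cases h1 : ∀ c, ¬ ((4 : ℤ) ∣ n + r ∧ 3 * (r : ℤ) ≤ n - 4 * d c)
    · exact H.van h1
    · push Not at h1
      obtain ⟨c, ⟨w, hw⟩, h2⟩ := h1
      exact H.van_of (h r w hr hw ⟨c, h2⟩) hw) hx

end CM

namespace Chart

variable {e : J → (ob C.Γ ⟶ C.Q 0 Z)} (H : C.Chart e d θ) {F F' : J → Cob Laz s}
  {x x' y : C.o C.Γ ⟶ C.o Z}
include H

theorem conv : C.E.Conv (ob C.Γ) (ob Z) := Fc.base.conv H.fc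

theorem odd {z : ob C.Γ ⟶ C.Q s Z} (ha : Odd a) (hz : Deg a z) : z = 0 :=
  (C.G.cpl C.Γ).nak (fun _ hf => red_div hf
    (H.cm.odd ha (hf.comp (deg_Qm _ (deg_io _)) (add_zero a)))) hz

theorem tf : C.E.TF (ob C.Γ) (ob Z) :=
  tf_of_odd (fun _ _ _ ha hc => H.odd ha hc) fun _ _ _ ha hc => H.cm.odd ha hc

theorem tf_pow (k : ℕ) {z : ob C.Γ ⟶ C.Q s Z} (h : (3 : ℤ) ^ k • z = 0) : z = 0 := by
  induction k with
  | zero => simpa using h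
  | succ k ih => exact ih (H.tf _ _ (by rwa [smul_smul, ← pow_succ']))

theorem surj (k : ℕ) {z : ob C.Γ ⟶ C.Q s Z} (dz : Deg (-(4 * w)) z) :
    ∃ F ∈ CW 3 Laz d w s, ∃ y, Deg (-(4 * w)) y ∧ z = C.psi e s F + (3 : ℤ) ^ k • y := by
  induction k with
  | zero => exact ⟨0, zero_mem _, z, dz, by simp⟩
  | succ k ih =>
    obtain ⟨F, hF, y, dy, rfl⟩ := ih
    obtain ⟨F', hF', h⟩ := H.cm.surj (dy.comp (deg_Qm _ (deg_io (C.red Z))) (add_zero _))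
    obtain ⟨y', dy', h'⟩ := red_div (dy.sub (H.cells.deg_cw hF' rfl))
      (by rw [Preadditive.sub_comp, h, psi_comp, sub_self])
    refine ⟨F + (3 : ℤ) ^ k • F', add_mem hF (zsmul_mem hF' _), y', dy', ?_⟩
    rw [sub_eq_iff_eq_add'.1 h', map_add, map_zsmul, smul_add, smul_smul, pow_succ, add_assoc]

theorem ker (k : ℕ) (hF : F ∈ CW 3 Laz d w s) {z : ob C.Γ ⟶ C.Q s Z}
    (h : C.psi e s F = (3 : ℤ) ^ k • z) : ∃ F' ∈ CW 3 Laz d w s, F = 3 ^ k • F' := by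
  induction k generalizing F with
  | zero => exact ⟨F, hF, by simp⟩
  | succ k ih =>
    obtain ⟨F', hF', rfl⟩ := H.cm.ker hF (by
      rw [← psi_comp, h, pow_succ', mul_smul]
      exact three_red _)
    obtain ⟨F'', hF'', rfl⟩ := ih hF' (sub_eq_zero.1 (H.tf _ _ (by
      rw [smul_sub, smul_smul, ← pow_succ', ← h, map_nsmul, ← natCast_zsmul]
      exact sub_self _)))
    exact ⟨F'', hF'', by rw [smul_smul, pow_succ']⟩

theorem cyc (h : DD θ s F = 0) : C.psi e s F ≫ C.E.K.d (s + 1) _ = 0 := by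
  rw [H.cells.psi_d, h, map_zero]

/-- The Bockstein of a cocycle modulo three is a cocycle. -/
theorem cyc_bock {c : J → Cob Laz (s + 1)} (h : DD θ s F = 3 • c) :
    C.psi e (s + 1) c ≫ C.E.K.d (s + 2) _ = 0 :=
  H.tf _ _ (by
    rw [← Preadditive.zsmul_comp, ← map_zsmul, ofNat_zsmul, ← h,
      ← H.cells.psi_d, Category.assoc, C.E.K.d_d, comp_zero])

theorem exists_cy (k : ℕ) {z : ob C.Γ ⟶ C.Q s Z} (dz : Deg (-(4 * w)) z)
    (hz : z ≫ C.E.K.d (s + 1) _ = 0) : ∃ F, Cy d θ s w (3 ^ k) F ∧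
      ∃ y, Deg (-(4 * w)) y ∧ z = C.psi e s F + (3 : ℤ) ^ k • y := by
  obtain ⟨F, hF, y, dy, rfl⟩ := H.surj k dz
  refine ⟨F, cy_iff.2 ⟨hF, H.ker k (H.cells.DD_mem hF) (z := -y ≫ C.E.K.d _ _) ?_⟩, y, dy, rfl⟩
  rwa [Preadditive.add_comp, H.cells.psi_d, Preadditive.zsmul_comp, add_eq_zero_iff_eq_neg,
    ← smul_neg] at hz

/-- A cochain which is a coboundary modulo `3 ^ k`. -/
theorem of_cb (k : ℕ) (hF : F ∈ CW 3 Laz d w s) {z : ob C.Γ ⟶ C.Q s Z}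
    (h : C.E.Cb a s (C.psi e s F - (3 : ℤ) ^ k • z)) (ha : a = -(4 * w)) :
    By d θ s w (3 ^ k) F := by
  subst ha
  rw [by_iff]
  cases s with
  | zero =>
    obtain ⟨u, hu, e⟩ := H.ker k hF (sub_eq_zero.1 h)
    exact ⟨0, zero_mem _, u, hu, by rw [zero_add, e]⟩
  | succ s =>
    obtain ⟨b, db, hb⟩ := h
    obtain ⟨B, hB, y, -, rfl⟩ := H.surj k db
    obtain ⟨u, hu, e⟩ := H.ker k (sub_mem hF (H.cells.DD_mem hB)) (z := z + y ≫ C.E.K.d _ _) (by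
      rw [map_sub, sub_eq_iff_eq_add.1 hb, Preadditive.add_comp, H.cells.psi_d,
        Preadditive.zsmul_comp, smul_add]
      abel)
    exact ⟨_, ⟨B, hB, rfl⟩, u, hu, by rw [← e, add_sub_cancel]⟩

/-- Spanning of the cohomology by a group `S` of cocycles. -/
theorem span (k l : ℕ) (S : AddSubgroup (ob C.Γ ⟶ C.Q s Z))
    (hS : ∀ z ∈ S, Deg (-(4 * w)) z ∧ z ≫ C.E.K.d (s + 1) _ = 0 ∧
      C.E.Cb (-(4 * w)) s ((3 : ℤ) ^ l • z))
    (h : ∀ F, Cy d θ s w (3 ^ (k + 1)) F → ∃ F' ∈ CW 3 Laz d w s, By d θ s w 3 (F - F') ∧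
      ∃ z ∈ S, ∃ y, C.psi e s F' = z + (3 : ℤ) • y) {z : ob C.Γ ⟶ C.Q s Z}
    (dz : Deg (-(4 * w)) z) (hz : z ≫ C.E.K.d (s + 1) _ = 0) :
    ∃ z' ∈ S, C.E.Cb (-(4 * w)) s (z - z') := by
  refine span_of_mod (C.G.cpl C.Γ) S l (fun z hz => (hS z hz).2.2) (fun x ⟨dx, hx⟩ => ?_) dz hz
  obtain ⟨F, hF, y, dy, rfl⟩ := H.exists_cy (k + 1) dx hx
  obtain ⟨F', hF', h0, z', hz', y', h2⟩ := h F hF
  obtain ⟨b, hb, u, hu, h1⟩ := by_iff.1 h0
  obtain ⟨y', dy', h2⟩ := red_div ((H.cells.deg_cw hF' rfl).sub (hS z' hz').1)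
    (by rw [h2, add_sub_cancel_left, three_red])
  have h3 : C.psi e s F + (3 : ℤ) ^ (k + 1) • y - z' -
      (3 : ℤ) • (C.psi e s u + y' + (3 : ℤ) ^ k • y) = C.psi e s b := by
    rw [sub_eq_iff_eq_add.1 h1, map_add, map_add, map_nsmul, sub_eq_iff_eq_add.1 h2, pow_succ',
      mul_smul, smul_add, smul_add, ← natCast_zsmul, Nat.cast_ofNat]
    abel
  have h4 := H.cells.cb hb rfl
  refine ⟨_, ⟨((H.cells.deg_cw hu rfl).add dy').add (dy.zsmul _), H.tf _ _ ?_⟩, z', hz', h3 ▸ h4⟩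
  rw [← Preadditive.zsmul_comp, ← sub_sub_cancel (_ - z') ((3 : ℤ) • _), h3, Preadditive.sub_comp,
    Preadditive.sub_comp, hx, (hS z' hz').2.1, h4.cyc, sub_zero, sub_zero]

theorem van_of (k : ℕ) (h : ∀ F, Cy d θ s w (3 ^ (k + 1)) F → By d θ s w 3 F)
    (hn : n + s = 4 * w) : C.E.Van (ob C.Γ) (ob Z) n s := fun z dz hz => by
  rw [hn] at dz ⊢
  obtain ⟨z', hz', e⟩ := H.span k 0 ⊥ (fun z hz => by
    rw [AddSubgroup.mem_bot.1 hz, smul_zero]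
    exact ⟨deg_zero _, zero_comp, cb_zero _ _⟩) (fun F hF => ⟨0, zero_mem _, by
      simpa using h F hF, 0, zero_mem _, 0, by simp⟩) dz hz
  rwa [AddSubgroup.mem_bot.1 hz', sub_zero] at e

theorem van (h : ∀ c, ¬ ((4 : ℤ) ∣ n + s ∧ 3 * (s : ℤ) ≤ n - 4 * d c)) :
    C.E.Van (ob C.Γ) (ob Z) n s := van_of_red H.tf (H.cm.van h)

theorem sparse (h : ¬ (4 : ℤ) ∣ n + s) : C.E.Van (ob C.Γ) (ob Z) n s := H.van fun _ h' => h h'.1

theorem exists_ob (hF : F ∈ CW 3 Laz d w s) (h : DD θ s F = 0) (hn : n + s = 4 * w) :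
    ∃ y, C.E.Ob n s (C.psi e s F) y := TD.exists_ob (H.cells.deg_cw hF (by rw [hn])) (H.cyc h)

/-- Vanishing of the cohomology in the filtrations `≥ s` implies vanishing of the group. -/
theorem eq_zero (k : ℕ) (hx : C.E.Dg n s x) (h : ∀ (r : ℕ) (w : ℤ), s ≤ r → n + r = 4 * w →
    (∃ c, 3 * (r : ℤ) ≤ n - 4 * d c) → ∀ F, Cy d θ r w (3 ^ (k + 1)) F → By d θ r w 3 F) :
    x = 0 :=
  H.conv.zero_of_van (fun r hr => by
    by_cases h1 : ∀ c, ¬ ((4 : ℤ) ∣ n + r ∧ 3 * (r : ℤ) ≤ n - 4 * d c)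
    · exact H.van h1
    · push Not at h1
      obtain ⟨c, ⟨w, hw⟩, h2⟩ := h1
      exact H.van_of k (h r w hr hw ⟨c, h2⟩) hw) hx

omit H in
/-- Reduction modulo three of a representing cocycle. -/
theorem rep_red {V : Gr T.C} {x : C.E.so V ⟶ C.o Z} {z : V ⟶ C.Q s Z} (h : C.E.Rep n s x z) :
    C.E.Rep n s (x ≫ C.U.j (C.red Z)) (z ≫ C.E.K.Qm (s + 1) (io (C.red Z))) := by
  simpa [UF.j] using h.comp_ι (m := 0) (deg_io (C.red Z)) (add_zero n)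

omit H in
theorem rep_red_psi (h : C.E.Rep n s x (C.psi e s F)) : C.E.Rep n s (x ≫ C.U.j (C.red Z))
    (C.psi (fun c => e c ≫ C.E.K.Qm 1 (io (C.red Z))) s F) := psi_comp e F _ ▸ rep_red h

end Chart

end Cx

end Vale.Agent.P236SY
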