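import Vale.Agent.P236SY.Bridge
import Vale.Agent.P236SY.KF
import Vale.Agent.P236R.Z330

/-!
# P236: the assembly of the synthetic relation

The class `Ω = v_1 θ ^ 3` of stem 322 and filtration 6 of the Moore spectrum vanishes: it is
`T v s` with `s` of filtration 10 (`T2`), then `T ^ 2 y` with `y` of filtration 14 (`L10`), and the
group of filtration 14 is killed by `T ^ 2` (`L14`), where `T = τ ^ 4`.
-/

open CategoryTheory MonoidalCategory Limits Pretriangulated MonObj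

namespace Vale.Agent.P236SY

open GData Vale.Agent.P251 Vale.Agent.P251.T Vale.Agent.P251.S Vale.Agent.P251.H Vale.Agent.P251.M
  Vale.Agent.P251.F Vale.Agent.P251.I TD Vale.Agent.P236EL Vale.Agent.P236F Vale.Agent.P236R
  Vale.Agent.P236Z
open Vale.Agent.P251.St (SHCat)

variable {T : SHCat} {t : Cob Laz 1} {C : Cx T}

/-- the cube of a cochain of degree two -/
noncomputable def cube (c : Cob Laz 2) : Fin 1 → Cob Laz 6 :=
  lc _ (show 2 + 4 = 6 from rfl) c (lc _ (show 2 + 2 = 4 from rfl) c fun _ => c)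

variable (t) in
/-- The cube of the Bockstein of `h_3` vanishes modulo three. -/
def T2 : Prop := ∀ (z : Cob Laz 1) (c : Cob Laz 2), Th t z → b3 t z ∈ BS 36 7 →
  (fun _ => c) ∈ CW 3 Laz (fun _ : Fin 1 => 0) 27 2 → Cob.d 1 z = 3 • c → cube c ∈ BS 81 6

namespace Cx

variable (C) in
/-- Level 10, in terms of differentials: the product of `v_1` and a `d_5`-cycle of stem 318 is
hit by `d_5`. -/
def D10 : Prop := ∀ F : Fin 1 → Cob Laz 10, C.DM 3 10 15 82 83 F 0 →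
  ∃ H, C.DM 3 5 10 82 83 H (lc _ (show 0 + 10 = 10 from rfl) v1 F)

variable (C) in
/-- Level 10. -/
def L10 : Prop := ∀ v s : C.o C.Γ ⟶ C.oM, C.E.Rep 4 0 v (C.φM C.Γ 0 v1) → C.E.Dg 318 10 s →
  ∃ y, C.E.Dg 322 14 y ∧ v ≫ C.hat s ≫ C.E.tp 4 _ = y ≫ C.E.tp 8 _

variable (C) in
/-- Level 14. -/
abbrev L14 : Prop := C.Tor C.oM 8 322 14

theorem l10_of (h : C.D10) : C.L10 := fun v s hv hs => by
  obtain ⟨F, hF, h1⟩ := cmS.exists_rep (s := 10) (w := 82) hs rfl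
  obtain ⟨H, hH⟩ := h F (dr_of_rep rfl rfl rfl hF h1)
  obtain ⟨r, h2, h3⟩ := hH.tor (m := 322) rfl
  have h4 := rep_mul hv h1 (show 0 + 10 = 10 from rfl) (l := 322) rfl
  rw [Int.negOnePow_even _ (by decide), one_smul] at h4
  obtain ⟨y, hy, e⟩ := cmS.eq_add4 (w := 83) h4 h2 (by rw [sub_self]; exact zero_mem _) rfl
  exact ⟨y, hy, by rw [reassoc_of% e, Preadditive.add_comp, h3, zero_add, Category.assoc,
    ← tp_add]⟩

/-- Level 14 from the differentials and Lemma K. -/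
theorem l14_of (h : ∀ F ∈ ZS 84 14, F ∈ cls (mE C.eS) ⊤ 322 14 →
    F ∈ cls (mE C.eS) (kr (C.E.tp 8 _)) 322 14) (hK : C.Tor C.oM 12 322 18) : C.L14 :=
  cmS.tor (s := 14) (w := 84) rfl h hK rfl le_rfl

/-- The relation `v_1 θ ^ 3 = 0`. -/
theorem omega_zero {z : Cob Laz 1} (hz : Th t z) (hb : b3 t z ∈ BS 36 7) (h2 : T2 t)
    (h10 : C.L10) (h14 : C.L14) {x v : C.o C.Γ ⟶ C.oM} (hx : C.E.Rep 107 1 x (C.φM C.Γ 1 z))
    (hv : C.E.Rep 4 0 v (C.φM C.Γ 0 v1)) : bd tf_Γ x ≫ bd tf_Γ x ≫ bd tf_Γ x ≫ v = 0 := by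
  obtain ⟨h1, c, hc, e⟩ := cy_iff.1 hz.1
  rw [zs_eta c] at hc e
  generalize c 0 = c at hc e
  have hd : Cob.d 1 z = 3 • c := (DD_zero (fun _ : Fin 1 => z) 0).symm.trans (congrFun e 0)
  obtain ⟨u, hu⟩ := (chart_Γ (C := C) (J := Fin 1)).rep_bd' 1 107
  have h3 := hu (m := 106) (w := 27) (by rwa [psi_eS]) h1 hc e rfl rfl
  have h4 := h3
  rw [psi_un] at h4
  have h5 := rep_pre h4 (rep_pre h4 (Chart.rep_red_psi h3) (show 2 + 2 = 4 from rfl) (l := 212) rfl)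
    (show 2 + 4 = 6 from rfl) (l := 318) rfl
  rw [Int.negOnePow_even _ (by decide), Int.negOnePow_even _ (by decide), one_smul, one_smul] at h5
  obtain ⟨s, hs, h6⟩ := cmS.div4 (w := 81) h5 (h2 z c hz hb hc hd) rfl
  obtain ⟨y, hy, h7⟩ := h10 v s hv hs
  have h8 := comp_hat_comm hv.dg hs
  rw [Int.negOnePow_even _ (by decide), one_smul] at h8
  rw [← reassoc_of% h8, h14 y hy, ← tp_comm, ← reassoc_of% h6] at h7
  simpa only [Linear.units_smul_comp, Linear.comp_units_smul, smul_eq_zero_iff_eq, Category.assoc,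
    rd_hat] using h7

end Cx

theorem syn_of (hR : ∀ t, IsT1 3 t → FR t) (h2 : ∀ t, IsT1 3 t → T2 t)
    (h : ∀ (T : SHCat) (C : Cx T) (t : Cob Laz 1), IsT1 3 t → C.CY t → C.L10 ∧ C.L14) :
    SYN₀ 2 := fun T C t ht => by
  obtain ⟨P⟩ := C.exists_cy ht
  obtain ⟨z, hz, hb⟩ := exists_th ht (hR t ht).ft
  obtain ⟨x, hx⟩ := P.exists_theta ht (hR t ht).van hz.1 hb
  obtain ⟨v, hv⟩ := Cx.exists_v (C := C) ht
  obtain ⟨h1, a, m, h3, h4, h5⟩ := det_of ht (j := 2) hz.1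
    (by rw [show 3 ^ (2 + 1) = 27 from rfl]; exact (mem_Fl p3).1 hz.2 0)
  exact ⟨x, v, z, a, m, h1, h3, h4, h5, hx, hv, by
    rw [Cx.omega_zero hz hb (h2 t ht) (h T C t ht P).1 (h T C t ht P).2 hx hv, zero_comp]⟩

/-- The final statement from the cube relation and the levels 10 and 14. -/
theorem full_of_levels (hA : P236K.EA) (hR : ∀ t, IsT1 3 t → FR t) (h2 : ∀ t, IsT1 3 t → T2 t)
    (h : ∀ (T : SHCat) (C : Cx T) (t : Cob Laz 1), IsT1 3 t → C.CY t → C.L10 ∧ C.L14) :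
    P236K.FULL := P236K.full_of_ea hA (tin_of_syn₀ (syn_of hR h2 h))

end Vale.Agent.P236SY
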