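import Vale.Agent.P236SY.Ring
import Vale.Agent.P251.M.EvenRing
import Vale.Agent.P251.M.EvenShift

/-!
# P236, synthetic calculus: even spheres in the graded category

`gS w : ob (S w) ≅ ob 𝟙` is of degree `2 w` and multiplicative; `pt A` sends the homotopy ring of
`A` to the graded morphisms `ob 𝟙 ⟶ ob A`.
-/

set_option linter.unusedSectionVars false

open CategoryTheory MonoidalCategory Limits Pretriangulated MonObj

universe v u

namespace Vale.Agent.P236SY

open GData Vale.Agent.P251.T Vale.Agent.P251.S Vale.Agent.P251.H Vale.Agent.P251.M EvenSpheres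

variable {T : Type u} [Category.{v} T] [Preadditive T] [HasZeroObject T] [HasShift T ℤ]
  [∀ n : ℤ, (shiftFunctor T n).Additive] [Pretriangulated T] [MonoidalCategory T]
  [SymmetricCategory T] [TensorTriangulated T]

/-- `e ⊗ X` for an isomorphism `e`. -/
noncomputable def wrI {A B : T} (e : ob A ≅ ob B) (X : T) : ob (A ⊗ X) ≅ ob (B ⊗ X) :=
  gmI (tensorRight X) e

theorem wrI_hom {A B : T} (e : ob A ≅ ob B) (X : T) : (wrI e X).hom = wr e.hom X := rfl

theorem wrI_inv {A B : T} (e : ob A ≅ ob B) (X : T) : (wrI e X).inv = wr e.inv X := rfl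

instance {A B : T} (e : ob A ≅ ob B) (X : T) : IsIso (wr e.hom X) := (wrI e X).isIso_hom

section Fr

variable {L : T} (u : ob L ≅ ob (𝟙_ T))

/-- The trivialization of the powers. -/
noncomputable def pw : ∀ c : ℕ, ob (Pw L c) ≅ ob (𝟙_ T)
  | 0 => Iso.refl _
  | c + 1 => wrI u (Pw L c) ≪≫ ioI (λ_ (Pw L c)) ≪≫ pw c

theorem pw_succ (c : ℕ) :
    (pw u (c + 1)).hom = wr u.hom (Pw L c) ≫ io (λ_ (Pw L c)).hom ≫ (pw u c).hom := rfl

theorem deg_pw (hu : Deg 2 u.hom) (c : ℕ) : Deg (2 * c) (pw u c).hom := by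
  induction c with
  | zero => exact deg_id _
  | succ c ih => exact (Deg.wr _ hu).comp ((deg_io _).comp ih rfl) (by push_cast; ring)

variable {m n : ℤ} {X Y : T}

/-- `g` is the trivialization attached to the framing. -/
def IsG (F : Fr L n X) (g : ob X ⟶ ob (𝟙_ T)) : Prop :=
  ∀ (c d : ℕ) (hc : F.N ≤ c) (h : (c : ℤ) + n = d),
    io (F.φ c d hc h).hom ≫ (pw u d).hom = wr (pw u c).hom X ≫ io (λ_ X).hom ≫ g

variable {u}

theorem isG_aux {P P' : T} (p : ob P ⟶ ob (𝟙_ T)) (p' : ob P' ⟶ ob (𝟙_ T)) (φ : P ⊗ X ⟶ P')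
    (g : ob X ⟶ ob (𝟙_ T)) :
    (io ((α_ L P X).hom ≫ L ◁ φ) ≫ wr u.hom P' ≫ io (λ_ P').hom ≫ p' =
      wr (wr u.hom P ≫ io (λ_ P).hom ≫ p) X ≫ io (λ_ X).hom ≫ g) ↔
    (io φ ≫ p' = wr p X ≫ io (λ_ X).hom ≫ g) := by
  have h1 : (α_ (𝟙_ T) P X).hom ≫ (𝟙_ T ◁ φ) ≫ (λ_ P').hom = ((λ_ P).hom ▷ X) ≫ φ := by monoidal
  have : IsIso (wr (wr u.hom P) X) := (wrI (wrI u P) X).isIso_hom
  rw [io_comp, Category.assoc, ← wr_ex_assoc, ← wr_α_assoc, ← io_comp_assoc, ← io_comp_assoc,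
    Category.assoc, h1, io_comp, wr_comp, wr_comp, wr_io, Category.assoc, Category.assoc,
    Category.assoc, cancel_epi, cancel_epi]

theorem isG_succ (F : Fr L n X) (g : ob X ⟶ ob (𝟙_ T)) (c d : ℕ) (hc : F.N ≤ c)
    (h : (c : ℤ) + n = d) (hc' : F.N ≤ c + 1) (h' : ((c + 1 : ℕ) : ℤ) + n = (d + 1 : ℕ)) :
    (io (F.φ (c + 1) (d + 1) hc' h').hom ≫ (pw u (d + 1)).hom =
      wr (pw u (c + 1)).hom X ≫ io (λ_ X).hom ≫ g) ↔
    (io (F.φ c d hc h).hom ≫ (pw u d).hom = wr (pw u c).hom X ≫ io (λ_ X).hom ≫ g) := by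
  rw [F.st c d hc h]
  exact isG_aux _ _ _ g

theorem isG_of_level {F : Fr L n X} {g : ob X ⟶ ob (𝟙_ T)} (c d : ℕ) (hc : F.N ≤ c)
    (h : (c : ℤ) + n = d)
    (e : io (F.φ c d hc h).hom ≫ (pw u d).hom = wr (pw u c).hom X ≫ io (λ_ X).hom ≫ g) :
    IsG u F g := by
  have key : ∀ (c d : ℕ) (hc : F.N ≤ c) (h : (c : ℤ) + n = d) (j : ℕ) (hc' : F.N ≤ c + j)
      (h' : ((c + j : ℕ) : ℤ) + n = (d + j : ℕ)),
      (io (F.φ (c + j) (d + j) hc' h').hom ≫ (pw u (d + j)).hom =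
        wr (pw u (c + j)).hom X ≫ io (λ_ X).hom ≫ g) ↔
      (io (F.φ c d hc h).hom ≫ (pw u d).hom = wr (pw u c).hom X ≫ io (λ_ X).hom ≫ g) := by
    intro c d hc h j
    induction j with
    | zero => exact fun _ _ => Iff.rfl
    | succ j ih =>
      exact fun hc' h' => (isG_succ F g (c + j) (d + j) (by omega) (by omega) hc' h').trans
        (ih _ _)
  intro c' d' hc' h'
  rcases le_total c c' with hle | hle
  · obtain ⟨j, rfl⟩ := Nat.exists_eq_add_of_le hle
    obtain rfl : d' = d + j := by omega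
    exact (key c d hc h j hc' h').2 e
  · obtain ⟨j, rfl⟩ := Nat.exists_eq_add_of_le hle
    obtain rfl : d = d' + j := by omega
    exact (key c' d' hc' h' j hc h).1 e

theorem IsG.uniq {F : Fr L n X} {g g' : ob X ⟶ ob (𝟙_ T)} (h : IsG u F g) (h' : IsG u F g') :
    g = g' := by
  obtain ⟨c, d, hc, e⟩ := exists_level n F.N
  have h1 := (h c d hc e).symm.trans (h' c d hc e)
  rwa [cancel_epi, cancel_epi] at h1

theorem exists_isG (hu : Deg 2 u.hom) (F : Fr L n X) :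
    ∃ g : ob X ≅ ob (𝟙_ T), Deg (2 * n) g.hom ∧ IsG u F g.hom := by
  obtain ⟨c, d, hc, e⟩ := exists_level n F.N
  refine ⟨ioI (λ_ X).symm ≪≫ (wrI (pw u c) X).symm ≪≫ ioI (F.φ c d hc e) ≪≫ pw u d,
    (deg_io _).comp ((Deg.wr X (deg_pw u hu c).inv).comp ((deg_io _).comp (deg_pw u hu d) rfl)
      rfl) (by omega), isG_of_level c d hc e ?_⟩
  change _ = _ ≫ _ ≫ io (λ_ X).inv ≫ (wrI (pw u c) X).inv ≫ io _ ≫ _
  rw [io_hom_inv_assoc, ← wrI_hom, Iso.hom_inv_id_assoc]

theorem IsG.pre {F : Fr L n X} {F' : Fr L m Y} {g : ob Y ⟶ ob (𝟙_ T)} (h : IsG u F' g)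
    (e : n = m) {f : X ⟶ Y} (hf : IsFr F F' f) : IsG u F (io f ≫ g) := by
  subst e
  obtain ⟨c, d, hc, e⟩ := exists_level n (F.N + F'.N)
  refine isG_of_level c d (by omega) e ?_
  rw [← hf c d (by omega) e (by omega) e, io_comp, Category.assoc, h, ← wr_ex_assoc,
    ← io_comp_assoc, leftUnitor_naturality, io_comp_assoc]

theorem IsG.tensor {F : Fr L m X} {F' : Fr L n Y} {g : ob X ⟶ ob (𝟙_ T)} {g' : ob Y ⟶ ob (𝟙_ T)}
    (h : IsG u F g) (h' : IsG u F' g') :
    IsG u (F.tensor F') (wr g Y ≫ io (λ_ Y).hom ≫ g') := by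
  intro c d hc e
  have hN : max F.N ((F'.N : ℤ) - m).toNat ≤ c := hc
  obtain ⟨i, hi⟩ : ∃ i : ℕ, (c : ℤ) + m = i := ⟨((c : ℤ) + m).toNat, by omega⟩
  rw [Fr.tensor_φ F F' c i d hc e (by omega) hi (by omega) (by omega), io_comp, io_comp,
    Category.assoc, Category.assoc, h', ← wr_io, ← wr_comp_assoc, h, wr_comp, wr_comp,
    Category.assoc, Category.assoc, ← α_inv_wr_assoc, wr_io, ← io_comp_assoc]
  congr 3
  monoidal

theorem isG_unit : IsG u (Fr.unit L) (𝟙 _) :=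
  isG_of_level 0 0 (Nat.le_refl 0) (add_zero _) (by
    rw [Fr.unit_φ 0 (Nat.le_refl 0) (add_zero _), Category.comp_id, unitors_equal]
    exact (wr_rho (pw u 0).hom).symm)

end Fr

variable (T) in
/-- The trivialization of the two sphere. -/
noncomputable def uL : ob (stdEven T).L ≅ ob (𝟙_ T) :=
  wrI (ush (𝟙_ T) 1) _ ≪≫ ioI (λ_ _) ≪≫ ush (𝟙_ T) 1

theorem deg_uL : Deg 2 (uL T).hom :=
  (Deg.wr _ (deg_ush _ 1)).comp ((deg_io _).comp (deg_ush _ 1) rfl) rfl

variable (T) in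
/-- The trivialization of the even spheres. -/
noncomputable def gS (w : ℤ) : ob ((stdEven T).S w) ≅ ob (𝟙_ T) :=
  (exists_isG deg_uL ((stdEven T).fr w)).choose

theorem deg_gS (w : ℤ) : Deg (2 * w) (gS T w).hom :=
  (exists_isG deg_uL ((stdEven T).fr w)).choose_spec.1

theorem isG_gS (w : ℤ) : IsG (uL T) ((stdEven T).fr w) (gS T w).hom :=
  (exists_isG deg_uL ((stdEven T).fr w)).choose_spec.2

theorem gS_zero : (gS T 0).hom = io (stdEven T).zero.inv :=
  (isG_gS 0).uniq (by simpa using isG_unit.pre rfl (stdEven T).isFr_zeroIso')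

theorem gS_mu {m n p : ℤ} (h : m + n = p) : io ((stdEven T).mu m n p h).hom ≫ (gS T p).hom =
    wr (gS T m).hom _ ≫ io (λ_ _).hom ≫ (gS T n).hom :=
  ((isG_gS p).pre h ((stdEven T).isFr_mu m n p h)).uniq ((isG_gS m).tensor (isG_gS n))

/-- The homotopy ring as graded morphisms out of the unit. -/
noncomputable def pt (A : T) : HRing (stdEven T) A →+ (ob (𝟙_ T) ⟶ ob A) :=
  DirectSum.toAddMonoid fun w => (Preadditive.leftComp _ (gS T w).inv).comp (ioH _ A)

variable {A B : T}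

theorem pt_of (w : ℤ) (a : (stdEven T).S w ⟶ A) :
    pt A (HRing.of (stdEven T) A w a) = (gS T w).inv ≫ io a := DirectSum.toAddMonoid_of _ _ _

theorem deg_pt (w : ℤ) (a : (stdEven T).S w ⟶ A) :
    Deg (-(2 * w)) (pt A (HRing.of (stdEven T) A w a)) := by
  rw [pt_of]
  exact (deg_gS w).inv.comp (deg_io _) (add_zero _)

@[elab_as_elim]
theorem hring_ind {p : HRing (stdEven T) A → Prop} (x : HRing (stdEven T) A) (h0 : p 0)
    (h1 : ∀ w a, p (HRing.of (stdEven T) A w a)) (h2 : ∀ a b, p a → p b → p (a + b)) : p x :=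
  DirectSum.induction_on x h0 h1 h2

/-- Even points commute with everything. -/
theorem pt_inter (x : HRing (stdEven T) A) {X Y : T} (f : ob X ⟶ ob Y) :
    wr (pt A x) X ≫ wl A f = wl (𝟙_ T) f ≫ wr (pt A x) Y := by
  refine hring_ind x (by simp) (fun w a => ?_)
    (fun a b ha hb => by simp only [map_add, wr_add, Preadditive.add_comp, Preadditive.comp_add,
      ha, hb])
  refine ind f (by simp) (fun k f hf => ?_)
    (fun a b ha hb => by simp only [wl_add, Preadditive.add_comp, Preadditive.comp_add, ha, hb])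
  rw [interchange (deg_pt w a) hf, neg_mul, Int.negOnePow_neg, _root_.mul_assoc, Int.negOnePow_two_mul,
    one_smul]

variable [MonObj A] [MonObj B]

theorem pt_map (f : A ⟶ B) [IsMonHom f] (x : HRing (stdEven T) A) :
    pt B (HRing.map f x) = pt A x ≫ io f := by
  refine hring_ind x (by simp) (fun w a => ?_)
    (fun a b ha hb => by simp only [map_add, Preadditive.add_comp, ha, hb])
  rw [HRing.map_of, pt_of, pt_of, io_comp, Category.assoc]

theorem pt_one : pt A 1 = io η[A] := by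
  rw [← of_one, pt_of, io_comp, ← gS_zero, Iso.inv_hom_id_assoc]

theorem pt_mul (x y : HRing (stdEven T) A) :
    pt A (x * y) = pt A y ≫ io (λ_ A).inv ≫ wr (pt A x) A ≫ io μ[A] := by
  refine hring_ind x (by simp) (fun m a => ?_)
    (fun a b ha hb => by simp only [add_mul, map_add, wr_add, Preadditive.add_comp,
      Preadditive.comp_add, ha, hb])
  refine hring_ind y (by simp) (fun n b => ?_)
    (fun a b ha hb => by simp only [mul_add, map_add, Preadditive.add_comp, ha, hb])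
  have h : (gS T (m + n)).inv ≫ io ((stdEven T).mu m n _ rfl).inv =
      (gS T n).inv ≫ io (λ_ _).inv ≫ wr (gS T m).inv _ := by
    rw [Iso.inv_comp_eq, ← cancel_epi (io ((stdEven T).mu m n _ rfl).hom), io_hom_inv,
      reassoc_of% gS_mu, Iso.hom_inv_id_assoc, io_hom_inv_assoc, ← wr_comp, Iso.hom_inv_id, wr_id]
  rw [of_mul_of rfl, pt_of, pt_of, pt_of, gmul, EvenSpheres.ext, io_comp, io_comp,
    Category.assoc, reassoc_of% h, tensorHom_def', io_comp, Category.assoc, wr_ex_assoc,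
    ← io_comp_assoc (λ_ _).inv, ← leftUnitor_inv_naturality, io_comp_assoc, wr_comp, wr_io,
    Category.assoc, Category.assoc]

end Vale.Agent.P236SY
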