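import Vale.Agent.P236SY.Les

/-!
# P236, synthetic calculus: functors compatible with the tower
-/

open CategoryTheory Limits

universe v u

namespace Vale.Agent.P236SY

open GData Vale.Agent.P251.S

namespace TD

variable {O : Type u} {D : GData.{v} O} (E : TD D)

/-- A functor which is compatible with the tower. -/
structure CF where
  /-- on objects -/
  obj : D.Cat → D.Cat
  /-- on morphisms -/
  map : ∀ {X Y : D.Cat}, (X ⟶ Y) →+ (obj X ⟶ obj Y)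
  map_id : ∀ X, map (𝟙 X) = 𝟙 _
  map_comp : ∀ {X Y Z : D.Cat} (f : X ⟶ Y) (g : Y ⟶ Z), map (f ≫ g) = map f ≫ map g
  deg : ∀ {X Y : D.Cat} {a : ℤ} {f : X ⟶ Y}, Deg a f → Deg a (map f)
  /-- the exchange -/
  ν : ∀ X, obj (E.K.G.obj X) ⟶ E.K.G.obj (obj X)
  ν_nat : ∀ {X Y : D.Cat} (f : X ⟶ Y), map (E.fm f) ≫ ν Y = ν X ≫ E.fm (map f)
  ν_ε : ∀ X, ν X ≫ E.ε (obj X) = map (E.ε X)
  deg_ν : ∀ X, Deg 0 (ν X)
  tri : ∀ {X Y Z : D.Cat} {f : X ⟶ Y} {g : Y ⟶ Z} {h : Z ⟶ X}, E.Tri f g h →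
    E.Tri (map f) (map g) (map h)

/-- The fibre of the unit as a compatible functor. -/
@[reducible] def cF : E.CF where
  obj := E.K.G.obj
  map := E.fm
  map_id := E.fm_id
  map_comp := E.fm_comp
  deg := E.deg_fm
  ν := E.σ
  ν_nat := E.σ_nat
  ν_ε := E.σ_ε
  deg_ν := E.deg_σ
  tri := E.tri_F

/-- The identity as a compatible functor. -/
@[reducible] def cI : E.CF where
  obj X := X
  map := AddMonoidHom.id _
  map_id _ := rfl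
  map_comp _ _ := rfl
  deg h := h
  ν _ := 𝟙 _
  ν_nat _ := (Category.comp_id _).trans (Category.id_comp _).symm
  ν_ε _ := Category.id_comp _
  deg_ν _ := deg_id _
  tri h := h

namespace CF

attribute [reassoc] CF.map_comp CF.ν_nat CF.ν_ε
attribute [simp] CF.map_id

variable {E} (Φ Ψ : E.CF)

/-- The iterated exchange. -/
def νs : ∀ (s : ℕ) (X : D.Cat), Φ.obj (E.K.B s X) ⟶ E.K.B s (Φ.obj X)
  | 0, _ => 𝟙 _
  | s + 1, X => νs s (E.K.G.obj X) ≫ E.Fm s (Φ.ν X)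

@[simp] theorem νs_zero (X : D.Cat) : Φ.νs 0 X = 𝟙 _ := rfl

theorem νs_succ (s : ℕ) (X : D.Cat) :
    Φ.νs (s + 1) X = Φ.νs s (E.K.G.obj X) ≫ E.Fm s (Φ.ν X) := rfl

theorem νs_one (X : D.Cat) : Φ.νs 1 X = Φ.ν X := Category.id_comp _

theorem deg_νs (s : ℕ) (X : D.Cat) : Deg 0 (Φ.νs s X) := by
  induction s generalizing X with
  | zero => exact deg_id _
  | succ s ih => exact (ih _).comp (deg_Fm s (Φ.deg_ν X)) rfl

@[reassoc]
theorem νs_nat (s : ℕ) {X Y : D.Cat} (f : X ⟶ Y) :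
    Φ.map (E.Fm s f) ≫ Φ.νs s Y = Φ.νs s X ≫ E.Fm s (Φ.map f) := by
  induction s generalizing X Y with
  | zero => exact (Category.comp_id _).trans (Category.id_comp _).symm
  | succ s ih =>
    rw [νs_succ, νs_succ, Fm_succ, reassoc_of% ih, ← Fm_comp, Φ.ν_nat, Fm_comp, Category.assoc]
    rfl

@[reassoc]
theorem νs_oc (s : ℕ) (X : D.Cat) :
    Φ.νs (s + 1) X ≫ E.oc s (Φ.obj X) = Φ.map (E.oc s X) ≫ Φ.νs s X := by
  induction s generalizing X with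
  | zero => rw [νs_one, νs_zero, Category.comp_id]; exact Φ.ν_ε X
  | succ s ih =>
    rw [νs_succ, Category.assoc, oc_succ, oc_nat, reassoc_of% ih, νs_succ]
    rfl

@[reassoc]
theorem νs_dr {m n : ℕ} (h : m ≤ n) (X : D.Cat) :
    Φ.νs n X ≫ E.dr h (Φ.obj X) = Φ.map (E.dr h X) ≫ Φ.νs m X := by
  induction n, h using Nat.le_induction with
  | base => rw [dr_self, dr_self, map_id, Category.id_comp, Category.comp_id]
  | succ n h ih => rw [E.dr_succ h, E.dr_succ h, νs_oc_assoc, ih, map_comp_assoc]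

@[reassoc]
theorem νs_ad (s t : ℕ) (X : D.Cat) : Φ.map (E.ad s t X) ≫ Φ.νs (s + t) X =
    Φ.νs s (E.K.B t X) ≫ E.Fm s (Φ.νs t X) ≫ E.ad s t (Φ.obj X) := by
  induction t generalizing X with
  | zero => simp
  | succ t ih =>
    have h := ih (E.K.G.obj X)
    rw [ad_succ, ad_succ, Φ.νs_succ t, Fm_comp, Category.assoc, ad_nat, ← reassoc_of% h]
    rfl

/-- The map of graded data. -/
def mp : Map E.syD E.syD where
  obj := Φ.obj
  m {i X Y} := QuotientAddGroup.map (E.ker i.toNat X Y) (E.ker i.toNat (Φ.obj X) (Φ.obj Y))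
    ((Preadditive.rightComp _ (Φ.νs i.toNat Y)).comp Φ.map) fun x hx => by
      change (Φ.map x ≫ Φ.νs _ Y) ≫ E.dr _ _ = 0
      rw [Category.assoc, νs_dr, ← map_comp_assoc, E.mem_ker.1 hx, map_zero, zero_comp]
  m_one X := congrArg (fun g : Φ.obj X ⟶ E.K.B 0 (Φ.obj X) =>
    (QuotientAddGroup.mk g : E.Sy 0 _ _)) ((Category.comp_id _).trans (Φ.map_id X))
  m_c {i j k X Y Z} h f g := by
    obtain ⟨f, rfl⟩ := QuotientAddGroup.mk_surjective f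
    obtain ⟨g, rfl⟩ := QuotientAddGroup.mk_surjective g
    refine congrArg (fun g : Φ.obj X ⟶ E.K.B k.toNat (Φ.obj Z) =>
      (QuotientAddGroup.mk g : E.Sy _ _ _)) (show Φ.map (E.cmp (by omega) f g) ≫ Φ.νs _ Z =
        E.cmp (by omega) (Φ.map f ≫ Φ.νs _ Y) (Φ.map g ≫ Φ.νs _ Z) from ?_)
    simp only [cmp, map_comp, Category.assoc, Fm_comp]
    rw [← νs_dr, νs_ad_assoc, νs_nat_assoc]

/-- The object part of the synthetic functor. -/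
abbrev So (X : E.Syn) : E.Syn := E.so (Φ.obj X.obj)

/-- The synthetic functor on morphisms. -/
def S {X Y : E.Syn} : (X ⟶ Y) →+ (Φ.So X ⟶ Φ.So Y) := Φ.mp.hm X Y

theorem S_cl {V Z : D.Cat} (i : ℤ) {s : ℕ} (h : i.toNat ≤ s) (x : V ⟶ E.K.B s Z) :
    Φ.S (E.cl i h x) = E.cl i h (Φ.map x ≫ Φ.νs s Z) := by
  refine (Φ.mp.hm_of (X := E.so V) (Y := E.so Z) i _).trans ?_
  rw [cl_apply, Category.assoc, νs_dr, ← map_comp_assoc]
  rfl

@[simp] theorem S_id (X : E.Syn) : Φ.S (𝟙 X) = 𝟙 _ := Φ.mp.fn.map_id X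

@[reassoc]
theorem S_comp {X Y Z : E.Syn} (f : X ⟶ Y) (g : Y ⟶ Z) : Φ.S (f ≫ g) = Φ.S f ≫ Φ.S g :=
  Φ.mp.fn.map_comp f g

theorem S_ι {V Z : D.Cat} (f : V ⟶ Z) : Φ.S (E.ι f) = E.ι (Φ.map f) :=
  (Φ.S_cl (s := 0) 0 le_rfl f).trans (congrArg E.ι (Category.comp_id _))

theorem S_up {V Z : D.Cat} (f : V ⟶ E.K.G.obj Z) : Φ.S (E.up f) = E.up (Φ.map f ≫ Φ.ν Z) :=
  (Φ.S_cl (s := 1) 1 le_rfl f).trans (by rw [νs_one]; rfl)

@[simp] theorem S_τ (X : E.Syn) : Φ.S (E.τ X) = E.τ _ :=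
  (Φ.S_cl (s := 0) (-1) le_rfl (𝟙 X.obj)).trans
    (congrArg (E.cl (s := 0) (-1) le_rfl) ((Category.comp_id _).trans (Φ.map_id _)))

@[simp] theorem S_tp (k : ℕ) (X : E.Syn) : Φ.S (E.tp k X) = E.tp k _ := by
  induction k with
  | zero => exact Φ.S_id X
  | succ k ih => rw [tp_succ, S_comp, ih, S_τ, tp_succ]

theorem dg {X Y : E.Syn} {n s : ℤ} {x : X ⟶ Y} (hx : E.Dg n s x) : E.Dg n s (Φ.S x) := by
  obtain ⟨g, hg, rfl⟩ := hx
  rw [Φ.S_cl (V := X.obj) (Z := Y.obj)]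
  exact dg_cl _ _ ((Φ.deg hg).comp (Φ.deg_νs _ _) (add_zero _))

theorem stri {a b c : ℤ} {X Y Z : E.Syn} {f : X ⟶ Y} {g : Y ⟶ Z} {k : Z ⟶ X}
    (H : E.STri a b c f g k) : E.STri a b c (Φ.S f) (Φ.S g) (Φ.S k) := by
  obtain ⟨f₀, g₀, k₀, W, hf, hg, hk, rfl, rfl, rfl⟩ := H.ex
  refine ⟨Φ.map f₀, Φ.map g₀, Φ.map k₀ ≫ Φ.ν _, ?_, Φ.deg hf, Φ.deg hg,
    (Φ.deg hk).comp (Φ.deg_ν _) (add_zero _), Φ.S_ι _, Φ.S_ι _, Φ.S_up _⟩
  rw [Category.assoc, Φ.ν_ε, ← Φ.map_comp]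
  exact Φ.tri W

variable {Φ Ψ}

theorem νs_θ (θ : ∀ X, Φ.obj X ⟶ Ψ.obj X)
    (h2 : ∀ X, Φ.ν X ≫ E.fm (θ X) = θ (E.K.G.obj X) ≫ Ψ.ν X) (s : ℕ) (X : D.Cat) :
    Φ.νs s X ≫ E.Fm s (θ X) = θ (E.K.B s X) ≫ Ψ.νs s X := by
  induction s generalizing X with
  | zero => exact (Category.id_comp _).trans (Category.comp_id _).symm
  | succ s ih =>
    have h := ih (E.K.G.obj X)
    rw [νs_succ, νs_succ, Category.assoc, Fm_succ, ← Fm_comp, h2, Fm_comp, reassoc_of% h]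

/-- Natural transformations of filtration zero. -/
theorem S_nat {b : ℤ} (θ : ∀ X, Φ.obj X ⟶ Ψ.obj X)
    (h1 : ∀ {X Y : D.Cat} {a : ℤ} {f : X ⟶ Y}, Deg a f →
      Φ.map f ≫ θ Y = (a * b).negOnePow • θ X ≫ Ψ.map f)
    (h2 : ∀ X, Φ.ν X ≫ E.fm (θ X) = θ (E.K.G.obj X) ≫ Ψ.ν X) {X Y : E.Syn} {n s : ℤ} {x : X ⟶ Y}
    (hx : E.Dg n s x) :
    Φ.S x ≫ E.ι (θ Y.obj) = (n * b).negOnePow • E.ι (θ X.obj) ≫ Ψ.S x := by
  obtain ⟨g, hg, rfl⟩ := hx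
  rw [Φ.S_cl (V := X.obj) (Z := Y.obj), Ψ.S_cl (V := X.obj) (Z := Y.obj), cl_ι, ι_cl,
    Category.assoc, νs_θ θ h2, reassoc_of% h1 hg, neg_mul, Int.negOnePow_neg,
    Linear.units_smul_comp, Units.smul_def, Units.smul_def, map_zsmul, Category.assoc]

/-- Natural transformations of degree zero and filtration zero. -/
theorem S_nat₀ (θ : ∀ X, Φ.obj X ⟶ Ψ.obj X)
    (h1 : ∀ {X Y : D.Cat} (f : X ⟶ Y), Φ.map f ≫ θ Y = θ X ≫ Ψ.map f)
    (h2 : ∀ X, Φ.ν X ≫ E.fm (θ X) = θ (E.K.G.obj X) ≫ Ψ.ν X) {X Y : E.Syn} (x : X ⟶ Y) :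
    Φ.S x ≫ E.ι (θ Y.obj) = E.ι (θ X.obj) ≫ Ψ.S x := by
  refine dg_ind x (by simp) (fun n s x hx => ?_) (fun a b ha hb => by simp [ha, hb])
  have h := S_nat (b := 0) θ (fun _ => by rw [mul_zero, Int.negOnePow_zero, one_smul, h1]) h2 hx
  rwa [mul_zero, Int.negOnePow_zero, one_smul] at h

theorem cI_νs (s : ℕ) (X : D.Cat) : E.cI.νs s X = 𝟙 _ := by
  induction s generalizing X with
  | zero => rfl
  | succ s ih => rw [νs_succ, ih, Category.id_comp]; exact E.Fm_id s _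

theorem cI_S {X Y : E.Syn} (x : X ⟶ Y) : E.cI.S x = x := by
  refine dg_ind x (map_zero _) (fun n s x hx => ?_) (fun a b ha hb => by rw [map_add, ha, hb])
  obtain ⟨g, -, rfl⟩ := hx
  rw [E.cI.S_cl (V := X.obj) (Z := Y.obj), cI_νs]
  exact congrArg _ (Category.comp_id _)

variable (Φ Ψ)

/-- The composite of compatible functors, first `Φ`. -/
@[reducible] def comp : E.CF where
  obj X := Ψ.obj (Φ.obj X)
  map := Ψ.map.comp Φ.map
  map_id X := by simp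
  map_comp f g := by simp [map_comp]
  deg h := Ψ.deg (Φ.deg h)
  ν X := Ψ.map (Φ.ν X) ≫ Ψ.ν (Φ.obj X)
  ν_nat f := by
    simp only [AddMonoidHom.comp_apply, Category.assoc]
    rw [← Ψ.map_comp_assoc, Φ.ν_nat, Ψ.map_comp_assoc, Ψ.ν_nat]
  ν_ε X := by rw [Category.assoc, Ψ.ν_ε, ← Ψ.map_comp, Φ.ν_ε]; rfl
  deg_ν X := (Ψ.deg (Φ.deg_ν X)).comp (Ψ.deg_ν _) rfl
  tri h := Ψ.tri (Φ.tri h)

theorem comp_νs (s : ℕ) (X : D.Cat) :
    (Φ.comp Ψ).νs s X = Ψ.map (Φ.νs s X) ≫ Ψ.νs s (Φ.obj X) := by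
  induction s generalizing X with
  | zero => simp
  | succ s ih =>
    rw [νs_succ, ih, νs_succ, νs_succ, Ψ.map_comp, Category.assoc, Category.assoc,
      νs_nat_assoc, Fm_comp]

theorem comp_S {X Y : E.Syn} (x : X ⟶ Y) : (Φ.comp Ψ).S x = Ψ.S (Φ.S x) := by
  refine dg_ind x (by simp) (fun n s x hx => ?_) (fun a b ha hb => by simp only [map_add, ha, hb])
  obtain ⟨g, -, rfl⟩ := hx
  rw [(Φ.comp Ψ).S_cl (V := X.obj) (Z := Y.obj), Φ.S_cl (V := X.obj) (Z := Y.obj), S_cl, comp_νs,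
    Ψ.map_comp, Category.assoc]
  rfl

end CF

end TD

end Vale.Agent.P236SY
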