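import Mathlib.Algebra.DirectSum.Basic
import Mathlib.CategoryTheory.Preadditive.AdditiveFunctor
import Mathlib.Algebra.Ring.NegOnePow
import Mathlib.CategoryTheory.Linear.Basic

/-!
# P236, synthetic calculus: graded preadditive categories

`GData O`: groups `G i X Y` with a bilinear associative composition; `D.Cat` is the category whose
morphisms are the direct sums over all degrees.
-/

open CategoryTheory

universe v u

namespace Vale.Agent.P236SY

/-- Graded morphism groups with a composition. -/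
structure GData (O : Type u) where
  /-- the morphisms of degree `i` -/
  G : ℤ → O → O → Type v
  grp : ∀ i X Y, AddCommGroup (G i X Y)
  /-- the composition -/
  c : ∀ {i j k : ℤ} {X Y Z : O}, i + j = k → G i X Y →+ G j Y Z →+ G k X Z
  /-- the identity -/
  one : ∀ X, G 0 X X
  one_c : ∀ {i : ℤ} {X Y : O} (h : 0 + i = i) (f : G i X Y), c h (one X) f = f
  c_one : ∀ {i : ℤ} {X Y : O} (h : i + 0 = i) (f : G i X Y), c h f (one Y) = f
  assoc : ∀ {i j k ij jk l : ℤ} {X Y Z W : O} (h₁ : i + j = ij) (h₂ : j + k = jk)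
    (h₃ : ij + k = l) (h₄ : i + jk = l) (f : G i X Y) (g : G j Y Z) (h : G k Z W),
    c h₃ (c h₁ f g) h = c h₄ f (c h₂ g h)

namespace GData

attribute [instance] GData.grp

variable {O : Type u} (D : GData.{v} O)

/-- The objects of the graded category. -/
structure Cat (D : GData.{v} O) where
  /-- the underlying object -/
  obj : O

/-- The morphisms. -/
def H (X Y : O) : Type v := DirectSum ℤ fun i => D.G i X Y

instance (X Y : O) : AddCommGroup (D.H X Y) :=
  inferInstanceAs (AddCommGroup (DirectSum ℤ fun i => D.G i X Y))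

/-- The inclusion of a degree. -/
def hof {X Y : O} (i : ℤ) : D.G i X Y →+ D.H X Y := DirectSum.of (fun i => D.G i X Y) i

@[elab_as_elim]
theorem hind {X Y : O} {p : D.H X Y → Prop} (f : D.H X Y) (h0 : p 0)
    (h1 : ∀ i g, p (D.hof i g)) (h2 : ∀ a b, p a → p b → p (a + b)) : p f :=
  DirectSum.induction_on (motive := p) f h0 h1 h2

/-- An additive map out of the morphisms. -/
def lift {X Y : O} {A : Type*} [AddCommGroup A] (φ : ∀ i, D.G i X Y →+ A) : D.H X Y →+ A :=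
  DirectSum.toAddMonoid φ

theorem lift_hof {X Y : O} {A : Type*} [AddCommGroup A] (φ : ∀ i, D.G i X Y →+ A) (i : ℤ)
    (g : D.G i X Y) : D.lift φ (D.hof i g) = φ i g := DirectSum.toAddMonoid_of φ i g

/-- The composition of the graded category. -/
def cc (X Y Z : O) : D.H X Y →+ D.H Y Z →+ D.H X Z :=
  D.lift fun i => (D.lift fun j =>
    ((D.c (rfl : i + j = i + j)).compr₂ (D.hof (i + j))).flip).flip

theorem cc_hof {X Y Z : O} {i j k : ℤ} (h : i + j = k) (f : D.G i X Y) (g : D.G j Y Z) :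
    D.cc X Y Z (D.hof i f) (D.hof j g) = D.hof k (D.c h f g) := by
  subst h
  rw [cc, lift_hof, AddMonoidHom.flip_apply, lift_hof]
  rfl

instance : Category.{v} D.Cat where
  Hom X Y := D.H X.obj Y.obj
  id X := D.hof 0 (D.one X.obj)
  comp f g := D.cc _ _ _ f g
  id_comp f := by
    refine D.hind f (by rw [map_zero]) (fun i g => ?_) (fun a b ha hb => by rw [map_add, ha, hb])
    rw [D.cc_hof (zero_add i), D.one_c]
  comp_id f := by
    refine D.hind f (by rw [map_zero]; rfl) (fun i g => ?_)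
      (fun a b ha hb => by rw [map_add, AddMonoidHom.add_apply, ha, hb])
    rw [D.cc_hof (add_zero i), D.c_one]
  assoc f g h := by
    refine D.hind f (by simp) (fun i f => ?_) (fun a b ha hb => by simp [ha, hb])
    refine D.hind g (by simp) (fun j g => ?_) (fun a b ha hb => by simp [ha, hb])
    refine D.hind h (by simp) (fun k h => ?_) (fun a b ha hb => by simp [ha, hb])
    rw [D.cc_hof rfl, D.cc_hof rfl, D.cc_hof rfl, D.cc_hof (add_assoc i j k).symm, D.assoc]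

theorem cc_add_left {X Y Z : O} (f f' : D.H X Y) (g : D.H Y Z) :
    D.cc X Y Z (f + f') g = D.cc X Y Z f g + D.cc X Y Z f' g := by
  rw [map_add, AddMonoidHom.add_apply]

theorem cc_add_right {X Y Z : O} (f : D.H X Y) (g g' : D.H Y Z) :
    D.cc X Y Z f (g + g') = D.cc X Y Z f g + D.cc X Y Z f g' := map_add _ _ _

instance : Preadditive D.Cat where
  homGroup X Y := inferInstanceAs (AddCommGroup (D.H X.obj Y.obj))
  add_comp _ _ _ f f' g := D.cc_add_left f f' g
  comp_add _ _ _ f g g' := D.cc_add_right f g g'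

variable {D}

/-- The homogeneous morphism attached to an element of `G i X Y`. -/
def of {X Y : D.Cat} (i : ℤ) : D.G i X.obj Y.obj →+ (X ⟶ Y) := D.hof i

theorem of_comp {X Y Z : D.Cat} {i j k : ℤ} (h : i + j = k) (f : D.G i X.obj Y.obj)
    (g : D.G j Y.obj Z.obj) : (of i f : X ⟶ Y) ≫ (of j g : Y ⟶ Z) = of k (D.c h f g) :=
  D.cc_hof h f g

theorem id_eq (X : D.Cat) : 𝟙 X = of 0 (D.one X.obj) := rfl

theorem of_inj {X Y : D.Cat} (i : ℤ) : Function.Injective (of i : _ → (X ⟶ Y)) :=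
  DirectSum.of_injective (β := fun i => D.G i X.obj Y.obj) i

theorem of_eq_zero {X Y : D.Cat} {i : ℤ} {f : D.G i X.obj Y.obj} :
    (of i f : X ⟶ Y) = 0 ↔ f = 0 := map_eq_zero_iff _ (of_inj i)

/-- `f` is homogeneous of degree `i`. -/
def Deg (i : ℤ) {X Y : D.Cat} (f : X ⟶ Y) : Prop := ∃ g, f = of i g

@[elab_as_elim]
theorem ind {X Y : D.Cat} {p : (X ⟶ Y) → Prop} (f : X ⟶ Y) (h0 : p 0)
    (h1 : ∀ i g, Deg i g → p g) (h2 : ∀ a b, p a → p b → p (a + b)) : p f :=
  D.hind f h0 (fun i g => h1 i _ ⟨g, rfl⟩) h2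

section Deg

variable {X Y Z : D.Cat} {i j k : ℤ}

theorem deg_of (i : ℤ) (g : D.G i X.obj Y.obj) : Deg i (of i g : X ⟶ Y) := ⟨g, rfl⟩

theorem deg_zero (i : ℤ) : Deg i (0 : X ⟶ Y) := ⟨0, (map_zero _).symm⟩

theorem deg_id (X : D.Cat) : Deg 0 (𝟙 X) := ⟨_, rfl⟩

theorem Deg.add {f g : X ⟶ Y} (hf : Deg i f) (hg : Deg i g) : Deg i (f + g) := by
  obtain ⟨a, rfl⟩ := hf
  obtain ⟨b, rfl⟩ := hg
  exact ⟨a + b, (map_add _ _ _).symm⟩

theorem Deg.neg {f : X ⟶ Y} (hf : Deg i f) : Deg i (-f) := by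
  obtain ⟨a, rfl⟩ := hf
  exact ⟨-a, (map_neg _ _).symm⟩

theorem Deg.sub {f g : X ⟶ Y} (hf : Deg i f) (hg : Deg i g) : Deg i (f - g) := by
  rw [sub_eq_add_neg]
  exact hf.add hg.neg

theorem Deg.zsmul {f : X ⟶ Y} (hf : Deg i f) (n : ℤ) : Deg i (n • f) := by
  obtain ⟨a, rfl⟩ := hf
  exact ⟨n • a, (map_zsmul _ _ _).symm⟩

theorem Deg.usmul {f : X ⟶ Y} (hf : Deg i f) (n : ℤˣ) : Deg i (n • f) := hf.zsmul n

theorem Deg.comp {f : X ⟶ Y} {g : Y ⟶ Z} (hf : Deg i f) (hg : Deg j g) (h : i + j = k) :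
    Deg k (f ≫ g) := by
  obtain ⟨a, rfl⟩ := hf
  obtain ⟨b, rfl⟩ := hg
  exact ⟨_, of_comp h a b⟩

theorem Deg.cast {f : X ⟶ Y} (hf : Deg i f) (h : i = j) : Deg j f := h ▸ hf

theorem Deg.sum {ι : Type*} (s : Finset ι) {f : ι → (X ⟶ Y)} (hf : ∀ a ∈ s, Deg i (f a)) :
    Deg i (∑ a ∈ s, f a) :=
  Finset.sum_induction f (Deg i) (fun _ _ => Deg.add) (deg_zero i) hf

end Deg

/-- The projection onto the degree `i`. -/
def pr (i : ℤ) {X Y : D.Cat} : (X ⟶ Y) →+ (X ⟶ Y) :=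
  D.lift fun j => if j = i then of j else 0

section Pr

variable {X Y Z : D.Cat} {i j k : ℤ}

theorem Deg.pr_self {f : X ⟶ Y} (hf : Deg i f) : pr i f = f := by
  obtain ⟨a, rfl⟩ := hf
  exact (D.lift_hof _ i a).trans (by rw [if_pos rfl])

theorem Deg.pr_ne {f : X ⟶ Y} (hf : Deg j f) (h : j ≠ i) : pr i f = 0 := by
  obtain ⟨a, rfl⟩ := hf
  exact (D.lift_hof _ j a).trans (by rw [if_neg h]; rfl)

theorem deg_pr (i : ℤ) (f : X ⟶ Y) : Deg i (pr i f) := by
  refine ind f (by rw [map_zero]; exact deg_zero i) (fun j g hg => ?_)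
    (fun a b ha hb => by rw [map_add]; exact ha.add hb)
  by_cases h : j = i
  · subst h
    rwa [hg.pr_self]
  · rw [hg.pr_ne h]
    exact deg_zero i

theorem Deg.eq_zero {f : X ⟶ Y} (hf : Deg i f) (hf' : Deg j f) (h : j ≠ i) : f = 0 := by
  rw [← hf.pr_self, hf'.pr_ne h]

theorem pr_comp (f : X ⟶ Y) {g : Y ⟶ Z} (hg : Deg j g) (h : i + j = k) :
    pr k (f ≫ g) = pr i f ≫ g := by
  refine ind f (by simp) (fun a f hf => ?_)
    (fun a b ha hb => by rw [Preadditive.add_comp, map_add, map_add, ha, hb, Preadditive.add_comp])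
  by_cases e : a = i
  · subst e
    rw [(hf.comp hg h).pr_self, hf.pr_self]
  · rw [(hf.comp hg rfl).pr_ne (by omega), hf.pr_ne e, Limits.zero_comp]

theorem comp_pr {f : X ⟶ Y} (hf : Deg i f) (g : Y ⟶ Z) (h : i + j = k) :
    pr k (f ≫ g) = f ≫ pr j g := by
  refine ind g (by simp) (fun a g hg => ?_)
    (fun a b ha hb => by rw [Preadditive.comp_add, map_add, map_add, ha, hb, Preadditive.comp_add])
  by_cases e : a = j
  · subst e
    rw [(hf.comp hg h).pr_self, hg.pr_self]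
  · rw [(hf.comp hg rfl).pr_ne (by omega), hg.pr_ne e, Limits.comp_zero]

theorem exists_sum (f : X ⟶ Y) : ∃ s : Finset ℤ, ∀ t : Finset ℤ, s ⊆ t → ∑ i ∈ t, pr i f = f := by
  refine ind f ⟨∅, by simp⟩ (fun a f hf => ⟨{a}, fun t ht => ?_⟩) ?_
  · rw [Finset.sum_eq_single a (fun b _ hb => hf.pr_ne hb.symm)
      (fun h => absurd (ht (Finset.mem_singleton_self a)) h), hf.pr_self]
  · rintro a b ⟨s, hs⟩ ⟨s', hs'⟩
    refine ⟨s ∪ s', fun t ht => ?_⟩
    simp only [map_add, Finset.sum_add_distrib]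
    rw [hs t (Finset.union_subset_left ht), hs' t (Finset.union_subset_right ht)]

/-- A property closed under sums which holds for the components holds. -/
theorem of_pr {p : (X ⟶ Y) → Prop} (f : X ⟶ Y) (h0 : p 0) (h1 : ∀ i, p (pr i f))
    (h2 : ∀ a b, p a → p b → p (a + b)) : p f := by
  obtain ⟨s, hs⟩ := exists_sum f
  rw [← hs s (Finset.Subset.refl s)]
  exact Finset.sum_induction _ p h2 h0 fun i _ => h1 i

/-- Extraction of the degree, on the left. -/
theorem Deg.left {x : X ⟶ Z} {y : X ⟶ Y} {f : Y ⟶ Z} (hx : Deg k x) (hf : Deg j f)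
    (e : x = y ≫ f) (h : i + j = k) : ∃ y' : X ⟶ Y, Deg i y' ∧ x = y' ≫ f :=
  ⟨pr i y, deg_pr i y, by rw [← pr_comp y hf h, ← e, hx.pr_self]⟩

/-- Extraction of the degree, on the right. -/
theorem Deg.right {x : X ⟶ Z} {f : X ⟶ Y} {y : Y ⟶ Z} (hx : Deg k x) (hf : Deg i f)
    (e : x = f ≫ y) (h : i + j = k) : ∃ y' : Y ⟶ Z, Deg j y' ∧ x = f ≫ y' :=
  ⟨pr j y, deg_pr j y, by rw [← comp_pr hf y h, ← e, hx.pr_self]⟩

theorem Deg.inv {e : X ≅ Y} (he : Deg i e.hom) : Deg (-i) e.inv := by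
  have h : e.hom ≫ pr (-i) e.inv = 𝟙 X := by
    rw [← comp_pr he e.inv (add_neg_cancel i), e.hom_inv_id, (deg_id X).pr_self]
  have h2 : e.inv = pr (-i) e.inv := by rw [← cancel_epi e.hom, h, e.hom_inv_id]
  rw [h2]
  exact deg_pr _ _

end Pr

/-- The sign twist, by the parity of the degree. -/
def tw {X Y : D.Cat} : (X ⟶ Y) →+ (X ⟶ Y) := D.lift fun j => (j.negOnePow : ℤ) • of j

theorem Deg.tw_eq {X Y : D.Cat} {i : ℤ} {f : X ⟶ Y} (hf : Deg i f) : tw f = i.negOnePow • f := by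
  obtain ⟨a, rfl⟩ := hf
  exact D.lift_hof _ i a

theorem tw_comp {X Y Z : D.Cat} (f : X ⟶ Y) (g : Y ⟶ Z) : tw (f ≫ g) = tw f ≫ tw g := by
  refine ind f (by simp) (fun i f hf => ?_) (fun a b ha hb => by simp [ha, hb])
  refine ind g (by simp) (fun j g hg => ?_) (fun a b ha hb => by simp [ha, hb])
  rw [(hf.comp hg rfl).tw_eq, hf.tw_eq, hg.tw_eq, Int.negOnePow_add, Units.smul_def,
    Units.smul_def, Units.smul_def, Preadditive.zsmul_comp, Preadditive.comp_zsmul, smul_smul,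
    Units.val_mul]

/-- A degree preserving map of graded data. -/
structure Map {O' : Type*} (D : GData.{v} O) (D' : GData.{v} O') where
  /-- on objects -/
  obj : O → O'
  /-- on morphisms -/
  m : ∀ {i : ℤ} {X Y : O}, D.G i X Y →+ D'.G i (obj X) (obj Y)
  m_one : ∀ X, m (D.one X) = D'.one (obj X)
  m_c : ∀ {i j k : ℤ} {X Y Z : O} (h : i + j = k) (f : D.G i X Y) (g : D.G j Y Z),
    m (D.c h f g) = D'.c h (m f) (m g)

namespace Map

variable {O' : Type*} {D' : GData.{v} O'} (Φ : Map D D')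

/-- The map on all morphisms. -/
def hm (X Y : D.Cat) : (X ⟶ Y) →+ ((⟨Φ.obj X.obj⟩ : D'.Cat) ⟶ ⟨Φ.obj Y.obj⟩) :=
  D.lift fun i => (of i).comp Φ.m

theorem hm_of {X Y : D.Cat} (i : ℤ) (g : D.G i X.obj Y.obj) :
    Φ.hm X Y (of i g) = of i (Φ.m g) := D.lift_hof _ i g

/-- The functor. -/
@[reducible] def fn : D.Cat ⥤ D'.Cat where
  obj X := ⟨Φ.obj X.obj⟩
  map f := Φ.hm _ _ f
  map_id X := by rw [id_eq, hm_of, Φ.m_one]; rfl
  map_comp f g := by
    refine ind f (by simp) ?_ (fun a b ha hb => by simp [ha, hb])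
    rintro i _ ⟨f, rfl⟩
    refine ind g (by simp) ?_ (fun a b ha hb => by simp [ha, hb])
    rintro j _ ⟨g, rfl⟩
    rw [of_comp rfl, hm_of, hm_of, hm_of, of_comp rfl, Φ.m_c]

instance : Φ.fn.Additive where
  map_add := map_add (Φ.hm _ _) _ _

theorem deg {X Y : D.Cat} {i : ℤ} {f : X ⟶ Y} (hf : Deg i f) : Deg i (Φ.fn.map f) := by
  obtain ⟨a, rfl⟩ := hf
  exact ⟨_, Φ.hm_of i a⟩

end Map

end GData

end Vale.Agent.P236SY
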