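import Vale.Agent.P236SY.GD
import Mathlib.CategoryTheory.Shift.ShiftedHom

/-!
# P236, synthetic calculus: the graded category of a category with shift

`Gr T` has the objects of `T`; a morphism of degree `a` from `X` to `Y` is a morphism
`X ⟶ Y⟦a⟧` of `T`.
-/

open CategoryTheory

universe v u

namespace Vale.Agent.P236SY

open GData

section

variable (T : Type u) [Category.{v} T] [Preadditive T] [HasShift T ℤ]
  [∀ n : ℤ, (shiftFunctor T n).Additive]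

/-- The shifted morphisms as graded data. -/
noncomputable def shD : GData.{v} T where
  G a X Y := ShiftedHom X Y a
  grp _ _ _ := inferInstance
  c {i j _ _ _ _} h := AddMonoidHom.mk' (fun f => AddMonoidHom.mk'
    (fun g => f.comp g ((add_comm j i).trans h)) (fun _ _ => ShiftedHom.comp_add _ _ _ _))
    (fun _ _ => AddMonoidHom.ext fun _ => ShiftedHom.add_comp _ _ _ _)
  one X := ShiftedHom.mk₀ 0 rfl (𝟙 X)
  one_c _ f := ShiftedHom.mk₀_id_comp 0 rfl f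
  c_one _ f := ShiftedHom.comp_mk₀_id f 0 rfl
  assoc h₁ h₂ h₃ _ f g h := ShiftedHom.comp_assoc f g h _ _ (by omega)

/-- The graded category. -/
abbrev Gr : Type u := (shD T).Cat

variable {T}

/-- An object of `T` as an object of the graded category. -/
abbrev ob (X : T) : Gr T := ⟨X⟩

/-- A morphism `X ⟶ Y⟦a⟧` as a morphism of degree `a`. -/
noncomputable def sm {X Y : T} (a : ℤ) (f : X ⟶ Y⟦a⟧) : ob X ⟶ ob Y :=
  of (D := shD T) (X := ob X) (Y := ob Y) a f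

theorem sm_comp {X Y Z : T} {a b c : ℤ} (h : b + a = c) (f : X ⟶ Y⟦a⟧) (g : Y ⟶ Z⟦b⟧) :
    sm a f ≫ sm b g = sm c (ShiftedHom.comp f g h) :=
  of_comp (D := shD T) ((add_comm a b).trans h) f g

theorem deg_sm {X Y : T} (a : ℤ) (f : X ⟶ Y⟦a⟧) : Deg a (sm a f) := ⟨f, rfl⟩

theorem Deg.exists_sm {X Y : T} {a : ℤ} {f : ob X ⟶ ob Y} (h : Deg a f) :
    ∃ g : X ⟶ Y⟦a⟧, f = sm a g := h

theorem sm_add {X Y : T} (a : ℤ) (f g : X ⟶ Y⟦a⟧) : sm a (f + g) = sm a f + sm a g :=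
  map_add (of (D := shD T) (X := ob X) (Y := ob Y) a) f g

theorem sm_neg {X Y : T} (a : ℤ) (f : X ⟶ Y⟦a⟧) : sm a (-f) = -sm a f :=
  map_neg (of (D := shD T) (X := ob X) (Y := ob Y) a) f

theorem sm_zsmul {X Y : T} (a n : ℤ) (f : X ⟶ Y⟦a⟧) : sm a (n • f) = n • sm a f :=
  map_zsmul (of (D := shD T) (X := ob X) (Y := ob Y) a) n f

theorem sm_zero {X Y : T} (a : ℤ) : sm a (0 : X ⟶ Y⟦a⟧) = 0 :=
  map_zero (of (D := shD T) (X := ob X) (Y := ob Y) a)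

theorem sm_inj {X Y : T} {a : ℤ} {f g : X ⟶ Y⟦a⟧} (h : sm a f = sm a g) : f = g :=
  of_inj (D := shD T) (X := ob X) (Y := ob Y) a h

/-- A morphism of `T` as a morphism of degree zero. -/
noncomputable def io {X Y : T} (f : X ⟶ Y) : ob X ⟶ ob Y := sm 0 (ShiftedHom.mk₀ 0 rfl f)

theorem deg_io {X Y : T} (f : X ⟶ Y) : Deg 0 (io f) := deg_sm _ _

@[simp] theorem io_id (X : T) : io (𝟙 X) = 𝟙 (ob X) := rfl

@[reassoc]
theorem io_sm {X Y Z : T} {a : ℤ} (f : X ⟶ Y) (g : Y ⟶ Z⟦a⟧) : io f ≫ sm a g = sm a (f ≫ g) := by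
  rw [io, sm_comp (add_zero a), ShiftedHom.mk₀_comp]

@[reassoc]
theorem sm_io {X Y Z : T} {a : ℤ} (f : X ⟶ Y⟦a⟧) (g : Y ⟶ Z) :
    sm a f ≫ io g = sm a (f ≫ g⟦a⟧') := by
  rw [io, sm_comp (zero_add a), ShiftedHom.comp_mk₀]

@[reassoc]
theorem io_comp {X Y Z : T} (f : X ⟶ Y) (g : Y ⟶ Z) : io (f ≫ g) = io f ≫ io g := by
  rw [io, io, io, sm_comp (add_zero 0), ShiftedHom.mk₀_comp_mk₀]

theorem io_add {X Y : T} (f g : X ⟶ Y) : io (f + g) = io f + io g := by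
  rw [io, ShiftedHom.mk₀_add, sm_add]; rfl

theorem io_neg {X Y : T} (f : X ⟶ Y) : io (-f) = -io f := by
  rw [io, ShiftedHom.mk₀_neg, sm_neg]; rfl

theorem io_sub {X Y : T} (f g : X ⟶ Y) : io (f - g) = io f - io g := by
  rw [sub_eq_add_neg, io_add, io_neg, sub_eq_add_neg]

@[simp] theorem io_zero {X Y : T} : io (0 : X ⟶ Y) = 0 := by
  rw [io, ShiftedHom.mk₀_zero, sm_zero]

/-- `io` as an additive map. -/
noncomputable def ioH (X Y : T) : (X ⟶ Y) →+ (ob X ⟶ ob Y) := AddMonoidHom.mk' io io_add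

theorem io_zsmul {X Y : T} (n : ℤ) (f : X ⟶ Y) : io (n • f) = n • io f :=
  map_zsmul (ioH X Y) n f

theorem io_sum {X Y : T} {ι : Type*} (s : Finset ι) (f : ι → (X ⟶ Y)) :
    io (∑ i ∈ s, f i) = ∑ i ∈ s, io (f i) := map_sum (ioH X Y) f s

theorem io_inj {X Y : T} {f g : X ⟶ Y} (h : io f = io g) : f = g :=
  (ShiftedHom.homEquiv (0 : ℤ) rfl).injective (sm_inj h)

theorem io_eq_zero {X Y : T} {f : X ⟶ Y} : io f = 0 ↔ f = 0 :=
  ⟨fun h => io_inj (h.trans io_zero.symm), fun h => h ▸ io_zero⟩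

theorem Deg.exists_io {X Y : T} {f : ob X ⟶ ob Y} (h : Deg 0 f) : ∃ g : X ⟶ Y, f = io g := by
  obtain ⟨g, rfl⟩ := Deg.exists_sm h
  obtain ⟨g, rfl⟩ := (ShiftedHom.homEquiv (0 : ℤ) rfl).surjective g
  exact ⟨g, rfl⟩

/-- An isomorphism of `T` in the graded category. -/
@[simps]
noncomputable def ioI {X Y : T} (e : X ≅ Y) : ob X ≅ ob Y where
  hom := io e.hom
  inv := io e.inv
  hom_inv_id := by rw [← io_comp, e.hom_inv_id, io_id]
  inv_hom_id := by rw [← io_comp, e.inv_hom_id, io_id]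

/-- The isomorphism of degree `a` from `X⟦a⟧` to `X`. -/
noncomputable def ush (X : T) (a : ℤ) : ob (X⟦a⟧) ≅ ob X where
  hom := sm a (𝟙 _)
  inv := sm (-a) ((shiftFunctorCompIsoId T a (-a) (add_neg_cancel a)).inv.app X)
  hom_inv_id := by
    rw [sm_comp (neg_add_cancel a), ← io_id, io]
    congr 1
    simp only [ShiftedHom.comp, ShiftedHom.mk₀, Category.id_comp,
      shift_shiftFunctorCompIsoId_inv_app a (-a)]
    simp [shiftFunctorCompIsoId, shiftFunctorZero']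
  inv_hom_id := by
    rw [sm_comp (add_neg_cancel a), ← io_id, io]
    congr 1
    simp [ShiftedHom.comp, ShiftedHom.mk₀, shiftFunctorCompIsoId, shiftFunctorZero']

theorem ush_hom (X : T) (a : ℤ) : (ush X a).hom = sm a (𝟙 _) := rfl

theorem deg_ush (X : T) (a : ℤ) : Deg a (ush X a).hom := deg_sm _ _

theorem deg_ush_inv (X : T) (a : ℤ) : Deg (-a) (ush X a).inv := deg_sm _ _

theorem sm_eq {X Y : T} (a : ℤ) (f : X ⟶ Y⟦a⟧) : sm a f = io f ≫ (ush Y a).hom := by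
  rw [ush_hom, io_sm, Category.comp_id]

@[reassoc]
theorem ush_nat {X Y : T} (a : ℤ) (f : X ⟶ Y) :
    io (f⟦a⟧') ≫ (ush Y a).hom = (ush X a).hom ≫ io f := by
  rw [ush_hom, ush_hom, io_sm, sm_io, Category.id_comp, Category.comp_id]

@[reassoc]
theorem ush_add (X : T) {a b c : ℤ} (h : a + b = c) :
    (ush (X⟦a⟧) b).hom ≫ (ush X a).hom =
      io ((shiftFunctorAdd' T a b c h).inv.app X) ≫ (ush X c).hom := by
  rw [ush_hom, ush_hom, sm_comp h, ← sm_eq]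
  simp [ShiftedHom.comp]

end

section Functor

variable {T : Type u} [Category.{v} T] [Preadditive T] [HasShift T ℤ]
  [∀ n : ℤ, (shiftFunctor T n).Additive]

/-- The map of graded data attached to a functor commuting with the shift. -/
noncomputable def shM (Φ : T ⥤ T) [Φ.CommShift ℤ] [Φ.Additive] : Map (shD T) (shD T) where
  obj := Φ.obj
  m := AddMonoidHom.mk' (fun f => ShiftedHom.map f Φ) (fun _ _ => ShiftedHom.map_add _ _ _)
  m_one X := (ShiftedHom.map_mk₀ 0 rfl (𝟙 X) Φ).trans (by rw [Φ.map_id]; rfl)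
  m_c _ f g := ShiftedHom.map_comp f g _ Φ

variable (Φ Ψ : T ⥤ T) [Φ.CommShift ℤ] [Φ.Additive] [Ψ.CommShift ℤ] [Ψ.Additive]

/-- The action on graded morphisms of a functor commuting with the shift. -/
noncomputable def gm {X Y : T} (f : ob X ⟶ ob Y) : ob (Φ.obj X) ⟶ ob (Φ.obj Y) :=
  (shM Φ).fn.map f

theorem gm_sm {X Y : T} (a : ℤ) (f : X ⟶ Y⟦a⟧) :
    gm Φ (sm a f) = sm a (Φ.map f ≫ (Φ.commShiftIso a).hom.app Y) :=
  (shM Φ).hm_of (X := ob X) (Y := ob Y) a f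

theorem gm_io {X Y : T} (f : X ⟶ Y) : gm Φ (io f) = io (Φ.map f) :=
  ((shM Φ).hm_of (X := ob X) (Y := ob Y) 0 _).trans
    (congrArg (sm 0) (ShiftedHom.map_mk₀ 0 rfl f Φ))

@[simp] theorem gm_id (X : T) : gm Φ (𝟙 (ob X)) = 𝟙 _ := (shM Φ).fn.map_id _

@[reassoc]
theorem gm_comp {X Y Z : T} (f : ob X ⟶ ob Y) (g : ob Y ⟶ ob Z) :
    gm Φ (f ≫ g) = gm Φ f ≫ gm Φ g := (shM Φ).fn.map_comp _ _

theorem gm_add {X Y : T} (f g : ob X ⟶ ob Y) : gm Φ (f + g) = gm Φ f + gm Φ g :=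
  (shM Φ).fn.map_add

@[simp] theorem gm_zero {X Y : T} : gm Φ (0 : ob X ⟶ ob Y) = 0 := (shM Φ).fn.map_zero _ _

theorem gm_neg {X Y : T} (f : ob X ⟶ ob Y) : gm Φ (-f) = -gm Φ f := (shM Φ).fn.map_neg

theorem gm_sub {X Y : T} (f g : ob X ⟶ ob Y) : gm Φ (f - g) = gm Φ f - gm Φ g :=
  (shM Φ).fn.map_sub

theorem gm_zsmul {X Y : T} (n : ℤ) (f : ob X ⟶ ob Y) : gm Φ (n • f) = n • gm Φ f :=
  (shM Φ).fn.map_zsmul

theorem gm_usmul {X Y : T} (n : ℤˣ) (f : ob X ⟶ ob Y) : gm Φ (n • f) = n • gm Φ f :=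
  gm_zsmul Φ n f

theorem Deg.gm {X Y : T} {a : ℤ} {f : ob X ⟶ ob Y} (h : Deg a f) : Deg a (gm Φ f) :=
  (shM Φ).deg h

theorem gm_gm {X Y : T} (f : ob X ⟶ ob Y) : gm (Φ ⋙ Ψ) f = gm Ψ (gm Φ f) := by
  refine ind f (by simp) (fun a f hf => ?_) (fun a b ha hb => by simp only [gm_add, ha, hb])
  obtain ⟨g, rfl⟩ := Deg.exists_sm hf
  rw [gm_sm, gm_sm, gm_sm]
  exact congrArg (sm a) (ShiftedHom.comp_map g Φ Ψ)

theorem gm_one {X Y : T} (f : ob X ⟶ ob Y) : gm (𝟭 T) f = f := by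
  refine ind f (by simp) (fun a f hf => ?_) (fun a b ha hb => by simp only [gm_add, ha, hb])
  obtain ⟨g, rfl⟩ := Deg.exists_sm hf
  rw [gm_sm]
  exact congrArg (sm a) (ShiftedHom.id_map g)

variable {Φ Ψ}

theorem gm_nat (τ : Φ ⟶ Ψ) [NatTrans.CommShift τ ℤ] {X Y : T} (f : ob X ⟶ ob Y) :
    gm Φ f ≫ io (τ.app Y) = io (τ.app X) ≫ gm Ψ f := by
  refine ind f (by simp) (fun a f hf => ?_)
    (fun a b ha hb => by simp only [gm_add, Preadditive.add_comp, Preadditive.comp_add, ha, hb])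
  obtain ⟨g, rfl⟩ := Deg.exists_sm hf
  rw [gm_sm, gm_sm, sm_io, io_sm, Category.assoc, ← τ.naturality_assoc, τ.shift_app_comm a]

variable (Φ) in
/-- The image of an isomorphism. -/
@[simps]
noncomputable def gmI {X Y : T} (e : ob X ≅ ob Y) : ob (Φ.obj X) ≅ ob (Φ.obj Y) where
  hom := gm Φ e.hom
  inv := gm Φ e.inv
  hom_inv_id := by rw [← gm_comp, e.hom_inv_id, gm_id]
  inv_hom_id := by rw [← gm_comp, e.inv_hom_id, gm_id]

end Functor

end Vale.Agent.P236SY
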