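import Vale.Agent.P236SY.GrTri
import Vale.Agent.P251.S.TowerR

/-!
# P236, synthetic calculus: tensor products in the graded category

The whiskerings `wl X f`, `wr f Y`, their naturality, and the interchange law with its sign.
-/

set_option linter.unusedSectionVars false

open CategoryTheory MonoidalCategory Limits Pretriangulated

universe v u

namespace Vale.Agent.P236SY

open GData Vale.Agent.P251.T Vale.Agent.P251.S Vale.Agent.P251.H

variable {T : Type u} [Category.{v} T] [Preadditive T] [HasZeroObject T] [HasShift T ℤ]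
  [∀ n : ℤ, (shiftFunctor T n).Additive] [Pretriangulated T] [MonoidalCategory T]
  [SymmetricCategory T] [TensorTriangulated T]

/-- `X ⊗ f` -/
noncomputable def wl (X : T) {A B : T} (f : ob A ⟶ ob B) : ob (X ⊗ A) ⟶ ob (X ⊗ B) :=
  gm (tensorLeft X) f

/-- `f ⊗ Y` -/
noncomputable def wr {A B : T} (f : ob A ⟶ ob B) (Y : T) : ob (A ⊗ Y) ⟶ ob (B ⊗ Y) :=
  gm (tensorRight Y) f

section basic

variable {A B C : T} (X : T)

@[simp] theorem wl_id (A : T) : wl X (𝟙 (ob A)) = 𝟙 _ := gm_id _ _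
@[reassoc] theorem wl_comp (f : ob A ⟶ ob B) (g : ob B ⟶ ob C) :
    wl X (f ≫ g) = wl X f ≫ wl X g := gm_comp _ _ _
theorem wl_add (f g : ob A ⟶ ob B) : wl X (f + g) = wl X f + wl X g := gm_add _ _ _
theorem wl_sub (f g : ob A ⟶ ob B) : wl X (f - g) = wl X f - wl X g := gm_sub _ _ _
theorem wl_neg (f : ob A ⟶ ob B) : wl X (-f) = -wl X f := gm_neg _ _
@[simp] theorem wl_zero : wl X (0 : ob A ⟶ ob B) = 0 := gm_zero _
theorem wl_zsmul (n : ℤ) (f : ob A ⟶ ob B) : wl X (n • f) = n • wl X f := gm_zsmul _ _ _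
theorem wl_io (f : A ⟶ B) : wl X (io f) = io (X ◁ f) := gm_io _ _
theorem wl_sm (a : ℤ) (f : A ⟶ B⟦a⟧) : wl X (sm a f) = sm a (X ◁ f ≫ (csh X a B).hom) :=
  gm_sm _ _ _
theorem Deg.wl {a : ℤ} {f : ob A ⟶ ob B} (h : Deg a f) : Deg a (wl X f) := Deg.gm _ h

@[simp] theorem wr_id (A : T) : wr (𝟙 (ob A)) X = 𝟙 _ := gm_id _ _
@[reassoc] theorem wr_comp (f : ob A ⟶ ob B) (g : ob B ⟶ ob C) :
    wr (f ≫ g) X = wr f X ≫ wr g X := gm_comp _ _ _
theorem wr_add (f g : ob A ⟶ ob B) : wr (f + g) X = wr f X + wr g X := gm_add _ _ _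
theorem wr_sub (f g : ob A ⟶ ob B) : wr (f - g) X = wr f X - wr g X := gm_sub _ _ _
theorem wr_neg (f : ob A ⟶ ob B) : wr (-f) X = -wr f X := gm_neg _ _
@[simp] theorem wr_zero : wr (0 : ob A ⟶ ob B) X = 0 := gm_zero _
theorem wr_zsmul (n : ℤ) (f : ob A ⟶ ob B) : wr (n • f) X = n • wr f X := gm_zsmul _ _ _
theorem wr_io (f : A ⟶ B) : wr (io f) X = io (f ▷ X) := gm_io _ _
theorem Deg.wr {a : ℤ} {f : ob A ⟶ ob B} (h : Deg a f) : Deg a (wr f X) := Deg.gm _ h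

theorem DT.wl {a b : ℤ} {f : ob A ⟶ ob B} {g : ob B ⟶ ob C} {h : ob C ⟶ ob A}
    (H : DT a b f g h) : DT a b (wl X f) (wl X g) (wl X h) := H.gm (tensorLeft X)

theorem DT.wr {a b : ℤ} {f : ob A ⟶ ob B} {g : ob B ⟶ ob C} {h : ob C ⟶ ob A}
    (H : DT a b f g h) : DT a b (wr f X) (wr g X) (wr h X) := H.gm (tensorRight X)

@[reassoc]
theorem wl_β (f : ob A ⟶ ob B) :
    wl X f ≫ io (β_ X B).hom = io (β_ X A).hom ≫ wr f X :=
  gm_nat (BraidedCategory.tensorLeftIsoTensorRight X).hom f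

@[reassoc (attr := simp)]
theorem io_ββ (A B : T) : io (β_ A B).hom ≫ io (β_ B A).hom = 𝟙 _ := by
  rw [← io_comp, SymmetricCategory.symmetry, io_id]

@[reassoc (attr := simp)]
theorem io_hom_inv {A B : T} (e : A ≅ B) : io e.hom ≫ io e.inv = 𝟙 _ := (ioI e).hom_inv_id

@[reassoc (attr := simp)]
theorem io_inv_hom {A B : T} (e : A ≅ B) : io e.inv ≫ io e.hom = 𝟙 _ := (ioI e).inv_hom_id

instance {A B : T} (f : A ⟶ B) [IsIso f] : IsIso (io f) := (ioI (asIso f)).isIso_hom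

theorem wr_eq (f : ob A ⟶ ob B) : wr f X = io (β_ A X).hom ≫ wl X f ≫ io (β_ X B).hom := by
  rw [wl_β, io_ββ_assoc]

theorem wl_eq (f : ob A ⟶ ob B) : wl X f = io (β_ X A).hom ≫ wr f X ≫ io (β_ B X).hom := by
  rw [← wl_β_assoc, io_ββ, Category.comp_id]

@[reassoc]
theorem wr_β (f : ob A ⟶ ob B) :
    wr f X ≫ io (β_ B X).hom = io (β_ A X).hom ≫ wl X f := by
  rw [wl_eq, io_ββ_assoc]

variable {X}

@[reassoc]
theorem wl_ex {X' : T} (φ : X ⟶ X') (f : ob A ⟶ ob B) :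
    wl X f ≫ io (φ ▷ B) = io (φ ▷ A) ≫ wl X' f := gm_nat (tlMap φ) f

@[reassoc]
theorem wr_ex {X' : T} (φ : X ⟶ X') (f : ob A ⟶ ob B) :
    wr f X ≫ io (B ◁ φ) = io (A ◁ φ) ≫ wr f X' := gm_nat (trMap φ) f

@[reassoc]
theorem wl_lam (f : ob A ⟶ ob B) : wl (𝟙_ T) f ≫ io (λ_ B).hom = io (λ_ A).hom ≫ f :=
  (gm_nat (lunNat T) f).trans (by rw [gm_one]; rfl)

@[reassoc]
theorem lam_inv_wl (f : ob A ⟶ ob B) : io (λ_ A).inv ≫ wl (𝟙_ T) f = f ≫ io (λ_ B).inv := by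
  rw [← cancel_mono (io (λ_ B).hom), Category.assoc, wl_lam]
  simp

@[reassoc]
theorem wr_rho (f : ob A ⟶ ob B) : wr f (𝟙_ T) ≫ io (ρ_ B).hom = io (ρ_ A).hom ≫ f := by
  rw [← braiding_leftUnitor, ← braiding_leftUnitor, io_comp, io_comp, wr_β_assoc, wl_lam,
    Category.assoc]

@[reassoc]
theorem rho_inv_wr (f : ob A ⟶ ob B) : io (ρ_ A).inv ≫ wr f (𝟙_ T) = f ≫ io (ρ_ B).inv := by
  rw [← cancel_mono (io (ρ_ B).hom), Category.assoc, wr_rho]
  simp

@[reassoc]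
theorem wl_α (X X' : T) (f : ob A ⟶ ob B) :
    wl (X ⊗ X') f ≫ io (α_ X X' B).hom = io (α_ X X' A).hom ≫ wl X (wl X' f) :=
  (gm_nat (assNat X X') f).trans (by rw [gm_gm]; rfl)

@[reassoc]
theorem α_inv_wl (X X' : T) (f : ob A ⟶ ob B) :
    wl X (wl X' f) ≫ io (α_ X X' B).inv = io (α_ X X' A).inv ≫ wl (X ⊗ X') f := by
  rw [← cancel_epi (io (α_ X X' A).hom), ← wl_α_assoc]
  simp

@[reassoc]
theorem mid_α (X Z : T) (f : ob A ⟶ ob B) :
    wr (wl X f) Z ≫ io (α_ X B Z).hom = io (α_ X A Z).hom ≫ wl X (wr f Z) := by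
  have h : ∀ C : T, (α_ X C Z).hom = (β_ (X ⊗ C) Z).hom ≫ (α_ Z X C).inv ≫
      ((β_ Z X).hom ▷ C) ≫ (α_ X Z C).hom ≫ X ◁ (β_ Z C).hom := by
    intro C
    rw [← cancel_epi (β_ Z (X ⊗ C)).hom, SymmetricCategory.symmetry_assoc,
      BraidedCategory.braiding_tensor_right_hom]
    simp
  rw [h, h]
  simp only [io_comp, Category.assoc]
  rw [wr_β_assoc, α_inv_wl_assoc, wl_ex_assoc, wl_α_assoc, ← wl_io, ← wl_io, ← wl_comp, wl_β,
    wl_comp]

@[reassoc]
theorem wr_α (Y Z : T) (f : ob A ⟶ ob B) :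
    wr (wr f Y) Z ≫ io (α_ B Y Z).hom = io (α_ A Y Z).hom ≫ wr f (Y ⊗ Z) := by
  have h : ∀ C : T, (α_ C Y Z).hom = ((β_ C Y).hom ▷ Z) ≫ (α_ Y C Z).hom ≫
      (Y ◁ (β_ C Z).hom) ≫ (α_ Y Z C).inv ≫ (β_ (Y ⊗ Z) C).hom := by
    intro C
    rw [← cancel_mono (β_ C (Y ⊗ Z)).hom]
    simp only [Category.assoc, SymmetricCategory.symmetry, Category.comp_id]
    rw [BraidedCategory.braiding_tensor_right_hom C Y Z, Iso.hom_inv_id_assoc]
  rw [h, h]
  simp only [io_comp, Category.assoc]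
  rw [← wr_io, ← wr_io, ← wr_comp_assoc, wr_β, wr_comp_assoc, mid_α_assoc, ← wl_io, ← wl_io,
    ← wl_comp_assoc, wr_β, wl_comp_assoc, α_inv_wl_assoc, wl_β]

end basic

/-- The interchange law with the sign `e`. -/
def IC {A B C D : T} (x : ob A ⟶ ob B) (y : ob C ⟶ ob D) (e : ℤˣ) : Prop :=
  wr x C ≫ wl B y = e • wl A y ≫ wr x D

namespace IC

variable {A B B' C D : T} {x : ob A ⟶ ob B} {y : ob C ⟶ ob D} {e e' : ℤˣ}

theorem symm (h : IC x y e) : IC y x e := by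
  have h1 : wr y A ≫ wl D x = io (β_ C A).hom ≫ (wl A y ≫ wr x D) ≫ io (β_ B D).hom := by
    rw [Category.assoc, wr_β, ← wr_β_assoc, io_ββ_assoc]
  have h2 : wl C x ≫ wr y B = io (β_ C A).hom ≫ (wr x C ≫ wl B y) ≫ io (β_ B D).hom := by
    rw [Category.assoc, wl_β, ← wl_β_assoc, io_ββ_assoc]
  rw [IC, h1, h2, h, Linear.units_smul_comp, Linear.comp_units_smul, smul_smul,
    Int.units_mul_self, one_smul]

theorem comp {x' : ob B ⟶ ob B'} (h : IC x y e) (h' : IC x' y e') : IC (x ≫ x') y (e * e') := by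
  rw [IC, wr_comp, wr_comp, Category.assoc, h', Linear.comp_units_smul, reassoc_of% h,
    Linear.units_smul_comp, smul_smul, mul_comm, Category.assoc]

theorem of_io (f : A ⟶ B) (y : ob C ⟶ ob D) : IC (io f) y 1 := by
  rw [IC, one_smul, wr_io, wr_io, wl_ex]

theorem inv {u : ob A ≅ ob B} (h : IC u.hom y e) : IC u.inv y e := by
  have h1 : wr u.inv C ≫ wr u.hom C = 𝟙 _ := by rw [← wr_comp, u.inv_hom_id, wr_id]
  have h2 : wr u.hom D ≫ wr u.inv D = 𝟙 _ := by rw [← wr_comp, u.hom_inv_id, wr_id]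
  have h3 := congrArg (fun t => wr u.inv C ≫ t ≫ wr u.inv D) h
  simp only [Category.assoc, reassoc_of% h1, Linear.units_smul_comp, Linear.comp_units_smul, h2,
    Category.comp_id] at h3
  rw [IC, h3, smul_smul, Int.units_mul_self, one_smul]

theorem wl (h : IC x y e) (X : T) : IC (wl X x) y e := by
  rw [IC, ← cancel_mono (io (α_ X B D).hom), Category.assoc, wl_α, mid_α_assoc, ← wl_comp, h,
    Linear.units_smul_comp, Category.assoc, mid_α, wl_α_assoc, ← wl_comp, Units.smul_def,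
    Units.smul_def, wl_zsmul, Preadditive.comp_zsmul]

end IC

theorem ush_one (X : T) : (ush X 1).hom = io (TensorTriangulated.e X).inv ≫
    wl X (ush (𝟙_ T) 1).hom ≫ io (ρ_ X).hom := by
  have h2 : (TensorTriangulated.e (𝟙_ T)).inv = (λ_ ((𝟙_ T)⟦(1 : ℤ)⟧)).inv := by
    rw [Iso.inv_eq_inv]
    exact TensorTriangulated.e_unit
  rw [ush_hom, ush_hom, wl_sm, sm_io, io_sm, csh_one, h2]
  congr 1
  simp only [Category.assoc]
  rw [← TensorTriangulated.e_naturality]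
  simp

theorem ic_pow {C D : T} {y : ob C ⟶ ob D} {e : ℤˣ} (h : IC (ush (𝟙_ T) 1).hom y e) (a : ℤ) :
    ∀ {A B : T} {x : ob A ⟶ ob B}, Deg a x → IC x y (e ^ a) := by
  have h1 : ∀ X : T, IC (ush X 1).hom y e := fun X => by
    have := (IC.of_io (TensorTriangulated.e X).inv y).comp
      ((h.wl X).comp (IC.of_io (ρ_ X).hom y))
    rwa [one_mul, mul_one, ← ush_one] at this
  induction a using Int.induction_on with
  | zero =>
    intro A B x hx
    obtain ⟨f, rfl⟩ := Deg.exists_io hx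
    rw [zpow_zero]
    exact IC.of_io f y
  | succ n ih =>
    intro A B x hx
    have := (ih (hx.comp (deg_ush_inv B 1) (by omega))).comp (h1 B)
    rwa [Category.assoc, Iso.inv_hom_id, Category.comp_id, ← zpow_add_one] at this
  | pred n ih =>
    intro A B x hx
    have := (h1 A).inv.comp (ih ((deg_ush A 1).comp hx (by omega)))
    rw [zpow_sub_one, Int.units_inv_eq_self e]
    rwa [Iso.inv_hom_id_assoc, mul_comm] at this

theorem ic_one : IC (ush (𝟙_ T) 1).hom (ush (𝟙_ T) 1).hom (-1) := by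
  rw [IC, wr_eq, TensorTriangulated.sign, io_neg, io_id, ← cancel_mono (io (λ_ (𝟙_ T)).hom)]
  simp only [Category.assoc, wl_lam]
  rw [← io_comp_assoc, braiding_leftUnitor, Linear.units_smul_comp, Category.assoc,
    unitors_equal, wr_rho]
  simp

/-- The interchange law. -/
theorem interchange {A B C D : T} {a b : ℤ} {x : ob A ⟶ ob B} {y : ob C ⟶ ob D} (hx : Deg a x)
    (hy : Deg b y) : wr x C ≫ wl B y = (a * b).negOnePow • wl A y ≫ wr x D := by
  have h := ic_pow (ic_pow ic_one b hy).symm a hx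
  rwa [← zpow_mul, ← Int.negOnePow_def, mul_comm] at h

end Vale.Agent.P236SY
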