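import Vale.Agent.P236SY.Gr
import Vale.Agent.P251.H.Dist
import Mathlib.CategoryTheory.Triangulated.Functor

/-!
# P236, synthetic calculus: triangles of the graded category

`DT a b f g h`: up to homogeneous isomorphisms, `f, g, h` (of degrees `a`, `b`, `1 - a - b`) are
the three maps of a distinguished triangle.
-/

open CategoryTheory Limits Pretriangulated

universe v u

namespace Vale.Agent.P236SY

open GData Vale.Agent.P251.H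

variable {T : Type u} [Category.{v} T] [Preadditive T] [HasZeroObject T] [HasShift T ℤ]
  [∀ n : ℤ, (shiftFunctor T n).Additive] [Pretriangulated T]

/-- A triangle of the graded category, the first isomorphism being of degree `p`. -/
def DTp (p a b : ℤ) {X Y Z : Gr T} (f : X ⟶ Y) (g : Y ⟶ Z) (h : Z ⟶ X) : Prop :=
  ∃ (X₀ Y₀ Z₀ : T) (f₀ : X₀ ⟶ Y₀) (g₀ : Y₀ ⟶ Z₀) (h₀ : Z₀ ⟶ X₀⟦(1 : ℤ)⟧) (e₁ : X ≅ ob X₀)
    (e₂ : Y ≅ ob Y₀) (e₃ : Z ≅ ob Z₀), Dist f₀ g₀ h₀ ∧ Deg p e₁.hom ∧ Deg (p - a) e₂.hom ∧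
    Deg (p - a - b) e₃.hom ∧ f ≫ e₂.hom = e₁.hom ≫ io f₀ ∧ g ≫ e₃.hom = e₂.hom ≫ io g₀ ∧
    h ≫ e₁.hom = e₃.hom ≫ sm 1 h₀

/-- A triangle of the graded category. -/
def DT (a b : ℤ) {X Y Z : Gr T} (f : X ⟶ Y) (g : Y ⟶ Z) (h : Z ⟶ X) : Prop :=
  ∃ p, DTp p a b f g h

variable {p a b : ℤ} {X Y Z : Gr T} {f : X ⟶ Y} {g : Y ⟶ Z} {h : Z ⟶ X}

theorem dt_of_dist {X Y Z : T} {f : X ⟶ Y} {g : Y ⟶ Z} {h : Z ⟶ X⟦(1 : ℤ)⟧} (D : Dist f g h) :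
    DT 0 0 (io f) (io g) (sm 1 h) :=
  ⟨0, _, _, _, _, _, _, Iso.refl _, Iso.refl _, Iso.refl _, D, deg_id _, deg_id _, deg_id _,
    by simp, by simp, by simp⟩

omit [HasZeroObject T] [Pretriangulated T] in
theorem ush_sm {X Z : T} (n : ℤ) (h : Z ⟶ X⟦(1 : ℤ)⟧) :
    (ush Z n).hom ≫ sm 1 h =
      sm 1 (h⟦n⟧' ≫ (shiftFunctorComm T 1 n).hom.app X) ≫ (ush X n).hom := by
  rw [ush_hom, ush_hom, sm_comp (show 1 + n = 1 + n from rfl), sm_comp (add_comm n 1),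
    shiftFunctorComm_eq T 1 n (1 + n) rfl]
  congr 1
  simp [ShiftedHom.comp]

theorem DTp.shift (H : DTp p a b f g h) (n : ℤ) : DTp (p - n) a b f g (n.negOnePow • h) := by
  obtain ⟨X₀, Y₀, Z₀, f₀, g₀, h₀, e₁, e₂, e₃, D, d₁, d₂, d₃, c₁, c₂, c₃⟩ := H
  refine ⟨_, _, _, _, _, _, e₁ ≪≫ (ush X₀ n).symm, n.negOnePow • (e₂ ≪≫ (ush Y₀ n).symm),
    e₃ ≪≫ (ush Z₀ n).symm, Triangle.shift_distinguished _ D n,
    d₁.comp (deg_ush_inv _ _) (by omega), (d₂.comp (deg_ush_inv _ _) (by omega)).usmul _,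
    d₃.comp (deg_ush_inv _ _) (by omega), ?_, ?_, ?_⟩
  · change f ≫ (n.negOnePow • e₂.hom ≫ (ush Y₀ n).inv) =
      (e₁.hom ≫ (ush X₀ n).inv) ≫ io (n.negOnePow • f₀⟦n⟧')
    rw [← cancel_mono (ush Y₀ n).hom, Units.smul_def, Units.smul_def, io_zsmul]
    simp only [Preadditive.comp_zsmul, Preadditive.zsmul_comp, Category.assoc, ush_nat,
      Iso.inv_hom_id, Iso.inv_hom_id_assoc, Category.comp_id, c₁]
  · change g ≫ e₃.hom ≫ (ush Z₀ n).inv =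
      (n.negOnePow • e₂.hom ≫ (ush Y₀ n).inv) ≫ io (n.negOnePow • g₀⟦n⟧')
    rw [← cancel_mono (ush Z₀ n).hom, Units.smul_def, Units.smul_def, io_zsmul]
    simp only [Preadditive.comp_zsmul, Preadditive.zsmul_comp, Category.assoc, ush_nat,
      Iso.inv_hom_id, Iso.inv_hom_id_assoc, Category.comp_id, c₂, smul_smul]
    rw [← Units.val_mul, Int.units_mul_self, Units.val_one, one_smul]
  · change (n.negOnePow • h) ≫ e₁.hom ≫ (ush X₀ n).inv = (e₃.hom ≫ (ush Z₀ n).inv) ≫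
      sm 1 (n.negOnePow • h₀⟦n⟧' ≫ (shiftFunctorComm T 1 n).hom.app X₀)
    rw [← cancel_mono (ush X₀ n).hom, Units.smul_def, Units.smul_def, sm_zsmul]
    simp only [Preadditive.comp_zsmul, Preadditive.zsmul_comp, Category.assoc, ← ush_sm,
      Iso.inv_hom_id, Iso.inv_hom_id_assoc, Category.comp_id, c₃]

theorem DT.neg₃ (H : DT a b f g h) : DT a b f g (-h) := by
  obtain ⟨p, H⟩ := H
  exact ⟨_, by simpa using H.shift 1⟩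

theorem DT.usmul₃ (H : DT a b f g h) (e : ℤˣ) : DT a b f g (e • h) := by
  rcases Int.units_eq_one_or e with rfl | rfl
  · rwa [one_smul]
  · rw [Units.neg_smul, one_smul]
    exact H.neg₃

theorem DT.at (H : DT a b f g h) (q : ℤ) : ∃ e : ℤˣ, DTp q a b f g (e • h) := by
  obtain ⟨p, H⟩ := H
  exact ⟨_, by simpa using H.shift (p - q)⟩

theorem DT.deg₁ (H : DT a b f g h) : Deg a f := by
  obtain ⟨p, X₀, Y₀, Z₀, f₀, g₀, h₀, e₁, e₂, e₃, D, d₁, d₂, d₃, c₁, c₂, c₃⟩ := H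
  rw [(Iso.eq_comp_inv e₂).2 c₁]
  exact (d₁.comp (deg_io _) rfl).comp d₂.inv (by omega)

theorem DT.deg₂ (H : DT a b f g h) : Deg b g := by
  obtain ⟨p, X₀, Y₀, Z₀, f₀, g₀, h₀, e₁, e₂, e₃, D, d₁, d₂, d₃, c₁, c₂, c₃⟩ := H
  rw [(Iso.eq_comp_inv e₃).2 c₂]
  exact (d₂.comp (deg_io _) rfl).comp d₃.inv (by omega)

theorem DT.deg₃ (H : DT a b f g h) : Deg (1 - a - b) h := by
  obtain ⟨p, X₀, Y₀, Z₀, f₀, g₀, h₀, e₁, e₂, e₃, D, d₁, d₂, d₃, c₁, c₂, c₃⟩ := H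
  rw [(Iso.eq_comp_inv e₁).2 c₃]
  exact (d₃.comp (deg_sm _ _) rfl).comp d₁.inv (by omega)

/-- Transport along homogeneous isomorphisms. -/
theorem DT.iso (H : DT a b f g h) {X' Y' Z' : Gr T} {f' : X' ⟶ Y'} {g' : Y' ⟶ Z'} {h' : Z' ⟶ X'}
    {i j k a' b' : ℤ} (u₁ : X' ≅ X) (u₂ : Y' ≅ Y) (u₃ : Z' ≅ Z) (k₁ : Deg i u₁.hom)
    (k₂ : Deg j u₂.hom) (k₃ : Deg k u₃.hom) (w₁ : f' ≫ u₂.hom = u₁.hom ≫ f)
    (w₂ : g' ≫ u₃.hom = u₂.hom ≫ g) (w₃ : h' ≫ u₁.hom = u₃.hom ≫ h) (ha : a' + j = i + a)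
    (hb : b' + k = j + b) : DT a' b' f' g' h' := by
  obtain ⟨p, X₀, Y₀, Z₀, f₀, g₀, h₀, e₁, e₂, e₃, D, d₁, d₂, d₃, c₁, c₂, c₃⟩ := H
  refine ⟨i + p, _, _, _, _, _, _, u₁ ≪≫ e₁, u₂ ≪≫ e₂, u₃ ≪≫ e₃, D, k₁.comp d₁ rfl,
    k₂.comp d₂ (by omega), k₃.comp d₃ (by omega), ?_, ?_, ?_⟩
  · rw [Iso.trans_hom, Iso.trans_hom, reassoc_of% w₁, c₁, Category.assoc]
  · rw [Iso.trans_hom, Iso.trans_hom, reassoc_of% w₂, c₂, Category.assoc]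
  · rw [Iso.trans_hom, Iso.trans_hom, reassoc_of% w₃, c₃, Category.assoc]

theorem DT.rot (H : DT a b f g h) : DT b (1 - a - b) g h f := by
  have key : DT b (1 - a - b) g h (-f) := by
    obtain ⟨p, X₀, Y₀, Z₀, f₀, g₀, h₀, e₁, e₂, e₃, D, d₁, d₂, d₃, c₁, c₂, c₃⟩ := H
    refine ⟨p - a, _, _, _, _, _, _, e₂, e₃, e₁ ≪≫ (ush X₀ 1).symm, D.rot, d₂, d₃,
      d₁.comp (deg_ush_inv _ _) (by omega), c₂, ?_, ?_⟩
    · rw [Iso.trans_hom, reassoc_of% c₃, sm_eq]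
      simp
    · rw [Preadditive.neg_comp, c₁, sm_neg, sm_eq, ush_nat]
      simp
  simpa using key.neg₃

theorem DT.cast (H : DT a b f g h) {a' b' : ℤ} (ha : a = a') (hb : b = b') : DT a' b' f g h :=
  ha ▸ hb ▸ H

theorem DT.rot' (H : DT a b f g h) : DT (1 - a - b) a h f g := H.rot.rot.cast rfl (by omega)

theorem DT.usmul₁ (H : DT a b f g h) (e : ℤˣ) : DT a b (e • f) g h :=
  (H.rot.usmul₃ e).rot'.cast (by omega) rfl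

theorem DT.usmul₂ (H : DT a b f g h) (e : ℤˣ) : DT a b f (e • g) h :=
  (H.rot'.usmul₃ e).rot.cast rfl (by omega)

theorem DT.zero (H : DT a b f g h) : f ≫ g = 0 := by
  obtain ⟨p, X₀, Y₀, Z₀, f₀, g₀, h₀, e₁, e₂, e₃, D, d₁, d₂, d₃, c₁, c₂, c₃⟩ := H
  rw [← cancel_mono e₃.hom, Category.assoc, c₂, reassoc_of% c₁, ← io_comp, D.zero₁₂]
  simp

theorem DT.zero₂ (H : DT a b f g h) : g ≫ h = 0 := H.rot.zero

theorem DT.zero₃ (H : DT a b f g h) : h ≫ f = 0 := H.rot'.zero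

/-- Exactness of `Hom (P, -)`. -/
theorem DT.co (H : DT a b f g h) {P : Gr T} (x : P ⟶ Y) (hx : x ≫ g = 0) : ∃ y, x = y ≫ f := by
  have hg := H.deg₂
  obtain ⟨p, X₀, Y₀, Z₀, f₀, g₀, h₀, e₁, e₂, e₃, D, d₁, d₂, d₃, c₁, c₂, c₃⟩ := H
  refine of_pr (p := fun x => ∃ y, x = y ≫ f) x ⟨0, by simp⟩ (fun i => ?_) ?_
  · have h1 : pr i x ≫ g = 0 := by rw [← pr_comp x hg rfl, hx, map_zero]
    obtain ⟨x₀, hx₀⟩ := Deg.exists_io (((deg_ush P.obj (-(i + (p - a)))).comp (deg_pr i x)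
      rfl).comp d₂ (by omega))
    obtain ⟨y₀, hy₀⟩ := D.lift₂ x₀ (by
      rw [← io_eq_zero, io_comp, ← hx₀, Category.assoc, ← c₂, Category.assoc, reassoc_of% h1]
      simp)
    refine ⟨(ush P.obj _).inv ≫ io y₀ ≫ e₁.inv, ?_⟩
    rw [← cancel_mono e₂.hom, Category.assoc, c₁, ← cancel_epi (ush P.obj _).hom,
      ← Category.assoc, hx₀, ← hy₀, io_comp]
    simp
  · rintro _ _ ⟨y, rfl⟩ ⟨y', rfl⟩
    exact ⟨y + y', by simp⟩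

/-- Exactness of `Hom (-, P)`. -/
theorem DT.yo (H : DT a b f g h) {P : Gr T} (x : Y ⟶ P) (hx : f ≫ x = 0) : ∃ y, x = g ≫ y := by
  have hf := H.deg₁
  obtain ⟨p, X₀, Y₀, Z₀, f₀, g₀, h₀, e₁, e₂, e₃, D, d₁, d₂, d₃, c₁, c₂, c₃⟩ := H
  refine of_pr (p := fun x => ∃ y, x = g ≫ y) x ⟨0, by simp⟩ (fun i => ?_) ?_
  · have h1 : f ≫ pr i x = 0 := by rw [← comp_pr hf x rfl, hx, map_zero]
    obtain ⟨x₀, hx₀⟩ := Deg.exists_io (d₂.inv.comp ((deg_pr i x).comp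
      (deg_ush_inv P.obj (i - (p - a))) rfl) (by omega))
    obtain ⟨y₀, hy₀⟩ := D.desc₂ x₀ (by
      rw [← io_eq_zero, io_comp, ← hx₀, ← cancel_epi e₁.hom, ← reassoc_of% c₁]
      simp [reassoc_of% h1])
    refine ⟨e₃.hom ≫ io y₀ ≫ (ush P.obj _).hom, ?_⟩
    rw [reassoc_of% c₂, ← io_comp_assoc, hy₀, ← hx₀]
    simp
  · rintro _ _ ⟨y, rfl⟩ ⟨y', rfl⟩
    exact ⟨y + y', by simp⟩

/-- A triangulated functor preserves triangles. -/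
theorem DT.gm {X Y Z : T} {f : ob X ⟶ ob Y} {g : ob Y ⟶ ob Z} {h : ob Z ⟶ ob X}
    (H : DT a b f g h) (Φ : T ⥤ T) [Φ.CommShift ℤ] [Φ.IsTriangulated] :
    DT a b (gm Φ f) (gm Φ g) (gm Φ h) := by
  obtain ⟨p, X₀, Y₀, Z₀, f₀, g₀, h₀, e₁, e₂, e₃, D, d₁, d₂, d₃, c₁, c₂, c₃⟩ := H
  refine ⟨p, _, _, _, _, _, _, gmI Φ e₁, gmI Φ e₂, gmI Φ e₃, Φ.map_distinguished _ D,
    Deg.gm Φ d₁, Deg.gm Φ d₂, Deg.gm Φ d₃, ?_, ?_, ?_⟩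
  · simp only [gmI_hom]
    rw [← gm_comp, c₁, gm_comp, gm_io]
    rfl
  · simp only [gmI_hom]
    rw [← gm_comp, c₂, gm_comp, gm_io]
    rfl
  · simp only [gmI_hom]
    rw [← gm_comp, c₃, gm_comp, gm_sm]
    rfl

/-- Every homogeneous morphism has a cone. -/
theorem exists_dt (hf : Deg a f) : ∃ (Z : Gr T) (g : Y ⟶ Z) (h : Z ⟶ X), DT a 0 f g h := by
  obtain ⟨f₀, hf₀⟩ := Deg.exists_io (Y := Y.obj) ((deg_ush X.obj (-a)).comp hf (neg_add_cancel a))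
  obtain ⟨Z, g, h, D⟩ := exists_cone f₀
  exact ⟨ob Z, io g, sm 1 h ≫ (ush X.obj (-a)).hom, (dt_of_dist D).iso (ush X.obj (-a)).symm
    (Iso.refl _) (Iso.refl _) (deg_ush_inv _ _) (deg_id _) (deg_id _) (by simp [← hf₀]) (by simp)
    (by simp) (by omega) rfl⟩

/-- Completion of a morphism of triangles. -/
theorem DT.fill (H : DT a b f g h) {X' Y' Z' : Gr T} {f' : X' ⟶ Y'} {g' : Y' ⟶ Z'} {h' : Z' ⟶ X'}
    {a' b' k l m : ℤ} (H' : DT a' b' f' g' h') {u : X ⟶ X'} {w : Y ⟶ Y'} (hu : Deg k u)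
    (hw : Deg l w) (c : f ≫ w = u ≫ f') (h1 : a + l = k + a') (h2 : b + m = l + b') :
    ∃ (z : Z ⟶ Z') (e : ℤˣ), Deg m z ∧ g ≫ z = w ≫ g' ∧ h ≫ u = e • z ≫ h' := by
  obtain ⟨p, X₀, Y₀, Z₀, f₀, g₀, h₀, e₁, e₂, e₃, D, d₁, d₂, d₃, c₁, c₂, c₃⟩ := H
  obtain ⟨e, X₁, Y₁, Z₁, f₁, g₁, h₁, u₁, u₂, u₃, D', k₁, k₂, k₃, w₁, w₂, w₃⟩ := H'.at (p - k)
  obtain ⟨u₀, hu₀⟩ := Deg.exists_io (d₁.inv.comp (hu.comp k₁ rfl) (by omega))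
  obtain ⟨w₀, hw₀⟩ := Deg.exists_io (d₂.inv.comp (hw.comp k₂ rfl) (by omega))
  obtain ⟨z₀, hz, hz'⟩ := D.map₃ D' u₀ w₀ (io_inj (by
    rw [io_comp, io_comp, ← hu₀, ← hw₀, ← cancel_epi e₁.hom, ← reassoc_of% c₁]
    simp [reassoc_of% c, w₁]))
  refine ⟨e₃.hom ≫ io z₀ ≫ u₃.inv, e, d₃.comp ((deg_io _).comp k₃.inv rfl) (by omega), ?_, ?_⟩
  · rw [reassoc_of% c₂, ← io_comp_assoc, hz, io_comp, ← hw₀, ← cancel_mono u₃.hom]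
    simp [w₂]
  · have h3 : u ≫ u₁.hom = e₁.hom ≫ io u₀ := by simp [← hu₀]
    rw [← cancel_mono u₁.hom, Category.assoc, h3, reassoc_of% c₃, sm_io, hz', ← io_sm,
      ← Linear.comp_units_smul, Category.assoc, w₃]
    simp

end Vale.Agent.P236SY
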