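import Vale.Agent.P236SY.CY
import Vale.Agent.P236SY.Hat

/-!
# P236, synthetic calculus: the quotients of the Adams tower

`K` is the cone of `B r 𝟙 ⟶ 𝟙`, `r = k + 2`; it plays the role of the cofibre of `τ ^ (r - 1)`.
-/

open CategoryTheory MonoidalCategory Limits Pretriangulated MonObj

namespace Vale.Agent.P236SY

open GData Vale.Agent.P251 Vale.Agent.P251.T Vale.Agent.P251.S Vale.Agent.P251.H Vale.Agent.P251.M
  Vale.Agent.P251.F Vale.Agent.P251.I TD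
open Vale.Agent.P251.St (SHCat)

variable {T : SHCat}

/-- `X ⟶ K ⊗ X` -/
def inL {K : T.C} (i : 𝟙_ T.C ⟶ K) (X : T.C) : X ⟶ K ⊗ X := (λ_ X).inv ≫ i ▷ X

/-- `P ⊗ X ⟶ X` -/
def outL {P : T.C} (e : P ⟶ 𝟙_ T.C) (X : T.C) : P ⊗ X ⟶ X := e ▷ X ≫ (λ_ X).hom

@[reassoc]
theorem inL_nat {K X Y : T.C} (i : 𝟙_ T.C ⟶ K) (f : ob X ⟶ ob Y) :
    io (inL i X) ≫ wl K f = f ≫ io (inL i Y) := by
  rw [inL, inL, io_comp, io_comp, Category.assoc, ← wl_ex, lam_inv_wl_assoc]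

@[reassoc]
theorem outL_nat {P X Y : T.C} (e : P ⟶ 𝟙_ T.C) (f : ob X ⟶ ob Y) :
    wl P f ≫ io (outL e Y) = io (outL e X) ≫ f := by
  rw [outL, outL, io_comp, io_comp, wl_ex_assoc, wl_lam, Category.assoc]

@[reassoc]
theorem inL_swp {K : T.C} (i : 𝟙_ T.C ⟶ K) (A X : T.C) :
    io (inL i (A ⊗ X)) ≫ io (swp K A X) = wl A (io (inL i X)) := by
  rw [wl_io, ← io_comp, inL, ← unit_swp, Category.assoc, swp_swp, Category.comp_id, inL]

@[reassoc]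
theorem swp_outL {P : T.C} (e : P ⟶ 𝟙_ T.C) (A X : T.C) :
    io (swp A P X) ≫ io (outL e (A ⊗ X)) = wl A (io (outL e X)) := by
  rw [wl_io, ← io_comp, outL, swp_aug, outL]

@[reassoc (attr := simp)]
theorem io_swp_swp (A B X : T.C) : io (swp A B X) ≫ io (swp B A X) = 𝟙 _ := by
  rw [← io_comp, swp_swp, io_id]

theorem dt_inL {K P : T.C} {e : P ⟶ 𝟙_ T.C} {i : 𝟙_ T.C ⟶ K} {d : ob K ⟶ ob P}
    (H : DT 0 0 (io e) (io i) d) (X : T.C) : DT 0 0 (io (outL e X)) (io (inL i X)) (wr d X) :=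
  (DT.wr X H).iso (Iso.refl _) (ioI (λ_ X).symm) (Iso.refl _) (deg_id _)
    (deg_io _) (deg_id _) (by simp [wr_io, io_comp, outL]) (by simp [wr_io, io_comp, inL])
    (by simp) rfl rfl

namespace Cx

variable (C : Cx T)

theorem ghost (r : ℕ) {X K : T.C} {i : ob X ⟶ ob K} {d : ob K ⟶ C.E.K.B r (ob X)}
    (H : DT 0 0 (C.E.dr (Nat.zero_le r) (ob X)) i d) : C.E.dr (Nat.zero_le r) (ob K) = 0 := by
  induction r generalizing K with
  | zero =>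
    have h1 := H.zero
    have h2 := H.zero₃
    rw [dr_self] at h1 h2 ⊢
    obtain ⟨y, hy⟩ := H.rot.co (𝟙 _) ((Category.id_comp _).trans ((Category.comp_id _).symm.trans h2))
    exact hy.trans ((congrArg _ ((Category.id_comp _).symm.trans h1)).trans comp_zero)
  | succ r ih =>
    obtain ⟨K', i', d', H'⟩ := exists_dt (C.E.deg_dr (Nat.zero_le r) (ob X))
    rw [C.E.dr_succ (Nat.zero_le r)] at H ⊢
    obtain ⟨m₁, m₃, -, -, D, -⟩ := (C.dt_oc r X).octa H' H (k := 0) (l := 0) rfl rfl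
    obtain ⟨y, hy⟩ := D.co (C.E.dr (Nat.zero_le r) (ob K)) (by
      have h := C.E.dr_nat (Nat.zero_le r) m₃
      rw [show C.E.dr (Nat.zero_le r) K' = 0 from ih H', comp_zero] at h
      exact h.symm)
    rw [hy, ← Category.assoc, C.E.oc_null r y (C.E.ε_M _), zero_comp]

theorem isIso_νs (W : T.C) (s : ℕ) (X : T.C) : IsIso ((C.U.cR W).νs s (ob X)) := by
  induction s generalizing X with
  | zero => exact IsIso.id _
  | succ s ih =>
    have := ih (C.U.I ⊗ X)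
    have : IsIso (C.E.Fm s ((C.U.cR W).ν (ob X))) := (C.E.FmI s (ioI (α_ _ _ _))).isIso_hom
    exact IsIso.comp_isIso' ‹_› ‹_›

/-- `κ ⊗ X` -/
noncomputable def ka {P : T.C} (X : T.C) (κ : C.o P ⟶ C.o (𝟙_ T.C)) : C.o (P ⊗ X) ⟶ C.o X :=
  C.U.sr X κ ≫ C.U.j (λ_ X).hom

/-- The quotient of the Adams tower. -/
structure KD (k : ℕ) where
  /-- the stage `k + 2` -/
  P : T.C
  /-- the quotient -/
  K : T.C
  /-- the structure map -/
  e : P ⟶ 𝟙_ T.C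
  /-- the unit -/
  i : 𝟙_ T.C ⟶ K
  /-- the boundary map -/
  d : ob K ⟶ ob P
  /-- the projection to the ring -/
  π : K ⟶ C.D.R
  /-- the tautological class -/
  κ : C.o P ⟶ C.o (𝟙_ T.C)
  dt : DT 0 0 (io e) (io i) d
  dgκ : C.E.Dg 0 (k + 2 : ℕ) κ
  st : ∀ X, C.ST 0 (-1) 0 (io (inL i X)) (wr d X) (C.ka X κ ≫ C.E.tp (k + 1) _)
  inj : ∀ {X : T.C} {V : C.E.Syn} {n s : ℤ} {x : V ⟶ C.o (P ⊗ X)}, C.E.Dg n s x → 1 ≤ s →
    x ≫ C.ka X κ = 0 → x = 0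
  surj : ∀ {X : T.C} {V : C.E.Syn} {n s t : ℤ} {y : V ⟶ C.o X}, C.E.Dg n t y → 0 ≤ s →
    s + (k + 2 : ℕ) = t → ∃ x : V ⟶ C.o (P ⊗ X), C.E.Dg n s x ∧ y = x ≫ C.ka X κ
  iπ : i ≫ π = η[C.D.R]
  obp : ∀ X, C.E.Ob 0 0 (V := ob (K ⊗ X)) (Z := ob X) (io (π ▷ X))
    (C.E.ι (wr d X) ≫ C.ka X κ ≫ C.E.tp k _)
  ghost : ∀ X, outL e (K ⊗ X) = 0

theorem exists_kd (k : ℕ) : Nonempty (C.KD k) := by
  let P := (C.E.K.B (k + 2) (ob (𝟙_ T.C))).obj
  obtain ⟨e, he⟩ := Deg.exists_io (X := P) (C.E.deg_dr (Nat.zero_le (k + 2)) (ob (𝟙_ T.C)))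
  obtain ⟨⟨K⟩, i, d₀, H₀⟩ := exists_dt (deg_io e)
  obtain ⟨i, rfl⟩ := Deg.exists_io H₀.deg₂
  obtain ⟨p, u, dp, h1, h2⟩ := H₀.fill (C.U.dt (𝟙_ T.C)) (m := 0)
    (C.E.deg_dr (show 1 ≤ k + 2 by omega) (ob (𝟙_ T.C))) (deg_id _)
    (by rw [Category.comp_id, ← he, ← C.E.dr_dr (show 1 ≤ k + 2 by omega) (Nat.zero_le 1), dr_one]
        rfl) rfl rfl
  obtain ⟨p, rfl⟩ := Deg.exists_io dp
  have H := H₀.usmul₃ u
  let ν : ∀ X : T.C, ob (P ⊗ X) ⟶ C.E.K.B (k + 2) (ob X) := fun X =>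
    (C.U.cR X).νs (k + 2) (ob (𝟙_ T.C)) ≫ C.E.Fm (k + 2) (io (λ_ X).hom)
  have dν : ∀ X, Deg 0 (ν X) := fun X =>
    ((C.U.cR X).deg_νs _ _).comp (deg_Fm _ (deg_io _)) rfl
  have iν : ∀ X, IsIso (ν X) := fun X =>
    IsIso.comp_isIso' (C.isIso_νs _ _ _) (C.E.FmI _ (ioI (λ_ X))).isIso_hom
  have hν : ∀ X, C.ka X (C.E.jk (k + 2) (ob (𝟙_ T.C))) = C.E.cl (k + 2 : ℕ) (by simp) (ν X) :=
    fun X => by
      rw [ka, jk, UF.j_eq]
      refine (congrArg (· ≫ _) ((C.U.cR X).S_cl _ _ _)).trans ?_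
      rw [cl_ι, CF.map_id, Category.id_comp]
  have he' : ∀ X, ν X ≫ C.E.dr (Nat.zero_le _) _ = io (outL e X) := fun X => by
    rw [Category.assoc, dr_nat, CF.νs_dr_assoc, he, outL, io_comp, ← wr_io]
    exact congrArg _ (Category.id_comp _)
  refine ⟨⟨P, K, e, i, u • d₀, p ≫ (ρ_ _).hom, C.E.jk (k + 2) (ob (𝟙_ T.C)), H, C.E.dg_jk _ _,
    fun X => ⟨rfl, ν X ≫ C.E.dr (show 1 ≤ k + 2 by omega) _, ?_,
      (dν X).comp (C.E.deg_dr _ _) rfl, ?_⟩, fun {X V n s x} hx hs h => ?_,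
    fun {X V n s t y} hy hs h => ?_, ?_, fun X => ?_, fun X => ?_⟩⟩
  · rw [Category.assoc, ← oc_zero, ← C.E.dr_one 0 (Nat.zero_le 1), dr_dr, he']
    exact (dt_inL H X).rot
  · rw [hν, C.E.cl_tp _ (j := 1) (by push_cast; ring) _ (by simp), up_eq]
    exact (C.E.cl_dr _ _ _ _).symm
  · have := iν X
    rw [hν, ← ι_jk, ← Category.assoc] at h
    rw [← cancel_mono (C.E.ιI (asIso (ν X))).hom, zero_comp]
    exact jk_inj (hx.comp (dg_ι (n := 0) (dν X)) (add_zero n) (add_zero s)) hs h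
  · have := iν X
    obtain ⟨x, hx, rfl⟩ := jk_surj (k + 2) hy hs h
    have hi : Deg (-0) (asIso (ν X)).inv := Deg.inv (dν X)
    refine ⟨x ≫ C.E.ι (inv (ν X)), hx.comp (dg_ι hi) (add_zero n) (add_zero s), ?_⟩
    rw [hν, ← ι_jk, Category.assoc, ← ι_comp_assoc, IsIso.inv_hom_id, ι_id, Category.id_comp]
  · rw [← io_comp, Category.id_comp] at h1
    rw [reassoc_of% io_inj h1, unitMap, unitors_inv_equal, Category.assoc, rightUnitor_naturality,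
      Iso.inv_hom_id_assoc]
  · have h3 : C.E.Ob 0 0 (V := ob K) (Z := ob (𝟙_ T.C)) (io p)
        (C.E.ι (u • d₀) ≫ C.E.jk (k + 2) _ ≫ C.E.tp k _) := by
      have h4 : ((u • d₀) ≫ C.E.dr (show 2 ≤ k + 2 by omega) _) ≫ C.E.oc 1 _ =
          io p ≫ C.E.K.ρ (ob (𝟙_ T.C)) := by
        rw [Category.assoc, ← C.E.dr_one 1 (Nat.le_succ 1), dr_dr, Linear.units_smul_comp, h2,
          smul_smul, Int.units_mul_self, one_smul]
      refine ⟨deg_io _, ?_, _, H.deg₃.comp (C.E.deg_dr _ _) rfl, ?_,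
        h4.trans (congrArg _ (Category.id_comp _).symm)⟩
      · rw [d_one, Preadditive.comp_sub, sub_eq_zero]
        exact cyc_zero (by rw [← Category.assoc, ← h4, Category.assoc, oc_un, comp_zero])
      · rw [← Category.assoc, ι_jk, C.E.cl_tp _ (j := 2) (by push_cast; ring) _ (by simp)]
        exact (C.E.cl_dr _ _ _ _).symm
    have h5 := (ob_sr h3 X).comp_ι (m := 0) (deg_io (λ_ X).hom) rfl
    rw [mul_zero, Int.negOnePow_zero, one_smul, UF.sr_comp, UF.sr_comp, UF.sr_tp, UF.sr_ι,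
      Category.assoc, Category.assoc, tp_comm] at h5
    have h6 : C.cr X (s := 0) (io p) ≫ C.E.K.Qm 1 (io (λ_ X).hom) = io ((p ≫ (ρ_ _).hom) ▷ X) := by
      change (wr (io p) X ≫ 𝟙 _ ≫ io _) ≫ wl _ (io _) = _
      rw [Category.id_comp, wr_io, wl_io, ← io_comp, ← io_comp]
      congr 1
      monoidal
    rw [ka, Category.assoc, ← h6]
    exact h5
  · have := iν X
    have h3 : DT 0 0 (C.E.dr (Nat.zero_le (k + 2)) (ob X)) (io (inL i X)) (wr (u • d₀) X ≫ ν X) :=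
      (dt_inL H X).iso (asIso (ν X)).symm (Iso.refl _) (Iso.refl _) (Deg.inv (e := asIso (ν X)) (dν X))
        (deg_id _) (deg_id _) (by simp [← he']) (by simp) (by simp) rfl rfl
    rw [← io_eq_zero, ← he', C.ghost _ h3, comp_zero]

end Cx

end Vale.Agent.P236SY
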