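import Vale.Agent.P236JG.Dat
import Vale.Agent.P236JT.Fa

/-!
# P236SY / KsA : checks for the stem 322 of the Moore spectrum
-/

namespace Vale.Agent.P236SY

open Vale.Agent.P236EL Vale.Agent.P236KE Vale.Agent.P236K3 Vale.Agent.P236F Vale.Agent.P236JX
  Vale.Agent.P236JT Vale.Agent.P236JG

/-- a cochain of stem 322 which is killed by `β ^ 2` -/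
def k322L : List Tr :=
  [⟨37, 1, 0, 0, 0, 1⟩, ⟨33, 0, 2, 0, 0, 2⟩, ⟨34, 1, 1, 0, 0, 2⟩, ⟨20, 1, 1, 1, 0, 1⟩,
  ⟨18, 1, 2, 1, 0, 2⟩, ⟨19, 0, 5, 0, 0, 2⟩, ⟨22, 1, 4, 0, 0, 2⟩, ⟨15, 0, 6, 0, 0, 2⟩,
  ⟨18, 2, 5, 0, 0, 2⟩, ⟨10, 2, 5, 1, 0, 2⟩, ⟨4, 2, 8, 2, 0, 2⟩, ⟨6, 0, 14, 0, 0, 1⟩]

/-- the remaining cochains of stem 322 -/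
def l322L : List (List Tr) :=
  [[⟨4, 2, 8, 2, 0, 1⟩, ⟨5, 1, 11, 1, 0, 2⟩], [⟨7, 0, 7, 2, 0, 1⟩, ⟨11, 1, 8, 0, 0, 1⟩,
  ⟨5, 0, 8, 2, 0, 1⟩, ⟨3, 0, 9, 2, 0, 2⟩, ⟨5, 1, 11, 1, 0, 1⟩, ⟨6, 0, 14, 0, 0, 2⟩,
  ⟨2, 0, 16, 0, 0, 2⟩, ⟨0, 0, 17, 0, 0, 2⟩], [⟨1, 2, 6, 0, 1, 1⟩, ⟨7, 0, 7, 2, 0, 1⟩,
  ⟨5, 0, 8, 2, 0, 1⟩, ⟨0, 1, 7, 3, 0, 1⟩, ⟨3, 0, 9, 2, 0, 2⟩, ⟨5, 1, 11, 1, 0, 1⟩,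
  ⟨6, 0, 14, 0, 0, 1⟩, ⟨2, 0, 16, 0, 0, 1⟩], [⟨1, 2, 3, 4, 0, 1⟩, ⟨4, 1, 5, 3, 0, 2⟩,
  ⟨0, 1, 7, 3, 0, 1⟩, ⟨0, 2, 10, 2, 0, 2⟩, ⟨6, 0, 14, 0, 0, 1⟩, ⟨1, 1, 13, 1, 0, 1⟩,
  ⟨2, 0, 16, 0, 0, 1⟩, ⟨0, 0, 17, 0, 0, 2⟩], [⟨9, 0, 6, 2, 0, 1⟩, ⟨7, 0, 7, 2, 0, 2⟩,
  ⟨5, 0, 8, 2, 0, 1⟩, ⟨3, 0, 9, 2, 0, 2⟩, ⟨5, 1, 11, 1, 0, 2⟩, ⟨2, 0, 16, 0, 0, 2⟩,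
  ⟨0, 0, 17, 0, 0, 2⟩], [⟨3, 2, 5, 0, 1, 1⟩, ⟨10, 2, 5, 1, 0, 2⟩, ⟨4, 1, 5, 3, 0, 2⟩,
  ⟨7, 0, 7, 2, 0, 2⟩, ⟨5, 0, 8, 2, 0, 2⟩, ⟨3, 0, 9, 2, 0, 1⟩, ⟨6, 0, 14, 0, 0, 1⟩,
  ⟨2, 0, 16, 0, 0, 1⟩, ⟨0, 0, 17, 0, 0, 1⟩], [⟨3, 2, 2, 4, 0, 1⟩, ⟨5, 1, 11, 1, 0, 2⟩],
  [⟨18, 2, 5, 0, 0, 1⟩, ⟨10, 2, 5, 1, 0, 2⟩], [⟨15, 0, 6, 0, 0, 1⟩, ⟨2, 0, 3, 4, 0, 1⟩,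
  ⟨2, 0, 6, 0, 1, 2⟩, ⟨0, 0, 4, 4, 0, 2⟩, ⟨0, 0, 7, 0, 1, 1⟩, ⟨10, 2, 5, 1, 0, 1⟩,
  ⟨0, 1, 7, 3, 0, 2⟩, ⟨3, 0, 9, 2, 0, 2⟩, ⟨1, 0, 10, 2, 0, 2⟩, ⟨0, 2, 10, 2, 0, 2⟩,
  ⟨6, 0, 14, 0, 0, 2⟩, ⟨1, 1, 13, 1, 0, 1⟩, ⟨2, 0, 16, 0, 0, 1⟩, ⟨0, 0, 17, 0, 0, 2⟩],
  [⟨23, 0, 4, 0, 0, 1⟩, ⟨24, 0, 4, 0, 0, 1⟩, ⟨6, 0, 1, 4, 0, 2⟩, ⟨6, 0, 4, 0, 1, 1⟩,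
  ⟨19, 0, 5, 0, 0, 2⟩, ⟨10, 2, 5, 1, 0, 2⟩, ⟨4, 1, 5, 3, 0, 2⟩, ⟨7, 0, 7, 2, 0, 1⟩,
  ⟨5, 1, 11, 1, 0, 1⟩, ⟨6, 0, 14, 0, 0, 1⟩, ⟨2, 0, 16, 0, 0, 2⟩, ⟨0, 0, 17, 0, 0, 2⟩],
  [⟨21, 0, 1, 1, 0, 2⟩, ⟨33, 0, 2, 0, 0, 2⟩, ⟨34, 1, 1, 0, 0, 1⟩, ⟨20, 1, 1, 1, 0, 2⟩,
  ⟨25, 2, 0, 1, 0, 2⟩, ⟨14, 0, 3, 1, 0, 1⟩, ⟨18, 1, 2, 1, 0, 1⟩, ⟨10, 1, 2, 2, 0, 2⟩,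
  ⟨13, 0, 4, 1, 0, 2⟩, ⟨19, 0, 5, 0, 0, 2⟩, ⟨11, 0, 5, 1, 0, 2⟩, ⟨10, 2, 5, 1, 0, 2⟩,
  ⟨4, 1, 5, 3, 0, 1⟩, ⟨7, 0, 7, 2, 0, 2⟩, ⟨5, 0, 8, 2, 0, 2⟩, ⟨3, 0, 9, 2, 0, 2⟩,
  ⟨5, 1, 11, 1, 0, 1⟩, ⟨6, 0, 14, 0, 0, 1⟩]]

/-- the family of all classes of stem 322 -/
noncomputable def o322 (m : List Tr) : WJ := WJ.nm eJ 10 83 [(0, 0)] [(3, 3)] m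

theorem a322 : grd (eJ.geF 10 83 [(0, 0)] [(3, 3)] [(0, 0)] [(1, 1), (0, 4)] [])
    (eJ.geF 10 83 [(1, 1), (0, 4)] [(4, 4), (3, 7)] [(0, 0)] [(3, 3)]
      (List.append [k322L] l322L)) = true := by
  decide +kernel

theorem b322 : WJ.lfK eJ 14 89 [(0, 0)] [(3, 3)]
    (fun m => ((o322 m).cbm eJ 90 10).cbm eJ 90 12) [k322L] l322L [] = true := by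
  decide +kernel

theorem c322 : WJ.lfM eJ 10 83 [(0, 0)] [(3, 3)] o322 [] [] = true := by
  decide +kernel

theorem d322 : eJ.htAF 10 83 0 66 = true := by
  decide +kernel

end Vale.Agent.P236SY
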