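import Vale.Agent.P236SY.Syn

/-!
# P236, synthetic calculus: bidegrees and long exact sequences
-/

open CategoryTheory Limits

universe v u

namespace Vale.Agent.P236SY

open GData Vale.Agent.P251.S

namespace TD

variable {O : Type u} {D : GData.{v} O} (E : TD D)

/-- `x` is homogeneous of stem `n` and filtration `s`. -/
def Dg (n s : ℤ) {X Y : E.Syn} (x : X ⟶ Y) : Prop :=
  ∃ g : X.obj ⟶ E.K.B s.toNat Y.obj, Deg (-n) g ∧ x = E.cl s le_rfl g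

section Dg

variable {E} {X Y Z : E.Syn} {n m l s t u : ℤ}

theorem dg_cl {V W : D.Cat} (i : ℤ) {k : ℕ} (h : i.toNat ≤ k) {g : V ⟶ E.K.B k W}
    (hg : Deg (-n) g) : E.Dg n i (E.cl i h g) :=
  ⟨g ≫ E.dr h W, hg.comp (E.deg_dr h W) (add_zero _), (E.cl_dr i le_rfl h g).symm⟩

theorem Dg.exists {x : X ⟶ Y} (hx : E.Dg n s x) (k : ℕ) (hk : s.toNat = k) :
    ∃ g : X.obj ⟶ E.K.B k Y.obj, Deg (-n) g ∧ x = E.cl s hk.le g := by
  subst hk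
  exact hx

theorem Dg.fil {x : X ⟶ Y} (hx : E.Dg n s x) : Deg s x := by
  obtain ⟨g, -, rfl⟩ := hx
  exact E.deg_cl _ _ _

theorem dg_zero (n s : ℤ) : E.Dg n s (0 : X ⟶ Y) := ⟨0, deg_zero _, (map_zero _).symm⟩

theorem Dg.add {x y : X ⟶ Y} (hx : E.Dg n s x) (hy : E.Dg n s y) : E.Dg n s (x + y) := by
  obtain ⟨g, hg, rfl⟩ := hx
  obtain ⟨g', hg', rfl⟩ := hy
  exact ⟨g + g', hg.add hg', (map_add _ _ _).symm⟩

theorem Dg.neg {x : X ⟶ Y} (hx : E.Dg n s x) : E.Dg n s (-x) := by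
  obtain ⟨g, hg, rfl⟩ := hx
  exact ⟨-g, hg.neg, (map_neg _ _).symm⟩

theorem Dg.sub {x y : X ⟶ Y} (hx : E.Dg n s x) (hy : E.Dg n s y) : E.Dg n s (x - y) := by
  rw [sub_eq_add_neg]
  exact hx.add hy.neg

theorem Dg.zsmul {x : X ⟶ Y} (hx : E.Dg n s x) (c : ℤ) : E.Dg n s (c • x) := by
  obtain ⟨g, hg, rfl⟩ := hx
  exact ⟨c • g, hg.zsmul c, (map_zsmul _ _ _).symm⟩

theorem Dg.usmul {x : X ⟶ Y} (hx : E.Dg n s x) (c : ℤˣ) : E.Dg n s (c • x) := hx.zsmul c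

theorem Dg.sum {ι : Type*} (S : Finset ι) {f : ι → (X ⟶ Y)} (hf : ∀ a ∈ S, E.Dg n s (f a)) :
    E.Dg n s (∑ a ∈ S, f a) :=
  Finset.sum_induction f (E.Dg n s) (fun _ _ => Dg.add) (dg_zero n s) hf

theorem Dg.cast {x : X ⟶ Y} (hx : E.Dg n s x) (h : n = m) (h' : s = t) : E.Dg m t x :=
  h ▸ h' ▸ hx

theorem Dg.comp {x : X ⟶ Y} {y : Y ⟶ Z} (hx : E.Dg n s x) (hy : E.Dg m t y) (h : n + m = l)
    (h' : s + t = u) : E.Dg l u (x ≫ y) := by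
  obtain ⟨g, hg, rfl⟩ := hx
  obtain ⟨g', hg', rfl⟩ := hy
  rw [E.cl_comp h' le_rfl le_rfl (by omega)]
  exact dg_cl _ _ (hg.comp ((deg_Fm _ hg').comp (E.deg_ad _ _ _) rfl) (by omega))

theorem dg_ι {V W : D.Cat} {f : V ⟶ W} (hf : Deg (-n) f) : E.Dg n 0 (E.ι f) :=
  dg_cl (k := 0) 0 le_rfl hf

theorem dg_id (X : E.Syn) : E.Dg 0 0 (𝟙 X) := by
  rw [← E.ι_id X.obj]
  exact dg_ι (deg_id _)

theorem dg_τ (X : E.Syn) : E.Dg 0 (-1) (E.τ X) := dg_cl (k := 0) (-1) le_rfl (deg_id _)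

theorem Dg.τ {x : X ⟶ Y} (hx : E.Dg n s x) (h : s - 1 = t) : E.Dg n t (x ≫ E.τ Y) :=
  hx.comp (dg_τ Y) (add_zero n) (by omega)

theorem Dg.exists_ι {x : X ⟶ Y} (hx : E.Dg n 0 x) :
    ∃ f : X.obj ⟶ Y.obj, Deg (-n) f ∧ x = E.ι f := hx.exists 0 rfl

@[elab_as_elim]
theorem dg_ind {p : (X ⟶ Y) → Prop} (x : X ⟶ Y) (h0 : p 0)
    (h1 : ∀ n s g, E.Dg n s g → p g) (h2 : ∀ a b, p a → p b → p (a + b)) : p x := by
  refine ind x h0 (fun s y hy => ?_) h2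
  obtain ⟨g, rfl⟩ := E.exists_cl (V := X.obj) (Z := Y.obj) hy
  refine ind g (by rw [map_zero]; exact h0) (fun a g hg => h1 (-a) s _ ?_)
    (fun a b ha hb => by rw [map_add]; exact h2 _ _ ha hb)
  exact dg_cl _ _ (by rwa [neg_neg])

/-- In filtrations at most one, `τ` is injective. -/
theorem Dg.τ_inj {x : X ⟶ Y} (hx : E.Dg n s x) (hs : s ≤ 1) (h : x ≫ E.τ Y = 0) : x = 0 := by
  obtain ⟨g, -, rfl⟩ := hx
  rw [E.cl_τ rfl le_rfl (by omega), E.cl_eq_zero _ (Nat.zero_le _) (by omega)] at h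
  exact (E.cl_eq_zero _ (Nat.zero_le _) (by omega)).2 h

/-- In negative filtrations, `τ` is surjective. -/
theorem Dg.τ_surj {x : X ⟶ Y} (hx : E.Dg n s x) (hs : s < 0) :
    ∃ y, E.Dg n (s + 1) y ∧ x = y ≫ E.τ Y := by
  obtain ⟨g, hg, rfl⟩ := hx.exists 0 (by omega)
  exact ⟨E.cl (s + 1) (by omega) g, dg_cl _ _ hg, (E.cl_τ (by omega) _ _ g).symm⟩

end Dg

/-- The powers of `τ`. -/
def tp : ℕ → ∀ X : E.Syn, X ⟶ X
  | 0, X => 𝟙 X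
  | k + 1, X => tp k X ≫ E.τ X

@[simp] theorem tp_zero (X : E.Syn) : E.tp 0 X = 𝟙 X := rfl

theorem tp_succ (k : ℕ) (X : E.Syn) : E.tp (k + 1) X = E.tp k X ≫ E.τ X := rfl

@[reassoc]
theorem tp_comm (k : ℕ) {X Y : E.Syn} (x : X ⟶ Y) : E.tp k X ≫ x = x ≫ E.tp k Y := by
  induction k with
  | zero => simp
  | succ k ih => rw [tp_succ, tp_succ, Category.assoc, τ_comm, reassoc_of% ih]

theorem tp_add (k l : ℕ) (X : E.Syn) : E.tp (k + l) X = E.tp k X ≫ E.tp l X := by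
  induction l with
  | zero => simp
  | succ l ih => rw [← add_assoc, tp_succ, ih, tp_succ, Category.assoc]

theorem dg_tp (k : ℕ) (X : E.Syn) : E.Dg 0 (-k) (E.tp k X) := by
  induction k with
  | zero => exact dg_id X
  | succ k ih => exact ih.τ (by push_cast; ring)

theorem cl_tp (k : ℕ) {V Z : D.Cat} {i j : ℤ} (e : i - k = j) {s : ℕ} (h : i.toNat ≤ s)
    (h' : j.toNat ≤ s) (x : V ⟶ E.K.B s Z) : E.cl i h x ≫ E.tp k _ = E.cl j h' x := by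
  induction k generalizing j with
  | zero =>
    obtain rfl : i = j := by omega
    exact Category.comp_id _
  | succ k ih =>
    rw [tp_succ, ← Category.assoc, ih rfl (by omega),
      E.cl_τ (show i - k - 1 = j by push_cast at e; omega)]

/-- The synthetic morphism of filtration one represented by `h : Z ⟶ G X`. -/
def up {Z X : D.Cat} : (Z ⟶ E.K.G.obj X) →+ (E.so Z ⟶ E.so X) :=
  E.cl (Z := X) 1 (s := 1) le_rfl

theorem up_eq {Z X : D.Cat} (h : Z ⟶ E.K.G.obj X) :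
    E.up h = E.cl (Z := X) 1 (s := 1) le_rfl h := rfl

theorem up_τ {Z X : D.Cat} (h : Z ⟶ E.K.G.obj X) : E.up h ≫ E.τ _ = E.ι (h ≫ E.ε X) := by
  rw [up_eq, E.cl_τ (j := 0) (s := 1) rfl le_rfl (Nat.zero_le 1), ι_eq]
  exact (E.cl_oc (s := 0) 0 le_rfl h).symm

theorem dg_up {Z X : D.Cat} {n : ℤ} {h : Z ⟶ E.K.G.obj X} (hh : Deg (-n) h) :
    E.Dg n 1 (E.up h) := dg_cl (k := 1) 1 le_rfl hh

variable {E} in
theorem Dg.exists_up {X Y : E.Syn} {n : ℤ} {x : X ⟶ Y} (hx : E.Dg n 1 x) :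
    ∃ h : X.obj ⟶ E.K.G.obj Y.obj, Deg (-n) h ∧ x = E.up h := hx.exists 1 rfl

theorem cl_up {V Z X : D.Cat} {i j : ℤ} (e : i + 1 = j) {s : ℕ} (h : i.toNat ≤ s)
    (h' : j.toNat ≤ s + 1) (x : V ⟶ E.K.B s Z) (k : Z ⟶ E.K.G.obj X) :
    E.cl i h x ≫ E.up k = E.cl (Z := X) j (s := s + 1) h' (x ≫ E.Fm s k) := by
  rw [up_eq, E.cl_comp (t := 1) e h le_rfl h']
  exact congrArg (fun z => E.cl (Z := X) j (s := s + 1) h' (x ≫ z)) (Category.comp_id _)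

theorem cl_eq_zero_in {V Z : D.Cat} {i : ℤ} {s : ℕ} (e : i = s + 1) (h : i.toNat ≤ s + 1)
    {x : V ⟶ E.K.B (s + 1) Z} : E.cl i h x = 0 ↔ x ≫ E.Fm s (E.ε Z) = 0 := by
  rw [E.cl_eq_zero h (Nat.le_succ s) (by omega), dr_one]
  exact ⟨E.in_of_oc x, E.oc_of_in x⟩

theorem cl_eq_zero_oc {V Z : D.Cat} {i : ℤ} {s : ℕ} (e : i = s + 1) (h : i.toNat ≤ s + 1)
    {x : V ⟶ E.K.B (s + 1) Z} : E.cl i h x = 0 ↔ x ≫ E.oc s Z = 0 := by
  rw [E.cl_eq_zero h (Nat.le_succ s) (by omega), dr_one]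

theorem cl_eq_zero_neg {V Z : D.Cat} {i : ℤ} (e : i ≤ 0) (h : i.toNat ≤ 0)
    {x : V ⟶ E.K.B 0 Z} : E.cl i h x = 0 ↔ x = 0 := by
  rw [E.cl_eq_zero h le_rfl (by omega), dr_self, Category.comp_id]

/-- A split triangle: the third map has a lift `k` of filtration one. `a`, `b`, `c` are the
stems. -/
structure STri (a b c : ℤ) {X Y Z : E.Syn} (f : X ⟶ Y) (g : Y ⟶ Z) (k : Z ⟶ X) : Prop where
  ex : ∃ (f₀ : X.obj ⟶ Y.obj) (g₀ : Y.obj ⟶ Z.obj) (k₀ : Z.obj ⟶ E.K.G.obj X.obj),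
    E.Tri f₀ g₀ (k₀ ≫ E.ε X.obj) ∧ Deg (-a) f₀ ∧ Deg (-b) g₀ ∧ Deg (-c) k₀ ∧
      f = E.ι f₀ ∧ g = E.ι g₀ ∧ k = E.up k₀

namespace STri

variable {E} {a b c : ℤ} {X Y Z : E.Syn} {f : X ⟶ Y} {g : Y ⟶ Z} {k : Z ⟶ X}
  (H : E.STri a b c f g k)
include H

theorem dg₁ : E.Dg a 0 f := by
  obtain ⟨f₀, g₀, k₀, -, hf, -, -, rfl, -, -⟩ := H.ex
  exact dg_ι hf

theorem dg₂ : E.Dg b 0 g := by
  obtain ⟨f₀, g₀, k₀, -, -, hg, -, -, rfl, -⟩ := H.ex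
  exact dg_ι hg

theorem dg₃ : E.Dg c 1 k := by
  obtain ⟨f₀, g₀, k₀, -, -, -, hk, -, -, rfl⟩ := H.ex
  exact E.dg_up hk

theorem zero₁ : f ≫ g = 0 := by
  obtain ⟨f₀, g₀, k₀, W, -, -, -, rfl, rfl, -⟩ := H.ex
  rw [← ι_comp, E.tri_zero W, map_zero]

theorem zero₂ : g ≫ k = 0 := by
  obtain ⟨f₀, g₀, k₀, W, -, -, -, -, rfl, rfl⟩ := H.ex
  rw [up_eq, ι_cl]
  refine (E.cl_eq_zero_oc (s := 0) rfl _).2 ?_
  rw [Category.assoc]
  exact E.tri_zero (E.tri_rot W)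

theorem zero₃ : k ≫ f = 0 := by
  obtain ⟨f₀, g₀, k₀, W, -, -, -, rfl, -, rfl⟩ := H.ex
  rw [up_eq, cl_ι]
  refine (E.cl_eq_zero_oc (s := 0) rfl _).2 ?_
  rw [Category.assoc, oc_nat, ← Category.assoc]
  exact E.tri_zero (E.tri_rot (E.tri_rot W))

variable {P : E.Syn} {n s m t : ℤ}

/-- exactness at the middle, target variable -/
theorem co₂ {x : P ⟶ Y} (hx : E.Dg n s x) (h : x ≫ g = 0) (hm : m + a = n) :
    ∃ y, E.Dg m s y ∧ x = y ≫ f := by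
  obtain ⟨f₀, g₀, k₀, W, hf, hg, hk, rfl, rfl, rfl⟩ := H.ex
  rcases le_or_gt s 0 with hs | hs
  · obtain ⟨x, dx, rfl⟩ := hx.exists 0 (by omega)
    rw [cl_ι, E.cl_eq_zero_neg hs] at h
    obtain ⟨y, hy⟩ := E.tri_co W x h
    obtain ⟨y, dy, rfl⟩ := dx.left hf hy (show -m + -a = -n by omega)
    exact ⟨E.cl (s := 0) s (by omega) y, dg_cl _ _ dy, by rw [cl_ι]; rfl⟩
  · obtain ⟨r, rfl⟩ : ∃ r : ℕ, s = r + 1 := ⟨(s - 1).toNat, by omega⟩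
    obtain ⟨x, dx, rfl⟩ := hx.exists (r + 1) (by omega)
    rw [cl_ι, E.cl_eq_zero_oc rfl, Category.assoc, oc_nat, ← Category.assoc] at h
    obtain ⟨y, hy⟩ := E.tri_co (tri_Fm r W) _ h
    have h1 : (y ≫ E.K.un _) ≫ E.K.M.map (E.Fm r f₀) = 0 := by
      rw [Category.assoc, ← E.K.un_nat, ← reassoc_of% hy, oc_un, comp_zero]
    obtain ⟨w, hw⟩ := E.tri_co (E.tri_rot (E.tri_rot (E.tri_M (tri_Fm r W)))) _ h1
    rw [Fm_comp, Functor.map_comp, M_Fm_ε, comp_zero, comp_zero] at hw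
    obtain ⟨y, rfl⟩ := E.exists_oc y hw
    rw [Category.assoc, ← oc_nat] at hy
    obtain ⟨y, dy, hy⟩ := (dx.comp (E.deg_oc _ _) (add_zero _)).left
      ((deg_Fm (r + 1) hf).comp (E.deg_oc _ _) (add_zero _)) hy (show -m + -a = -n by omega)
    refine ⟨E.cl (s := r + 1) _ (by omega) y, dg_cl _ _ dy, ?_⟩
    rw [cl_ι, ← sub_eq_zero, ← map_sub, E.cl_eq_zero_oc rfl, Preadditive.sub_comp, hy,
      Category.assoc, sub_self]

/-- exactness at the third object, target variable -/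
theorem co₃ {x : P ⟶ Z} (hx : E.Dg n s x) (h : x ≫ k = 0) (hm : m + b = n) :
    ∃ y, E.Dg m s y ∧ x = y ≫ g := by
  obtain ⟨f₀, g₀, k₀, W, hf, hg, hk, rfl, rfl, rfl⟩ := H.ex
  obtain ⟨x, dx, rfl⟩ := hx
  rw [E.cl_up rfl le_rfl (by omega)] at h
  have h1 : x ≫ E.Fm s.toNat (k₀ ≫ E.ε _) = 0 := by
    rcases lt_or_ge s 0 with hs | hs
    · obtain ⟨r, hr⟩ : ∃ r, r = s.toNat := ⟨_, rfl⟩
      have h2 := (E.cl_eq_zero _ (Nat.le_succ _) (by omega)).1 h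
      rw [dr_one] at h2
      rw [Fm_comp, ← Category.assoc]
      exact E.in_of_oc _ h2
    · rw [E.cl_eq_zero_in (by omega)] at h
      rw [Fm_comp, ← Category.assoc, h]
  obtain ⟨y, hy⟩ := E.tri_co (tri_Fm _ (E.tri_rot W)) x h1
  obtain ⟨y, dy, rfl⟩ := dx.left (deg_Fm _ hg) hy (show -m + -b = -n by omega)
  exact ⟨E.cl s le_rfl y, dg_cl _ _ dy, by rw [cl_ι]⟩

/-- exactness at the first object, target variable -/
theorem co₁ {x : P ⟶ X} (hx : E.Dg n s x) (h : x ≫ f = 0) (hm : m + c = n) (ht : t + 1 = s) :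
    ∃ y, E.Dg m t y ∧ x = y ≫ k := by
  obtain ⟨f₀, g₀, k₀, W, hf, hg, hk, rfl, rfl, rfl⟩ := H.ex
  have H' := E.tri_rot (E.tri_rot W)
  have dk := hk.comp (E.deg_ε _) (add_zero _)
  rcases le_or_gt s 0 with hs | hs
  · obtain ⟨x, dx, rfl⟩ := hx.exists 0 (by omega)
    rw [cl_ι, E.cl_eq_zero_neg hs] at h
    obtain ⟨y, hy⟩ := E.tri_co H' x h
    obtain ⟨y, dy, rfl⟩ := dx.left dk hy (show -m + -c = -n by omega)
    refine ⟨E.cl (s := 0) t (by omega) y, dg_cl _ _ dy, ?_⟩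
    rw [E.cl_up ht _ (by omega), ← E.cl_oc (s := 0) s (by omega), Category.assoc]
    rfl
  · obtain ⟨r, rfl⟩ : ∃ r : ℕ, s = r + 1 := ⟨(s - 1).toNat, by omega⟩
    obtain ⟨x, dx, rfl⟩ := hx.exists (r + 1) (by omega)
    rw [cl_ι, E.cl_eq_zero_in rfl, Category.assoc, Fm_succ, ← Fm_comp, E.ε_nat, Fm_comp,
      ← Category.assoc] at h
    obtain ⟨y, hy⟩ := E.tri_co (tri_Fm r H') _ h
    obtain ⟨y, dy, hy⟩ := (dx.comp (deg_Fm r (E.deg_ε _)) (add_zero _)).left (deg_Fm r dk) hy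
      (show -m + -c = -n by omega)
    refine ⟨E.cl (s := r) t (by omega) y, dg_cl _ _ dy, ?_⟩
    rw [E.cl_up ht _ (by omega), ← sub_eq_zero, ← map_sub, E.cl_eq_zero_in rfl,
      Preadditive.sub_comp, hy, Fm_comp, Category.assoc, sub_self]

/-- exactness at the middle, source variable -/
theorem yo₂ {x : Y ⟶ P} (hx : E.Dg n s x) (h : f ≫ x = 0) (hm : b + m = n) :
    ∃ y, E.Dg m s y ∧ x = g ≫ y := by
  obtain ⟨f₀, g₀, k₀, W, hf, hg, hk, rfl, rfl, rfl⟩ := H.ex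
  rcases le_or_gt s 0 with hs | hs
  · obtain ⟨x, dx, rfl⟩ := hx.exists 0 (by omega)
    rw [ι_cl, E.cl_eq_zero_neg hs] at h
    obtain ⟨y, hy⟩ := E.tri_yo W x h
    obtain ⟨y, dy, rfl⟩ := dx.right hg hy (show -b + -m = -n by omega)
    exact ⟨E.cl (s := 0) s (by omega) y, dg_cl _ _ dy, by rw [ι_cl]⟩
  · obtain ⟨r, rfl⟩ : ∃ r : ℕ, s = r + 1 := ⟨(s - 1).toNat, by omega⟩
    obtain ⟨x, dx, rfl⟩ := hx.exists (r + 1) (by omega)
    rw [ι_cl, E.cl_eq_zero_oc rfl, Category.assoc] at h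
    obtain ⟨y, hy⟩ := E.tri_yo W _ h
    obtain ⟨w, hw⟩ := E.tri_yo (E.tri_rot W) (y ≫ E.K.un _)
      (by rw [← reassoc_of% hy, oc_un, comp_zero])
    rw [Category.assoc, ← E.ε_nat, ε_M, comp_zero, comp_zero] at hw
    obtain ⟨y, rfl⟩ := E.exists_oc y hw
    rw [← Category.assoc] at hy
    have h2 : pr (-n) (g₀ ≫ y) = g₀ ≫ pr (-m) y := comp_pr hg y (by omega)
    have h3 := congrArg (pr (-n)) hy
    rw [pr_comp _ (E.deg_oc _ _) (add_zero _), pr_comp _ (E.deg_oc _ _) (add_zero _), h2,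
      dx.pr_self] at h3
    refine ⟨E.cl (s := r + 1) _ (by omega) (pr (-m) y), dg_cl _ _ (deg_pr _ _), ?_⟩
    rw [ι_cl, ← sub_eq_zero, ← map_sub, E.cl_eq_zero_oc rfl, Preadditive.sub_comp, h3, sub_self]

/-- exactness at the first object, source variable -/
theorem yo₁ {x : X ⟶ P} (hx : E.Dg n s x) (h : k ≫ x = 0) (hm : a + m = n) :
    ∃ y, E.Dg m s y ∧ x = f ≫ y := by
  obtain ⟨f₀, g₀, k₀, W, hf, hg, hk, rfl, rfl, rfl⟩ := H.ex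
  obtain ⟨x, dx, rfl⟩ := hx
  rw [up_eq, E.cl_comp (s := 1) rfl le_rfl le_rfl (by omega)] at h
  have h1 : (k₀ ≫ E.ε _) ≫ x = 0 := by
    have h2 : (k₀ ≫ E.Fm 1 x ≫ E.ad 1 _ _) ≫ E.dr (show 0 + s.toNat ≤ 1 + s.toNat by omega) _
        = 0 := by
      rcases lt_or_ge s 0 with hs | hs
      · exact (E.cl_eq_zero _ _ (by omega)).1 h
      · exact (E.cl_eq_zero _ _ (by omega)).1 h
    rw [Category.assoc, Category.assoc, ← E.oc_ad 0, oc_nat_assoc] at h2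
    rw [← cancel_mono (E.ad 0 s.toNat P.obj), zero_comp, ← h2, Category.assoc, Category.assoc]
    rfl
  obtain ⟨y, hy⟩ := E.tri_yo (E.tri_rot (E.tri_rot W)) x h1
  obtain ⟨y, dy, rfl⟩ := dx.right hf hy (show -a + -m = -n by omega)
  exact ⟨E.cl s le_rfl y, dg_cl _ _ dy, by rw [ι_cl]⟩

/-- exactness at the third object, source variable -/
theorem yo₃ {x : Z ⟶ P} (hx : E.Dg n s x) (h : g ≫ x = 0) (hm : c + m = n) (ht : 1 + t = s) :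
    ∃ y, E.Dg m t y ∧ x = k ≫ y := by
  obtain ⟨f₀, g₀, k₀, W, hf, hg, hk, rfl, rfl, rfl⟩ := H.ex
  have dk := hk.comp (E.deg_ε _) (add_zero _)
  obtain ⟨r, hr⟩ : ∃ r : ℕ, r = s.toNat - 1 := ⟨_, rfl⟩
  obtain ⟨x, dx, rfl⟩ := hx
  rw [ι_cl, E.cl_eq_zero _ (show r ≤ s.toNat by omega) hr, Category.assoc] at h
  obtain ⟨y, hy⟩ := E.tri_yo (E.tri_rot W) _ h
  obtain ⟨y, dy, hy⟩ := (dx.comp (E.deg_dr _ _) (add_zero _)).right dk hy
    (show -c + -m = -n by omega)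
  refine ⟨E.cl (s := r) t (by omega) y, dg_cl _ _ dy, ?_⟩
  rw [up_eq, E.cl_comp (s := 1) ht le_rfl _ (by omega)]
  refine E.cl_congr _ _ (show r ≤ s.toNat by omega) (show r ≤ 1 + r by omega) hr.ge ?_
  rw [hy, Category.assoc, Category.assoc, Category.assoc,
    ← E.dr_dr (show 0 + r ≤ 1 + r by omega) (show r ≤ 0 + r by omega), ← E.oc_ad_assoc 0,
    oc_nat_assoc, E.zero_ad r (by omega), dr_dr, dr_self, Category.comp_id]
  rfl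

end STri

end TD

end Vale.Agent.P236SY
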