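import Vale.Agent.P236SY.Dict
import Vale.Agent.P236EL.Line
import Vale.Agent.P251.F.T1Coc

/-!
# P236, synthetic calculus: the cohomology in weight one, and the coactions of `C α` and `Y`
-/

namespace Vale.Agent.P236SY

open Vale.Agent.P251 Vale.Agent.P251.F Vale.Agent.P251.I Vale.Agent.P236EL
open Vale.Agent.P257.H80 (PLoc)

/-- the class `v_1` -/
noncomputable def v1 : Cob Laz 0 := MvPolynomial.C (Laz.v 3 1)

theorem isWt_v1 : Cob.IsWt 2 v1 := isWt_v 3 1 (by norm_num) 0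

variable {t : Cob Laz 1}

theorem wt_t (ht : IsT1 3 t) : Cob.IsWt 2 t := by
  simpa using (BCocycle 3 (by norm_num) t ht).1

theorem d_t (ht : IsT1 3 t) : Cob.d 1 t = 0 :=
  (BCocycle 3 (by norm_num) t ht).2.1

theorem d_v1 (ht : IsT1 3 t) : Cob.d 0 v1 = 3 • t := ht.symm.trans (natCast_zsmul t 3)

theorem d_sq (hd : Cob.d 1 t = 0) : Cob.d 1 (t ^ 2) = -(2 * Cob.cup t t) := by
  have h1 : Cob.front 1 1 = Fin.succAbove (2 : Fin 3) := funext fun i => by fin_cases i <;> rfl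
  have h2 : Cob.back 1 1 = Fin.succAbove (0 : Fin 3) := funext fun i => by fin_cases i <;> rfl
  rw [Cob.d_apply, Fin.sum_univ_three] at hd ⊢
  rw [Cob.cup, h1, h2]
  simp only [Fin.val_zero, pow_zero, one_smul, Fin.val_one, pow_one, neg_smul, Fin.val_two,
    even_two, Even.neg_pow, one_pow, map_pow] at hd ⊢
  linear_combination (Cob.map (Fin.succAbove (0 : Fin 3)) t + Cob.map (Fin.succAbove 1) t +
    Cob.map (Fin.succAbove 2) t) * hd

theorem wa_one {L : Type} [CommRing L] {g : AA L} (hg : g ∈ WA 3 L 1) :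
    g = MvPolynomial.coeff (Finsupp.single 0 1) g • MvPolynomial.X 0 := by
  ext E
  rw [MvPolynomial.coeff_smul, MvPolynomial.coeff_X]
  split_ifs with h
  · rw [h, smul_eq_mul, mul_one]
  · by_contra h0
    rw [smul_zero] at h0
    have h1 : Finsupp.weight (wt 3) E = 1 := by
      exact_mod_cast (weight_cast (wt 3) E).symm.trans (hg h0)
    have h2 : ∀ i, E (i + 1) = 0 := fun i => by
      by_contra h3
      have h4 := Finsupp.le_weight_of_ne_zero (w := wt 3) (fun _ => Nat.zero_le _) h3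
      have h5 : ∀ j, 1 ≤ wt 3 j := fun j => by cases j <;> simp [wt]
      have h6 := h5 i
      simp only [wt] at h4
      omega
    have h3 : E = Finsupp.single 0 (E 0) := Finsupp.ext fun i => by cases i <;> simp [h2]
    rw [h3, Finsupp.weight_single] at h1
    exact h (by rw [h3, show E 0 = 1 by simpa [wt] using h1])

theorem p3 : PLoc 3 (ZMod 3) := ploc_zmod_one Nat.prime_three

theorem exists_rs_v1 {u : Cob Laz 0} (hu : Cob.IsWt 2 u) :
    ∃ b : ℤ, rs p3 0 u = rs p3 0 (b • v1) := by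
  have h1 := pt_cst_ev (rs_mem_Loc p3 0 u)
  have h2 := wa_one (grCh_cst.ev (rs_mem_WC p3 (w := 1) (by simpa using hu)))
  obtain ⟨b, hb⟩ := ZMod.intCast_surjective
    (MvPolynomial.coeff (Finsupp.single 0 1) ((cst (ZMod 3)).ev (rs p3 0 u)))
  refine ⟨b, ?_⟩
  rw [← h1, h2, ← hb, Int.cast_smul_eq_zsmul, map_zsmul, map_zsmul, v1, rs_v1 p3 (by decide)]

theorem rs_three {s : ℕ} (c : Cob Laz s) : rs p3 s (3 • c) = 0 := by
  rw [rs_apply, rq_eq_zero_iff.2 ⟨c, rfl⟩, map_zero]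

/-- The cocycles modulo three of degree zero and weight one. -/
theorem h0_four (ht : IsT1 3 t) {y : Cob Laz 0} (hy : Cob.IsWt 2 y) {c : Cob Laz 1}
    (h : Cob.d 0 y = 3 • c) : ∃ (a : ℤ) (u : Cob Laz 0), Cob.IsWt 2 u ∧ y = a • v1 + 3 • u := by
  obtain ⟨a, ha⟩ := exists_rs_v1 hy
  have h1 := lift_zero (rpQZ p3) (ι := Unit) mc_zero (F := fun _ => rq 3 0 (y - a • v1))
    (funext fun _ => by
      rw [DD_zero, ← Cob.mapRing_d (isLawHom_mkZ 3), map_sub, map_zsmul, h, d_v1 ht, smul_comm,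
        ← smul_sub]
      exact rq_eq_zero_iff.2 ⟨_, rfl⟩)
    fun _ => by rw [← rs_apply, map_sub, ha, sub_self]
  obtain ⟨u, hu, e⟩ := exists_wt_of_rq (hy.add (isWt_v1.zsmul a).neg)
    (by rw [← sub_eq_add_neg]; exact congrFun h1 ())
  exact ⟨a, u, hu, by rw [← e]; abel⟩

/-- The class of `t` is not zero modulo three. -/
theorem t_ne (ht : IsT1 3 t) {a : ℤ} {u : Cob Laz 0} (hu : Cob.IsWt 2 u) {c : Cob Laz 1}
    (h : a • t = Cob.d 0 u + 3 • c) : 3 ∣ a := by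
  obtain ⟨b, hb⟩ := exists_rs_v1 hu
  have h1 := congrArg (rs p3 1) h
  rw [map_add, rs_three, rs_d, hb, ← rs_d, map_zsmul (Cob.d 0), d_v1 ht, smul_comm, rs_three,
    add_zero, map_zsmul, rs_t1 p3 (by decide) ht] at h1
  have h2 := congrArg (MvPolynomial.coeff (Finsupp.single (Sum.inr (0, 0)) 1)) h1
  refine (ZMod.intCast_zmod_eq_zero_iff_dvd a 3).1 ?_
  simpa [Ch.arr, Ch.univ, ← Int.cast_smul_eq_zsmul (ZMod 3) a] using h2

theorem v1_ne (ht : IsT1 3 t) {a : ℤ} {u : Cob Laz 0} (hu : Cob.IsWt 2 u) (h : a • v1 = 3 • u) :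
    3 ∣ a := by
  refine t_ne ht hu (c := 0) (Cob.eq_of_smul (m := 3) (by norm_num) ?_)
  rw [smul_zero, add_zero, ← map_zsmul, ofNat_zsmul u, ← h, map_zsmul, d_v1 ht, smul_comm,
    ofNat_zsmul]

section sphere

variable {J : Type} [Fintype J] [Unique J]

omit [Fintype J] [Unique J] in
theorem cw_sph {s : ℕ} {w : ℤ} {z : Cob Laz s} (hz : Cob.IsWt (2 * w) z) :
    (fun _ : J => z) ∈ CW 3 Laz (fun _ => 0) w s := mem_CW.2 fun _ => by simpa using hz

omit [Unique J] in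
theorem cy_v1 (ht : IsT1 3 t) : Cy (fun _ : J => 0) 0 0 1 3 fun _ => v1 :=
  cy_iff.2 ⟨cw_sph isWt_v1, fun _ => t, cw_sph (wt_t ht), funext fun _ => by
    rw [DD_zero, d_v1 ht]; rfl⟩

theorem span_v1 (ht : IsT1 3 t) {F : J → Cob Laz 0} (hF : Cy (fun _ => 0) 0 0 1 3 F) :
    ∃ a : ℤ, By (fun _ => 0) 0 0 1 3 (F - a • fun _ => v1) := by
  obtain ⟨h1, c, -, h2⟩ := cy_iff.1 hF
  obtain ⟨a, u, hu, e⟩ := h0_four ht (by simpa using mem_CW.1 h1 default)
    ((DD_zero F default).symm.trans (congrFun h2 default))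
  exact ⟨a, by_iff.2 ⟨0, zero_mem _, fun _ => u, cw_sph hu, funext fun j => by
    rw [Subsingleton.elim j default, Pi.sub_apply, e]; simp⟩⟩

theorem dvd_of_by_t (ht : IsT1 3 t) {a : ℤ} (h : By (fun _ : J => 0) 0 1 1 3 (a • fun _ => t)) :
    3 ∣ a := by
  obtain ⟨_, ⟨y, hy, rfl⟩, u, -, e⟩ := by_iff.1 h
  exact t_ne ht (by simpa using mem_CW.1 hy default)
    ((congrFun e default).trans (congrArg (· + _) (DD_zero y default)))

theorem dvd_of_by_v1 (ht : IsT1 3 t) {a : ℤ}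
    (h : By (fun _ : J => 0) 0 0 1 3 (a • fun _ => v1)) : 3 ∣ a := by
  obtain ⟨_, rfl, u, hu, e⟩ := by_iff.1 h
  exact v1_ne ht (by simpa using mem_CW.1 hu default) ((congrFun e default).trans (zero_add _))

theorem by_of_nine (ht : IsT1 3 t) {F : J → Cob Laz 0} (hF : Cy (fun _ => 0) 0 0 1 (3 ^ 2) F) :
    By (fun _ => 0) 0 0 1 3 F := by
  obtain ⟨h1, c, -, h2⟩ := cy_iff.1 hF
  have h3 : Cob.d 0 (F default) = 3 • 3 • c default := by
    rw [← DD_zero, h2, smul_smul]; rfl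
  obtain ⟨a, u, hu, e⟩ := h0_four ht (by simpa using mem_CW.1 h1 default) h3
  obtain ⟨b, rfl⟩ := t_ne ht (a := a) hu.neg (c := c default)
    (Cob.eq_of_smul (m := 3) (by norm_num) (by
      rw [e, map_add, map_zsmul, map_nsmul, d_v1 ht, smul_comm] at h3
      rw [map_neg, smul_add, ofNat_zsmul, ofNat_zsmul, ofNat_zsmul, ← h3, smul_neg]
      abel))
  exact by_iff.2 ⟨0, zero_mem _, fun _ => b • v1 + u, cw_sph ((isWt_v1.zsmul b).add hu),
    funext fun j => by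
      rw [Subsingleton.elim j default, e, zero_add, Pi.smul_apply, smul_add, mul_smul, ofNat_zsmul]⟩

end sphere

/-- the coaction of `C α` -/
noncomputable def θA (t : Cob Laz 1) : Fin 2 → Fin 2 → Cob Laz 1 := ![![0, 0], ![2 * t, 0]]

/-- the coaction of `Y` -/
noncomputable def θY (t : Cob Laz 1) : Fin 3 → Fin 3 → Cob Laz 1 :=
  ![![0, 0, 0], ![2 * t, 0, 0], ![2 * t ^ 2, 2 * t, 0]]

/-- the dimensions of the cells, divided by four -/
abbrev dF (n : ℕ) : Fin n → ℤ := fun c => c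

theorem d_two (z : Cob Laz 1) : Cob.d 1 (2 * z) = 2 * Cob.d 1 z := by
  rw [two_mul, two_mul, map_add]

theorem mc_A (ht : IsT1 3 t) : MC (θA t) :=
  mc_of_triangular (fun c c' => by
    fin_cases c <;> fin_cases c' <;> simp [θA, Cob.cup, d_two, d_t ht]) (fun c => c)
    fun c c' => by fin_cases c <;> fin_cases c' <;> simp [θA]

theorem mc_Y (ht : IsT1 3 t) : MC (θY t) :=
  mc_of_triangular (fun c c' => by
    fin_cases c <;> fin_cases c' <;>
      simp [θY, Cob.cup, d_two, d_t ht, d_sq (d_t ht), Fin.sum_univ_three, map_ofNat]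
    ring) (fun c => c) fun c c' => by fin_cases c <;> fin_cases c' <;> simp [θY]

theorem rq_A {Q : ℕ} (hQ : PLoc 3 (ZMod Q)) (c c' : Fin 2) :
    rq Q 1 (θA t c c') = (Ga.two 2).tht (rpQZ hQ).o (rq Q 1 t) c c' := by
  fin_cases c <;> fin_cases c' <;> simp [θA, Ga.tht, Ga.ent, Ga.two, map_ofNat]

theorem rq_Y {Q : ℕ} (hQ : PLoc 3 (ZMod Q)) (h : 2 * (2 : ZMod Q) = 2 * 2) (c c' : Fin 3) :
    rq Q 1 (θY t c c') = (Ga.three 2 2 2 h).tht (rpQZ hQ).o (rq Q 1 t) c c' := by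
  fin_cases c <;> fin_cases c' <;> simp [θY, Ga.tht, Ga.ent, Ga.three, map_ofNat]

end Vale.Agent.P236SY
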