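import Vale.Agent.P236SY.Act

/-!
# P236, synthetic calculus: the multiplication of the Moore spectrum and the Bockstein formula
-/

open CategoryTheory MonoidalCategory Limits Pretriangulated MonObj

namespace Vale.Agent.P236SY

open GData Vale.Agent.P251 Vale.Agent.P251.T Vale.Agent.P251.S Vale.Agent.P251.H Vale.Agent.P251.M
  Vale.Agent.P251.F Vale.Agent.P251.I TD Vale.Agent.P236EL
open Vale.Agent.P251.St (SHCat)

variable {T : SHCat}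

namespace Cx

variable (C : Cx T) {B V W X Y Z : T.C} {a n m s t : ℤ}

theorem pi_M (h1 : -2 ≤ a) (h2 : a ≤ -1) {f : ob (𝟙_ T.C) ⟶ ob C.M} (hf : Deg a f) : f = 0 := by
  obtain ⟨V⟩ := exists_unitCof C.D.R
  have : Fact (Nat.Prime 3) := ⟨Nat.prime_three⟩
  obtain ⟨g, hg⟩ := Deg.exists_io ((deg_ush (𝟙_ T.C) (-a)).comp hf (by omega))
  rw [← cancel_epi (ush (𝟙_ T.C) (-a)).hom, hg,
    P257.H709.pi_low C.D V (p := 3) (by norm_num) C.dist (by omega) (by omega) g, io_zero, comp_zero]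

theorem of_i {Y : Gr T.C} {f : ob C.M ⟶ Y} (hf : Deg a f) (h : io C.i ≫ f = 0) :
    ∃ g, Deg (a - 1) g ∧ f = sm 1 C.δ ≫ g := by
  obtain ⟨y, hy⟩ := (dt_of_dist C.dist).rot.yo f h
  exact hf.right (deg_sm _ _) hy (by ring)

theorem of_red {Y : Gr T.C} {f : ob (X ⊗ C.M) ⟶ Y} (hf : Deg a f) (h : io (C.red X) ≫ f = 0) :
    ∃ g, Deg (a - 1) g ∧ f = C.dl X ≫ g := by
  obtain ⟨y, hy⟩ := (C.dt_red X).rot.yo f h
  exact hf.right (C.deg_dl X) hy (by ring)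

theorem self_M {f : ob C.M ⟶ ob C.M} (hf : Deg (-1) f) : f = 0 := by
  obtain ⟨g, dg, rfl⟩ := C.of_i hf (C.pi_M (by omega) le_rfl ((deg_io _).comp hf rfl))
  rw [C.pi_M le_rfl (by omega) dg, comp_zero]

theorem exists_mu : ∃ u : C.M ⊗ C.M ⟶ C.M, C.red C.M ≫ u = 𝟙 _ ∧ (β_ _ _).hom ≫ u = u := by
  obtain ⟨y, hy⟩ := (C.dt_red C.M).yo (𝟙 _) (by
    rw [Category.comp_id, ← io_id, ← io_zsmul, C.three_M, io_zero])
  obtain ⟨y, dy, hy⟩ := (deg_id _).right (deg_io _) hy (add_zero _)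
  obtain ⟨u, rfl⟩ := Deg.exists_io dy
  have h1 : C.red C.M ≫ u = 𝟙 _ := io_inj (by rw [io_comp, ← hy, io_id])
  have h2 : C.red C.M ≫ (β_ _ _).hom ≫ u = 𝟙 _ := by
    obtain ⟨g, dg, hg⟩ := C.of_i (deg_io (C.red C.M ≫ (β_ _ _).hom ≫ u - 𝟙 _)) (by
      have h3 : C.i ≫ C.red C.M ≫ (β_ _ _).hom = C.i ≫ C.red C.M := by
        rw [red, Category.assoc, BraidedCategory.braiding_naturality_right,
          braiding_tensorUnit_right, Category.assoc, Iso.inv_hom_id_assoc,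
          leftUnitor_inv_naturality_assoc, rightUnitor_inv_naturality_assoc, whisker_exchange,
          unitors_inv_equal]
      rw [← io_comp, Preadditive.comp_sub, reassoc_of% h3, h1, sub_self, io_zero])
    rwa [C.pi_M (by omega) le_rfl dg, comp_zero, io_eq_zero, sub_eq_zero] at hg
  obtain ⟨g, dg, hg⟩ := C.of_red (deg_io ((β_ C.M C.M).hom ≫ u - u))
    (by rw [← io_comp, Preadditive.comp_sub, h2, h1, sub_self, io_zero])
  rw [C.self_M dg, comp_zero, io_eq_zero, sub_eq_zero] at hg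
  exact ⟨u, h1, hg⟩

/-- The multiplication of the Moore spectrum. -/
noncomputable def mu : C.M ⊗ C.M ⟶ C.M := C.exists_mu.choose

@[reassoc] theorem red_mu : C.red C.M ≫ C.mu = 𝟙 _ := C.exists_mu.choose_spec.1

@[reassoc] theorem β_mu : (β_ _ _).hom ≫ C.mu = C.mu := C.exists_mu.choose_spec.2

@[reassoc] theorem wl_i_mu : C.M ◁ C.i ≫ C.mu = (ρ_ _).hom := by
  rw [← cancel_epi (ρ_ C.M).inv, Iso.inv_hom_id, ← C.red_mu, red, Category.assoc]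

@[reassoc] theorem wr_i_mu : C.i ▷ C.M ≫ C.mu = (λ_ _).hom := by
  rw [← C.β_mu, BraidedCategory.braiding_naturality_left_assoc, wl_i_mu, braiding_rightUnitor]

/-- The action of the Moore spectrum on `Z ⊗ M`. -/
noncomputable def muZ (Z : T.C) : (Z ⊗ C.M) ⊗ C.M ⟶ Z ⊗ C.M := (α_ _ _ _).hom ≫ Z ◁ C.mu

@[reassoc] theorem red_α (X Y : T.C) : C.red (X ⊗ Y) ≫ (α_ _ _ _).hom = X ◁ C.red Y := by
  rw [red, red]
  monoidal

@[reassoc] theorem red_muZ (Z : T.C) : C.red (Z ⊗ C.M) ≫ C.muZ Z = 𝟙 _ := by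
  rw [muZ, red_α_assoc, ← MonoidalCategory.whiskerLeft_comp, red_mu,
    MonoidalCategory.whiskerLeft_id]

@[reassoc] theorem wr_red_muZ (Z : T.C) : C.red Z ▷ C.M ≫ C.muZ Z = 𝟙 _ := by
  rw [muZ, red, comp_whiskerRight, Category.assoc, associator_naturality_middle_assoc,
    ← MonoidalCategory.whiskerLeft_comp, wr_i_mu]
  monoidal

@[reassoc] theorem α_dl (X Y : T.C) : io (α_ X Y C.M).hom ≫ wl X (C.dl Y) = C.dl (X ⊗ Y) := by
  rw [dl, dl, wl_comp, ← wl_α_assoc, wl_io, ← io_comp]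
  congr 2
  monoidal

@[reassoc] theorem wr_dl {X Y : T.C} (f : X ⟶ Y) : io (f ▷ C.M) ≫ C.dl Y = C.dl X ≫ io f := by
  rw [← wr_io, C.dl_nat (deg_io f), Int.negOnePow_zero, one_smul]

/-- The associator of the multiplication. -/
theorem exists_assoc : ∃ u : ob (𝟙_ T.C) ⟶ ob C.M, Deg (-3) u ∧ ∀ Z : T.C,
    io (C.muZ Z ▷ C.M ≫ C.muZ Z) = io (C.muZ (Z ⊗ C.M) ≫ C.muZ Z) +
      C.dl _ ≫ C.dl _ ≫ C.dl Z ≫ io (ρ_ Z).inv ≫ wl Z u := by
  obtain ⟨g₁, d₁, h₁⟩ := C.of_red (deg_io (C.mu ▷ C.M ≫ C.mu - C.muZ C.M ≫ C.mu)) (by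
    rw [← io_comp, Preadditive.comp_sub, red_muZ_assoc, ← Category.assoc, io_sub, io_comp, io_comp,
      ← wr_io, ← red_nat, Category.assoc, ← io_comp, red_mu, io_id, Category.comp_id, sub_self])
  obtain ⟨g₂, d₂, rfl⟩ := C.of_red d₁ (C.self_M ((deg_io _).comp d₁ rfl))
  obtain ⟨g₃, d₃, rfl⟩ := C.of_i d₂ (C.pi_M le_rfl (by omega) ((deg_io _).comp d₂ rfl))
  refine ⟨g₃, d₃, fun Z => ?_⟩
  have h := congrArg (fun f => io ((α_ Z C.M C.M).hom ▷ C.M) ≫ io (α_ Z _ C.M).hom ≫ wl Z f) h₁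
  simp only [wl_comp, α_dl_assoc, wr_dl_assoc] at h
  rw [io_sub, wl_sub, Preadditive.comp_sub, Preadditive.comp_sub, wl_io, wl_io, ← io_comp,
    ← io_comp, ← io_comp, ← io_comp, sub_eq_iff_eq_add'] at h
  convert h using 2
  · simp [muZ]
  · congr 1
    simp only [muZ]
    monoidal
  · simp [dl]

theorem dt_oc (s : ℕ) (X : T.C) :
    DT 0 0 (C.E.oc s (ob X)) (C.E.K.un (C.E.K.B s (ob X))) (C.E.K.k s (ob X)) := by
  induction s generalizing X with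
  | zero => exact C.U.dt X
  | succ s ih => exact ih (C.U.I ⊗ X)

theorem νs_dl (s : ℕ) (X : T.C) : (C.U.cR C.M).νs s (ob X) ≫ C.E.Fm s (C.dl X) =
    C.dl (C.E.K.B s (ob X)).obj :=
  (CF.νs_θ (Φ := C.U.cR C.M) (Ψ := C.E.cI) (fun X => C.dl X.obj)
    (fun X => (C.α_dl _ _).trans (Category.comp_id _).symm) s (ob X)).trans
    (by rw [CF.cI_νs]; exact Category.comp_id _)

theorem red_νs (s : ℕ) (X : T.C) : io (C.red (C.E.K.B s (ob X)).obj) ≫ (C.U.cR C.M).νs s (ob X) =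
    C.E.Fm s (io (C.red X)) :=
  (CF.νs_θ (Φ := C.E.cI) (Ψ := C.U.cR C.M) (fun X => io (C.red X.obj)) (fun X => by
    change 𝟙 _ ≫ wl _ (io _) = io _ ≫ io _
    rw [← io_comp, red_α, wl_io, Category.id_comp]) s (ob X)).symm.trans
    (by rw [CF.cI_νs]; exact Category.id_comp _)

variable {C}

/-- The Bockstein `π (X ⊗ M) → π X`, which raises the filtration by one. -/
noncomputable def bd {V : Gr T.C} (h : C.E.TF V (ob X)) :
    (C.E.so V ⟶ C.o (X ⊗ C.M)) →+ (C.E.so V ⟶ C.o X) := h.null.bd (C.deg_dl X)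

section bd

variable {V : Gr T.C} (h : C.E.TF V (ob X))

theorem dg_bd {x : C.E.so V ⟶ C.o (X ⊗ C.M)} (hx : C.E.Dg n s x) (hm : n - 1 = m) (ht : s + 1 = t) :
    C.E.Dg m t (bd h x) := h.null.dg_bd _ hx hm ht

theorem bd_τ (x : C.E.so V ⟶ C.o (X ⊗ C.M)) : bd h x ≫ C.E.τ _ = x ≫ C.E.ι (C.dl X) :=
  h.null.bd_τ _ x

theorem τ_bd (x : C.E.so V ⟶ C.o (X ⊗ C.M)) : bd h (x ≫ C.E.τ _) = bd h x ≫ C.E.τ _ :=
  h.null.τ_bd _ x

theorem tp_bd (k : ℕ) (x : C.E.so V ⟶ C.o (X ⊗ C.M)) :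
    bd h (x ≫ C.E.tp k _) = bd h x ≫ C.E.tp k _ := by
  induction k with
  | zero => rw [tp_zero, tp_zero, Category.comp_id, Category.comp_id]
  | succ k ih => rw [tp_succ, tp_succ, ← Category.assoc, τ_bd, ih, Category.assoc]

theorem bd_red (y : C.E.so V ⟶ C.o X) : bd h (y ≫ C.U.j (C.red X)) = 0 :=
  h.null.bd_zero₂ _ (C.tri_red X) y

theorem ι_three {P Q : C.E.Syn} (y : P ⟶ Q) : y ≫ C.E.ι ((3 : ℤ) • 𝟙 Q.obj) = (3 : ℤ) • y := by
  rw [map_zsmul, ι_id, Preadditive.comp_zsmul, Category.comp_id]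

theorem three_bd (x : C.E.so V ⟶ C.o (X ⊗ C.M)) : (3 : ℤ) • bd h x = 0 :=
  (ι_three _).symm.trans (h.null.bd_zero₃ _ (C.tri_red X) x)

theorem exists_bd {x : C.E.so V ⟶ C.o X} (hx : C.E.Dg n s x) (h0 : (3 : ℤ) • x = 0)
    (hm : m - 1 = n) (ht : t + 1 = s) : ∃ y, C.E.Dg m t y ∧ x = bd h y :=
  h.null.co₁ _ (C.tri_red X) hx ((ι_three _).trans h0) hm ht

theorem exists_red {x : C.E.so V ⟶ C.o (X ⊗ C.M)} (hx : C.E.Dg n s x) (h0 : bd h x = 0) :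
    ∃ y, C.E.Dg n s y ∧ x = y ≫ C.U.j (C.red X) :=
  h.null.co₃ _ (C.tri_red X) (b := 0) (deg_io _) hx h0 (add_zero n)

include h in
theorem exists_three {x : C.E.so V ⟶ C.o X} (hx : C.E.Dg n s x) (h0 : x ≫ C.U.j (C.red X) = 0) :
    ∃ y, C.E.Dg n s y ∧ x = (3 : ℤ) • y := by
  obtain ⟨y, hy, e⟩ := h.null.co₂ (C.tri_red X) (b := 0) ((deg_id _).zsmul 3) hx h0 (add_zero n)
  exact ⟨y, hy, e.trans (ι_three _)⟩

theorem comp_bd [C.G.Tors X] {V' : Gr T.C} (h' : C.E.TF V' (ob X)) (u : C.E.so V' ⟶ C.E.so V)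
    (x : C.E.so V ⟶ C.o (X ⊗ C.M)) : bd h' (u ≫ x) = u ≫ bd h x :=
  h.null.bd_pre _ (C.sym X) h'.null u x

theorem bd_sr (h' : C.E.TF V (ob Y)) {y : C.o X ⟶ C.o Y} (hy : C.E.Dg m t y)
    (x : C.E.so V ⟶ C.o (X ⊗ C.M)) : bd h' (x ≫ C.U.sr C.M y) = m.negOnePow • bd h x ≫ y := by
  obtain ⟨g, dg, rfl⟩ := hy
  have h1 := h.null.bd_post (C.deg_dl X) h'.null (C.deg_dl Y) (j := t) le_rfl
    (wr g C.M ≫ (C.U.cR C.M).νs _ (ob Y)) g m.negOnePow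
    (by rw [Category.assoc, νs_dl, C.dl_nat dg, Int.negOnePow_neg]) x
  exact (congrArg (fun z => bd h' (x ≫ z)) ((C.U.cR C.M).S_cl t le_rfl g)).trans h1

end bd

/-- The Bockstein formula. -/
theorem bd_rep (h : C.E.TF (ob V) (ob X)) {s : ℕ} {x : C.o V ⟶ C.o (X ⊗ C.M)} {y : ob V ⟶ C.Q s X}
    {z : ob V ⟶ C.Q (s + 1) X} (hx : C.E.Rep n s x (y ≫ C.E.K.Qm (s + 1) (io (C.red X))))
    (dy : Deg (-(n + s)) y) (dz : Deg (-(n + s)) z) (hy : y ≫ C.E.K.d (s + 1) _ = (3 : ℤ) • z)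
    (hm : n - 1 = m) : ∃ u : ℤˣ, C.E.Rep m (s + 1) (bd h x) (u • z) := by
  obtain ⟨g, dg, rfl, e⟩ := hx.ex
  have h0 := C.E.K.q_naturality s (io (C.red X))
  rw [Bm_eq s (deg_io _), mul_zero, Int.negOnePow_zero, one_smul] at h0
  rw [Category.assoc, h0] at e
  let ev : ob ((X ⊗ C.M) ⊗ C.M) ⟶ ob X := io (C.muZ X) ≫ C.dl X
  have dev : Deg 1 ev := (deg_io _).comp (C.deg_dl X) rfl
  have dq := dy.comp (C.E.deg_q s (ob X)) (show _ = -n by ring)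
  have h1 : io (C.red V) ≫ wr g C.M ≫ (C.U.cR C.M).νs s _ ≫ C.E.Fm s ev = g ≫ C.E.Fm s (C.dl X) := by
    rw [← red_nat_assoc, reassoc_of% C.red_νs, ← Fm_comp, ← io_comp_assoc, red_muZ, io_id,
      Category.id_comp]
  have h2 : (wr g C.M ≫ (C.U.cR C.M).νs s _ ≫ C.E.Fm s ev) ≫ C.E.K.un _ =
      C.dl V ≫ (n.negOnePow • y ≫ C.E.K.q s _) := by
    have h3 := (C.U.rR C.M).m_un (C.E.K.B s (ob (X ⊗ C.M)))
    have h4 := (C.U.rR C.M).m_nat (C.E.Fm s (io (C.red X)))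
    have h5 := (C.U.cR C.M).νs_nat s (io (C.red X))
    have h6 : wr (io (C.red X)) C.M ≫ ev = C.dl X := by
      rw [wr_io, ← io_comp_assoc, wr_red_muZ, io_id, Category.id_comp]
    have h7 : (C.U.cR C.M).map (C.E.Fm s (io (C.red X))) ≫ (C.U.cR C.M).νs s _ ≫ C.E.Fm s ev =
        C.dl (C.E.K.B s (ob X)).obj := by
      rw [reassoc_of% h5, ← Fm_comp]
      exact (congrArg (_ ≫ C.E.Fm s ·) h6).trans (C.νs_dl s X)
    have h8 := C.dl_nat dq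
    rw [Category.assoc, C.E.K.un_nat, ← h3, Category.assoc, Linear.comp_units_smul,
      ← Int.negOnePow_neg, ← h8, ← α_dl, ← h7, wl_comp]
    refine (wr_comp_assoc _ _ _ _).symm.trans ?_
    rw [e, ← Category.assoc y, wr_comp, Category.assoc]
    exact congrArg _ ((reassoc_of% h4) _)
  obtain ⟨w, u, dw, h3, h4⟩ := (C.dt_red V).rot'.fill (C.dt_oc s X).rot (m := -m)
    ((Deg.wr _ dg).comp (((C.U.cR C.M).deg_νs _ _).comp (deg_Fm s dev) rfl) rfl) (dq.usmul _)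
    h2.symm (by omega) (by omega)
  have h5 : (3 : ℤ) • (w ≫ C.E.K.un _ - (n.negOnePow • z) ≫ C.E.K.q (s + 1) _) = 0 := by
    rw [Preadditive.zsmul_comp, Category.id_comp] at h3
    rw [smul_sub, ← Preadditive.zsmul_comp, h3, ← Preadditive.zsmul_comp, smul_comm, ← hy,
      Linear.units_smul_comp, Linear.units_smul_comp, Linear.units_smul_comp, Category.assoc,
      Category.assoc, Category.assoc, d_q', sub_self]
  obtain ⟨b, hb⟩ := C.E.tri_co (C.E.tri_M (tri_Fm (s + 1) (C.E.tri_rot (C.E.tri_rot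
    (C.tri_red X))))) (w ≫ C.E.K.un _ - (n.negOnePow • z) ≫ C.E.K.q (s + 1) _) (by
      rw [map_zsmul, Fm_id, ← h5]
      exact (congrArg _ ((wl_zsmul _ _ _).trans (congrArg _ (wl_id _ _)))).trans
        ((Preadditive.comp_zsmul _ _ _).trans (congrArg _ (Category.comp_id _))))
  rw [h.null, sub_eq_zero] at hb
  refine ⟨u * n.negOnePow, (dz.cast (by push_cast; omega)).usmul _, ?_, u • w, dw.usmul _,
    h.null.bd_cl _ (by push_cast; rfl) _ _ (by rw [Linear.units_smul_comp, ← h4, h1]), ?_⟩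
  · rw [Linear.units_smul_comp, h _ (z ≫ C.E.K.d _ _) (by
      rw [← Preadditive.zsmul_comp, ← hy, Category.assoc, C.E.K.d_d, comp_zero]), smul_zero]
  · rw [Linear.units_smul_comp, hb, mul_smul, Linear.units_smul_comp u]

/-- The Bockstein formula for charts. -/
theorem Chart.bd_rep {J : Type} [Fintype J] {d : J → ℤ} {θ : J → J → Cob Laz 1} {s : ℕ} {w : ℤ}
    {e : J → (ob C.Γ ⟶ C.Q 0 Z)} (H : C.Chart e d θ) {x : C.o C.Γ ⟶ C.o (Z ⊗ C.M)}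
    {F : J → Cob Laz s} {c : J → Cob Laz (s + 1)}
    (hx : C.E.Rep n s x (C.psi (fun c => e c ≫ C.E.K.Qm 1 (io (C.red Z))) s F))
    (hF : F ∈ CW 3 Laz d w s) (hc : c ∈ CW 3 Laz d w (s + 1)) (h : DD θ s F = 3 • c)
    (hn : n + s = 4 * w) (hm : n - 1 = m) :
    ∃ u : ℤˣ, C.E.Rep m (s + 1) (bd H.tf x) (u • C.psi e (s + 1) c) :=
  Cx.bd_rep H.tf (by rwa [psi_comp]) (H.cells.deg_cw hF (by rw [hn]))
    (H.cells.deg_cw hc (by rw [hn])) (by rw [H.cells.psi_d, h, map_nsmul, ofNat_zsmul]) hm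

end Cx

end Vale.Agent.P236SY
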