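import Vale.Agent.P236SY.Cup

/-!
# P236, synthetic calculus: products are represented by cup products
-/

open CategoryTheory Limits

universe v u

namespace Vale.Agent.P236SY

open GData Vale.Agent.P251.S

namespace TD

variable {O : Type u} {D : GData.{v} O} {E : TD D} {V Z U : D.Cat} {s t : ℕ} {n m l : ℤ}
  {c : V ⟶ E.K.Q (s + 1) Z} {c' : Z ⟶ E.K.Q (t + 1) U}

theorem cup_cyc (h : c ≫ E.K.d (s + 1) Z = 0) (h' : c' ≫ E.K.d (t + 1) U = 0) :
    E.cup c c' ≫ E.K.d (s + t + 1) U = 0 := by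
  rw [cup_d, h, h', zero_comp, zero_add]
  exact (congrArg _ (map_zero (E.cupH V Z U s (t + 1) c))).trans (smul_zero _)

theorem cup_q_of {g' : Z ⟶ E.K.B t U} (dg : Deg (-m) g') (e' : g' ≫ E.K.un _ = c' ≫ E.K.q t U) :
    E.cup c c' ≫ E.K.q (s + t) U = (s * m : ℤ).negOnePow •
      c ≫ E.K.q s Z ≫ E.K.M.map (E.Fm s g' ≫ E.ad s t U) := by
  have h := E.K.q_naturality s g'
  rw [cup_q, ← e', Functor.map_comp, Category.assoc, E.K.right_unit, Category.comp_id,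
    ← E.K.Qm_succ, reassoc_of% h, Bm_eq s dg, mul_neg, Int.negOnePow_neg, Units.smul_def,
    Units.smul_def, Functor.map_zsmul, Functor.map_comp]
  simp only [Preadditive.zsmul_comp, Preadditive.comp_zsmul]

/-- The composite is represented by the cup product. -/
theorem Rep.comp {x : E.so V ⟶ E.so Z} {y : E.so Z ⟶ E.so U} (h : E.Rep n s x c)
    (h' : E.Rep m t y c') (e : n + m = l) :
    E.Rep l (s + t) (x ≫ y) ((s * m : ℤ).negOnePow • E.cup c c') := by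
  obtain ⟨g, hg, rfl, eg⟩ := h.ex
  obtain ⟨g', hg', rfl, eg'⟩ := h'.ex
  refine ⟨(E.deg_cup h.deg h'.deg (by push_cast; omega)).usmul _,
    by rw [Linear.units_smul_comp, cup_cyc h.cyc h'.cyc, smul_zero],
    g ≫ E.Fm s g' ≫ E.ad s t U, hg.comp ((deg_Fm s hg').comp (E.deg_ad _ _ _) rfl) (by omega),
    E.cl_comp (by push_cast; rfl) _ _ _ _ _, ?_⟩
  rw [Linear.units_smul_comp, cup_q_of hg' eg', smul_smul, Int.units_mul_self, one_smul,
    ← reassoc_of% eg, ← E.K.un_nat, Category.assoc]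

theorem rep_ι {f : V ⟶ Z} (hf : Deg (-n) f) : E.Rep n 0 (E.ι f) (f ≫ E.K.un Z) :=
  ⟨hf.comp (E.deg_un _) (by simp), by
    rw [Category.assoc]
    exact (congrArg (f ≫ ·) (E.K.d_d 0 Z)).trans comp_zero,
    f, hf, rfl, (Category.comp_id _).symm⟩

theorem Rep.ι_comp {V' : D.Cat} {f : V' ⟶ V} (hf : Deg (-m) f) {x : E.so V ⟶ E.so Z}
    (h : E.Rep n s x c) (e : m + n = l) : E.Rep l s (E.ι f ≫ x) (f ≫ c) := by
  obtain ⟨g, hg, rfl, eg⟩ := h.ex
  exact ⟨hf.comp h.deg (by omega), by rw [Category.assoc, h.cyc, comp_zero], f ≫ g,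
    hf.comp hg (by omega), E.ι_cl _ _ _ _, by rw [Category.assoc, eg, Category.assoc]⟩

theorem Rep.comp_ι {x : E.so V ⟶ E.so Z} (h : E.Rep n s x c) {f : Z ⟶ U} (hf : Deg (-m) f)
    (e : n + m = l) :
    E.Rep l s (x ≫ E.ι f) ((s * m : ℤ).negOnePow • c ≫ E.K.Qm (s + 1) f) := by
  have h1 := h.comp (rep_ι hf) e
  rwa [cup_mid, cup_un] at h1

theorem Ob.ι_comp {V' : D.Cat} {f : V' ⟶ V} (hf : Deg (-m) f) {y : E.so V ⟶ E.so Z}
    (h : E.Ob n s c y) (e : m + n = l) : E.Ob l s (f ≫ c) (E.ι f ≫ y) := by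
  obtain ⟨g, hg, rfl, eg⟩ := h.ex
  exact ⟨hf.comp h.deg (by omega), by rw [Category.assoc, h.cyc, comp_zero], f ≫ g,
    hf.comp hg (by omega), E.ι_cl _ _ _ _, by rw [Category.assoc, eg, Category.assoc]⟩

/-- Linearity of the obstruction, on the target side. -/
theorem Ob.post {y : E.so V ⟶ E.so Z} {x : E.so Z ⟶ E.so U} (h : E.Ob n s c y)
    (h' : E.Rep m t x c') (e : n + m = l) :
    E.Ob l (s + t) (E.cup c c') (((s + 1) * m : ℤ).negOnePow • y ≫ x) := by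
  obtain ⟨w, hw, rfl, ew⟩ := h.ex
  obtain ⟨g', hg', rfl, eg'⟩ := h'.ex
  refine ⟨E.deg_cup h.deg h'.deg (by push_cast; omega), cup_cyc h.cyc h'.cyc,
    ((s + 1) * m : ℤ).negOnePow • (w ≫ E.Fm (s + 2) g' ≫ E.ad (s + 2) t U) ≫
      E.dr (show s + t + 2 ≤ s + 2 + t by omega) U,
    ((hw.comp ((deg_Fm _ hg').comp (E.deg_ad _ _ _) rfl) rfl).comp (E.deg_dr _ _)
      (by omega)).usmul _, ?_, ?_⟩
  · rw [Units.smul_def, Units.smul_def, map_zsmul, cl_dr,
      E.cl_comp (s := s + 2) (k := ((s + t : ℕ) : ℤ) + 2) (by push_cast; ring)]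
  · have h1 := E.k_nat s hg'
    rw [← Category.assoc (E.cup c c'), cup_q_of hg' eg', Linear.units_smul_comp,
      Linear.units_smul_comp, Functor.map_comp, add_mul, one_mul, Int.negOnePow_add, mul_smul]
    congr 1
    simp only [Category.assoc]
    rw [E.ad_k s t (by omega), ← E.dr_one _ (Nat.le_succ _), dr_dr,
      ← E.dr_dr (show s + 1 + t ≤ s + 2 + t by omega) (by omega), ← oc_ad_assoc, oc_nat_assoc,
      reassoc_of% ew, reassoc_of% h1, Int.negOnePow_neg]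
    simp only [Linear.units_smul_comp, Linear.comp_units_smul, smul_smul, Int.units_mul_self,
      one_smul, Category.assoc]

theorem Ob.comp_ι {y : E.so V ⟶ E.so Z} (h : E.Ob n s c y) {f : Z ⟶ U} (hf : Deg (-m) f)
    (e : n + m = l) :
    E.Ob l s (c ≫ E.K.Qm (s + 1) f) (((s + 1) * m : ℤ).negOnePow • y ≫ E.ι f) := by
  have h1 := h.post (rep_ι hf) e
  rwa [cup_mid, cup_un] at h1

theorem cyc_zero {W : D.Cat} {e : Z ⟶ E.K.M.obj W} (he : e ≫ E.K.ρ W ≫ E.K.un _ = 0) :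
    e ≫ E.K.un _ = e ≫ E.K.M.map (E.K.un W) := by
  obtain ⟨c, h1, h2⟩ := E.K.exists_cocycle
    (F := preadditiveCoyoneda.obj (Opposite.op Z)) 0 W e he
  have h4 : c = e := (Category.comp_id c).symm.trans h2
  have h3 : e ≫ (E.K.un _ + (-1 : ℤ) ^ 1 • E.K.M.map (E.K.un W)) = 0 := h4 ▸ h1
  rwa [pow_one, neg_smul, one_smul, Preadditive.comp_add, Preadditive.comp_neg,
    add_neg_eq_zero] at h3

theorem pre_k (s : ℕ) {Z W : D.Cat} (hW : E.Sym W) {a : ℤ} {e : Z ⟶ E.K.M.obj W} (de : Deg a e)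
    (he : e ≫ E.K.ρ W ≫ E.K.un _ = 0) (c : V ⟶ E.K.Q (s + 1) Z) (g : V ⟶ E.K.B s Z)
    (hg : g ≫ E.K.un _ = c ≫ E.K.q s Z) :
    c ≫ E.K.Qm s (E.K.M.map e ≫ E.K.mu W) ≫ E.K.q s W ≫ E.K.k s W =
      (s * a : ℤ).negOnePow • g ≫ E.Fm s (e ≫ E.K.ρ W) := by
  induction s generalizing Z W with
  | zero =>
    rw [E.K.q_zero, Category.comp_id] at hg
    rw [← hg, E.K.q_zero, Category.id_comp, Nat.cast_zero, zero_mul, Int.negOnePow_zero, one_smul,
      E.K.Qm_zero, Category.assoc, Category.assoc, ← E.K.un_nat_assoc, E.K.left_unit_assoc]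
    rfl
  | succ s ih =>
    obtain ⟨w, hw⟩ := E.tri_co (E.tri_unit (E.K.G.obj W)) (e ≫ E.K.ρ W) (by rwa [Category.assoc])
    have h0 : E.K.M.map e = (E.K.M.map e ≫ E.K.mu W) ≫ E.K.M.map (E.K.un W) := by
      rw [Category.assoc, ← E.K.mu_nat, ← Functor.map_comp_assoc, ← cyc_zero he, Functor.map_comp,
        Category.assoc, E.K.right_unit, Category.comp_id]
    have h1 : E.K.ρ Z ≫ E.K.G.map e ≫ (E.sR W).hom =
        (E.K.M.map e ≫ E.K.mu W) ≫ E.K.ρ W ≫ E.K.un _ := by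
      rw [← E.K.ρ_nat_assoc, h0, Category.assoc, E.K.ρ_nat_assoc, E.G_map (E.K.un W),
        (E.deg_un W).tw_eq, Int.negOnePow_zero, one_smul, sR_un, ← h0]
    have h2 : (E.K.G.map e ≫ (E.sR W).hom) ≫ E.K.ρ _ = a.negOnePow • E.fm (e ≫ E.K.ρ W) := by
      rw [Category.assoc, sR_ρ, E.G_map, de.tw_eq, Units.smul_def, Units.smul_def, map_zsmul,
        Preadditive.zsmul_comp, ← fm_comp_assoc, hw, fm_comp, Category.assoc, hW.G.fm,
        ← E.ε_nat, ← hW.G.fm, ← fm_comp, σ_ε, hW.fm]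
    have h3 := ih hW.G (e := E.K.G.map e ≫ (E.sR W).hom)
      ((by rw [E.G_map, de.tw_eq]; exact E.deg_fm (de.usmul _) : Deg a (E.K.G.map e)).comp
        (E.deg_sR W) (add_zero a))
      (by rw [← Category.assoc, h2, hw, fm_comp, hW.G.fm, Linear.units_smul_comp, Category.assoc,
        ε_un, comp_zero, smul_zero])
      (c ≫ E.K.Qm (s + 1) (E.K.ρ Z)) g (by rw [hg, E.K.q_succ, Category.assoc])
    rw [h2, Units.smul_def a.negOnePow, map_zsmul, Preadditive.comp_zsmul, ← Units.smul_def,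
      smul_smul, ← Int.negOnePow_add, Category.assoc, E.K.Qm_succ, ← E.K.Qm_comp_assoc,
      ← Functor.map_comp_assoc, h1, ← Category.assoc _ (E.K.ρ W), Functor.map_comp,
      Category.assoc, E.K.right_unit, Category.comp_id] at h3
    rw [E.K.q_succ, Category.assoc, ← E.K.Qm_comp_assoc, Nat.cast_succ, add_mul, one_mul]
    exact h3

/-- Linearity of the obstruction, on the source side. -/
theorem Ob.pre (hU : E.Sym U) {x : E.so V ⟶ E.so Z} {y : E.so Z ⟶ E.so U} (h : E.Rep n s x c)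
    (h' : E.Ob m t c' y) (e : n + m = l) :
    E.Ob l (s + t) (E.cup c c') ((s * m : ℤ).negOnePow • x ≫ y) := by
  obtain ⟨g, hg, rfl, eg⟩ := h.ex
  obtain ⟨w, hw, rfl, ew⟩ := h'.ex
  have h1 : ∀ (t : ℕ) (U : D.Cat) (e : Z ⟶ E.K.M.obj (E.K.B t U)), e ≫ E.K.k t U ≫ E.K.un _ = 0 →
      e ≫ E.K.ρ _ ≫ E.K.un _ = 0 := by
    intro t
    induction t with
    | zero => exact fun _ _ h => h
    | succ t ih => exact fun U => ih (E.K.G.obj U)
  refine ⟨E.deg_cup h.deg h'.deg (by push_cast; omega), cup_cyc h.cyc h'.cyc,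
    (s * m : ℤ).negOnePow • g ≫ E.Fm s w ≫ E.ad s (t + 2) U,
    (hg.comp ((deg_Fm _ hw).comp (E.deg_ad _ _ _) rfl) (by omega)).usmul _, ?_, ?_⟩
  · rw [Units.smul_def, Units.smul_def, map_zsmul,
      E.cl_comp (t := t + 2) (k := ((s + t : ℕ) : ℤ) + 2) (by push_cast; ring)]
  · have h2 := pre_k s (hU.B t) (h'.deg.comp (E.deg_q _ _) (show _ = -m by ring))
      (h1 t U _ (by rw [Category.assoc, ← reassoc_of% ew, oc_un, comp_zero])) c g eg
    have h3 := hU.mid s (t + 1)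
    rw [← Category.assoc (E.cup c c'), cup_q]
    simp only [Category.assoc, Linear.units_smul_comp]
    rw [E.ad_k s t (by omega), reassoc_of% h2, mul_neg, Int.negOnePow_neg, Linear.units_smul_comp,
      Category.assoc, ← Category.assoc c', Fm_comp_assoc, ρ_ad, ← Fm_comp_assoc, Category.assoc,
      ← ew, Fm_comp_assoc, h3]
    rfl

end TD

end Vale.Agent.P236SY
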