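import Vale.Agent.P236SY.Ring
import Vale.Agent.P251.S.AmitsurCup
import Vale.Agent.P251.F.Cob

/-!
# P236, synthetic calculus: the cobar complex and the tensor powers of the ring
-/

set_option linter.unusedSectionVars false

open CategoryTheory MonoidalCategory Limits Pretriangulated MonObj

universe v u

namespace Vale.Agent.P236SY

open GData Vale.Agent.P251.T Vale.Agent.P251.S Vale.Agent.P251.H Vale.Agent.P251.F

section Conc

variable {T : Type u} [Category.{v} T] [MonoidalCategory T] [SymmetricCategory T]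
  (R : T) [MonObj R]

/-- The concatenation of tensor powers. -/
def cnc (s : ℕ) : ∀ t : ℕ, Am R (s + 1) ⊗ Am R (t + 1) ⟶ Am R (s + t + 1)
  | 0 => (Am R (s + 1) ◁ (λ_ R).hom) ≫ (α_ (Am R s) R R).hom ≫ (Am R s ◁ μ[R])
  | t + 1 => (α_ (Am R (s + 1)) (Am R (t + 1)) R).inv ≫ (cnc s t ▷ R)

variable [IsCommMonObj R]

instance isMonHom_cnc (s t : ℕ) : IsMonHom (cnc R s t) := by
  induction t with
  | zero => unfold cnc; infer_instance
  | succ t ih => unfold cnc; infer_instance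

theorem inrM_lam : inrM (𝟙_ T) R ≫ (λ_ R).hom = 𝟙 R := by
  have h : η[(𝟙_ T)] = 𝟙 (𝟙_ T) := rfl
  rw [inrM, h, id_whiskerRight, Category.comp_id, Iso.inv_hom_id]

theorem inlM_cnc (s t : ℕ) :
    inlM (Am R (s + 1)) (Am R (t + 1)) ≫ cnc R s t = Am.map R (Cob.front s t) := by
  induction t with
  | zero =>
    unfold cnc
    rw [inlM_whiskerLeft_assoc, inlM_associator_assoc, ← MonoidalCategory.whiskerLeft_comp,
      inlM_mul, MonoidalCategory.whiskerLeft_id]
    exact (Am.map_id R (n := s + 1)).symm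
  | succ t ih =>
    unfold cnc
    rw [inlM_associator_inv_assoc, inlM_whiskerRight, reassoc_of% ih, ← Am.map_castSucc,
      ← Am.map_comp]
    rfl

theorem inrM_cnc (s t : ℕ) :
    inrM (Am R (s + 1)) (Am R (t + 1)) ≫ cnc R s t = Am.map R (Cob.back s t) := by
  induction t with
  | zero =>
    unfold cnc
    rw [inrM_whiskerLeft_assoc, inrM_associator_assoc, inrM_whiskerLeft, inrM_mul_assoc]
    refine (Am.map_eq_of R _ _ fun i => ?_).symm
    obtain rfl : i = Fin.last 0 := Subsingleton.elim (α := Fin 1) _ _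
    rw [Am.v_last, reassoc_of% inrM_lam]
    exact (Am.v_last R s).symm
  | succ t ih =>
    unfold cnc
    rw [inrM_associator_inv_assoc, ← comp_whiskerRight, ih]
    refine (Am.map_eq_of R (Cob.back s (t + 1)) (Am.map R (Cob.back s t) ▷ R) fun i => ?_).symm
    refine Fin.lastCases ?_ (fun j => ?_) i
    · rw [Am.v_last, inrM_whiskerRight]
      exact (Am.v_last R (s + t + 1)).symm
    · rw [Am.v_castSucc, Category.assoc, inlM_whiskerRight, Am.v_map_assoc, ← Am.v_castSucc]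
      rfl

theorem cnc_eq (s t : ℕ) :
    cnc R s t = (Am.map R (Cob.front s t) ⊗ₘ Am.map R (Cob.back s t)) ≫ μ := by
  rw [eq_descM (cnc R s t), inlM_cnc, inrM_cnc, descM]

end Conc

variable {T : Type u} [Category.{v} T] [Preadditive T] [HasZeroObject T] [HasShift T ℤ]
  [∀ n : ℤ, (shiftFunctor T n).Additive] [Pretriangulated T] [MonoidalCategory T]
  [SymmetricCategory T] [TensorTriangulated T]

namespace UF

variable {R : T} [MonObj R] (U : UF R)

/-- The comparison `Q n Y ≅ R ^ n ⊗ Y`. -/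
noncomputable def th : ∀ (n : ℕ) (Y : T), U.td.K.Q n (ob Y) ≅ ob (Am R n ⊗ Y)
  | 0, Y => ioI (λ_ Y).symm
  | n + 1, Y => th n (R ⊗ Y) ≪≫ ioI (α_ (Am R n) R Y).symm

theorem th_zero (Y : T) : (U.th 0 Y).hom = io (λ_ Y).inv := rfl

theorem th_succ (n : ℕ) (Y : T) :
    (U.th (n + 1) Y).hom = (U.th n (R ⊗ Y)).hom ≫ io (α_ (Am R n) R Y).inv := rfl

theorem deg_th (n : ℕ) (Y : T) : Deg 0 (U.th n Y).hom := by
  induction n generalizing Y with
  | zero => exact deg_io _
  | succ n ih => exact (ih _).comp (deg_io _) rfl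

@[reassoc]
theorem th_nat (n : ℕ) {X Y : T} (f : ob X ⟶ ob Y) :
    U.td.K.Qm n f ≫ (U.th n Y).hom = (U.th n X).hom ≫ wl (Am R n) f := by
  induction n generalizing X Y with
  | zero => exact (lam_inv_wl f).symm
  | succ n ih =>
    have h := ih (wl R f)
    rw [th_succ, th_succ, Category.assoc, ← α_inv_wl, ← reassoc_of% h]
    rfl

@[reassoc]
theorem lam_th (n : ℕ) (Y : T) : U.td.K.lam n (ob Y) ≫ (U.th (n + 1) Y).hom =
    (U.th n Y).hom ≫ io (inlM (Am R n) R ▷ Y) := by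
  have h : (Am R n ◁ unitMap R Y) ≫ (α_ (Am R n) R Y).inv = inlM (Am R n) R ▷ Y := by
    rw [unitMap, inlM]
    monoidal
  have h1 := U.th_nat n (io (unitMap R Y))
  rw [th_succ, ← h, io_comp, ← wl_io, ← reassoc_of% h1]
  rfl

@[reassoc]
theorem mo_th (s t : ℕ) (Y : T) :
    U.td.K.Qm s (U.td.mo t (ob Y)) ≫ U.td.aq s (t + 1) (ob Y) ≫ (U.th (s + t + 1) Y).hom =
      (U.th (s + 1) (U.td.K.Q (t + 1) (ob Y)).obj).hom ≫ wl (Am R (s + 1)) (U.th (t + 1) Y).hom ≫
        io ((α_ _ _ Y).inv ≫ (cnc R s t ▷ Y)) := by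
  induction t generalizing Y with
  | zero =>
    have h1 := U.th_nat s (io (mulMap R Y))
    change U.td.K.Qm s (io (mulMap R Y)) ≫ 𝟙 _ ≫ (U.th s (R ⊗ Y)).hom ≫ io _ =
      ((U.th s (R ⊗ R ⊗ Y)).hom ≫ io _) ≫ wl _ (io (λ_ (R ⊗ Y)).inv ≫ io _) ≫ _
    rw [Category.id_comp, reassoc_of% h1, ← io_comp, wl_io, wl_io, Category.assoc, ← io_comp,
      ← io_comp, ← io_comp]
    congr 2
    simp only [mulMap, cnc, Iso.symm_hom]
    monoidal
  | succ t ih =>
    have h := ih (R ⊗ Y)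
    change U.td.K.Qm s (U.td.mo t (ob (R ⊗ Y))) ≫ U.td.aq s (t + 1) (ob (R ⊗ Y)) ≫
      (U.th (s + t + 1) (R ⊗ Y)).hom ≫ io _ = (U.th (s + 1) _).hom ≫
        wl _ ((U.th (t + 1) (R ⊗ Y)).hom ≫ io _) ≫ _
    rw [reassoc_of% h, wl_comp, Category.assoc, wl_io, ← io_comp, ← io_comp]
    congr 3
    simp only [cnc, Iso.symm_hom]
    monoidal

/-- The cup product in terms of the tensor powers. -/
theorem cup_th {V : Gr T} {Z Y : T} {s t : ℕ} (c : V ⟶ U.td.K.Q (s + 1) (ob Z))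
    (c' : ob Z ⟶ U.td.K.Q (t + 1) (ob Y)) : U.td.cup c c' ≫ (U.th (s + t + 1) Y).hom =
      c ≫ (U.th (s + 1) Z).hom ≫ wl (Am R (s + 1)) (c' ≫ (U.th (t + 1) Y).hom) ≫
        io ((α_ _ _ Y).inv ≫ (cnc R s t ▷ Y)) := by
  have h := U.th_nat (s + 1) (Y := (U.td.K.Q (t + 1) (ob Y)).obj) c'
  rw [TD.cup, CobarData.Qm_comp, Category.assoc, Category.assoc, Category.assoc, mo_th, wl_comp,
    Category.assoc, ← reassoc_of% h]
  rfl

variable [IsCommMonObj R]

theorem d_th (n : ℕ) (Y : T) : U.td.K.d n (ob Y) ≫ (U.th (n + 1) Y).hom =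
    (U.th n Y).hom ≫ ∑ i : Fin (n + 1), (-1 : ℤ) ^ (i : ℕ) •
      io (Am.map R (Fin.succAbove i : Fin n → Fin (n + 1)) ▷ Y) := by
  induction n generalizing Y with
  | zero =>
    have h := U.lam_th 0 Y
    rw [← Am.map_succAbove_last] at h
    rw [Fin.sum_univ_one, Fin.val_zero, pow_zero, one_smul]
    exact h
  | succ n ih =>
    rw [CobarData.d_succ, Preadditive.add_comp, Preadditive.zsmul_comp, lam_th,
      Fin.sum_univ_castSucc, Preadditive.comp_add, Am.map_succAbove_last, Fin.val_last,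
      Preadditive.comp_zsmul]
    congr 1
    have h := ih (R ⊗ Y)
    change U.td.K.d n (ob (R ⊗ Y)) ≫ (U.th (n + 1) (R ⊗ Y)).hom ≫ io (α_ _ R Y).inv = _
    rw [reassoc_of% h, th_succ, Category.assoc]
    congr 1
    rw [Preadditive.sum_comp, Preadditive.comp_sum]
    refine Finset.sum_congr rfl fun i _ => ?_
    rw [Preadditive.zsmul_comp, Preadditive.comp_zsmul, Fin.val_castSucc,
      Am.map_succAbove_castSucc, ← io_comp, ← io_comp, associator_inv_naturality_left]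

end UF

end Vale.Agent.P236SY
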