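import Vale.Agent.P236SY.Fr
import Vale.Agent.P236SY.Th
import Vale.Agent.P251.I.M

/-!
# P236, synthetic calculus: algebraic cochains as cochains of the tower

`Φ D U X s z : ob X ⟶ Q (s + 1) (ob X)` is the cochain `z ⊗ 1` for `z : Cob Laz s`.
-/

set_option linter.unusedSectionVars false

open CategoryTheory MonoidalCategory Limits Pretriangulated MonObj

universe v u

namespace Vale.Agent.P236SY

open GData Vale.Agent.P251.T Vale.Agent.P251.S Vale.Agent.P251.H Vale.Agent.P251.M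
  Vale.Agent.P251.F Vale.Agent.P251.I

variable {T : Type u} [Category.{v} T] [Preadditive T] [HasZeroObject T] [HasShift T ℤ]
  [∀ n : ℤ, (shiftFunctor T n).Additive] [Pretriangulated T] [MonoidalCategory T]
  [SymmetricCategory T] [TensorTriangulated T]

section Ml

variable {A B : T} [MonObj A] [MonObj B]

/-- The multiplication by an element of the homotopy ring. -/
noncomputable def ml (A : T) [MonObj A] : HRing (stdEven T) A →+ (ob A ⟶ ob A) :=
  AddMonoidHom.mk' (fun x => io (λ_ A).inv ≫ wr (pt A x) A ≫ io μ[A]) fun x y => by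
    rw [map_add, wr_add, Preadditive.add_comp, Preadditive.comp_add]

theorem ml_apply (x : HRing (stdEven T) A) :
    ml A x = io (λ_ A).inv ≫ wr (pt A x) A ≫ io μ[A] := rfl

@[reassoc]
theorem pt_ml (x y : HRing (stdEven T) A) : pt A y ≫ ml A x = pt A (x * y) := (pt_mul x y).symm

@[reassoc]
theorem ml_map (f : A ⟶ B) [IsMonHom f] (x : HRing (stdEven T) A) :
    ml A x ≫ io f = io f ≫ ml B (HRing.map f x) := by
  rw [ml_apply, ml_apply, pt_map, wr_comp, wr_io, Category.assoc, Category.assoc, ← io_comp,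
    IsMonHom.mul_hom, tensorHom_def', io_comp, io_comp, Category.assoc, wr_ex_assoc,
    ← io_comp_assoc (λ_ A).inv, ← leftUnitor_inv_naturality, io_comp_assoc, Category.assoc]

theorem ml_one : ml A 1 = 𝟙 _ := by
  rw [ml_apply, pt_one, wr_io, ← io_comp, MonObj.one_mul, io_inv_hom]

@[reassoc]
theorem ml_ml (x y : HRing (stdEven T) A) : ml A y ≫ ml A x = ml A (x * y) := by
  rw [ml_apply y, ml_apply (x * y), ← pt_ml, wr_comp, Category.assoc, Category.assoc,
    Category.assoc]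
  congr 2
  have h : μ[A] ≫ (λ_ A).inv = ((λ_ A).inv ▷ A) ≫ (α_ _ A A).hom ≫ 𝟙_ T ◁ μ[A] := by monoidal
  rw [ml_apply, wr_comp, wr_comp, wr_io, wr_io, Category.assoc, Category.assoc, ← io_comp,
    MonObj.mul_assoc, ← io_comp_assoc, h, io_comp, io_comp, io_comp, io_comp, Category.assoc,
    Category.assoc, wr_α_assoc, wr_ex_assoc]

theorem ml_eq [IsCommMonObj A] (x : HRing (stdEven T) A) :
    ml A x = io (ρ_ A).inv ≫ wl A (pt A x) ≫ io μ[A] := by
  rw [ml_apply, wr_eq, Category.assoc, Category.assoc, ← io_comp, IsCommMonObj.mul_comm,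
    ← io_comp_assoc, braiding_tensorUnit_left, Iso.inv_hom_id_assoc]

end Ml

variable [HasCoproducts.{0} T] (D : MUData T) (U : UF D.R)

/-- The cochain `z ⊗ 1`. -/
noncomputable def Φ (X : T) (s : ℕ) : Cob Laz s →+ (ob X ⟶ U.td.K.Q (s + 1) (ob X)) :=
  AddMonoidHom.mk' (fun z => io (λ_ X).inv ≫ wr (pt _ (D.ev s z)) X ≫ (U.th (s + 1) X).inv)
    fun z z' => by rw [map_add, map_add, wr_add, Preadditive.add_comp, Preadditive.comp_add]

variable {X Y : T} {s t : ℕ}

@[reassoc]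
theorem Φ_th (z : Cob Laz s) :
    Φ D U X s z ≫ (U.th (s + 1) X).hom = io (λ_ X).inv ≫ wr (pt _ (D.ev s z)) X := by
  rw [← Iso.eq_comp_inv, Category.assoc]
  rfl

theorem deg_Φ {w a : ℤ} {z : Cob Laz s} (hz : Cob.IsWt w z) (e : a = -(2 * w)) :
    Deg a (Φ D U X s z) := by
  obtain ⟨b, hb⟩ := D.ev_wt s w z hz
  have h : Deg (-(2 * w)) (pt _ (D.ev s z)) := by rw [hb]; exact deg_pt w b
  exact (deg_io _).comp ((Deg.wr X h).comp (U.deg_th _ _).inv rfl) (by omega)

@[reassoc]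
theorem Φ_nat (z : Cob Laz s) (f : ob X ⟶ ob Y) :
    Φ D U X s z ≫ U.td.K.Qm (s + 1) f = f ≫ Φ D U Y s z := by
  rw [← cancel_mono (U.th (s + 1) Y).hom, Category.assoc, Category.assoc, UF.th_nat, Φ_th_assoc,
    Φ_th, pt_inter, lam_inv_wl_assoc]

theorem pt_ev_map {m n : ℕ} (α : Fin (m + 1) → Fin (n + 1)) (z : Cob Laz m) :
    pt _ (D.ev m z) ≫ io (Am.map D.R α) = pt _ (D.ev n (Cob.map α z)) := by
  rw [← D.ev_map, pt_map]

theorem Φ_d (z : Cob Laz s) :
    Φ D U X (s + 1) (Cob.d s z) = Φ D U X s z ≫ U.td.K.d (s + 1) (ob X) := by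
  rw [← cancel_mono (U.th (s + 2) X).hom, Category.assoc, UF.d_th, Φ_th_assoc, Cob.d_apply,
    map_sum, Preadditive.sum_comp, Preadditive.comp_sum, Preadditive.comp_sum]
  refine Finset.sum_congr rfl fun i _ => ?_
  rw [map_zsmul, Preadditive.zsmul_comp, Φ_th, Preadditive.comp_zsmul, Preadditive.comp_zsmul,
    ← wr_io, ← wr_comp, pt_ev_map]

theorem Φ_one : Φ D U X 0 1 = U.td.K.un (ob X) := by
  have h := U.lam_th 0 X
  rw [← cancel_mono (U.th 1 X).hom, Φ_th, map_one, pt_one, wr_io]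
  refine Eq.trans ?_ h.symm
  rw [UF.th_zero]
  congr 3
  exact (IsMonHom.one_hom (inlM (𝟙_ T) D.R)).symm.trans (Category.id_comp _)

/-- The cup product with `Φ z` on the left. -/
theorem Φ_cup_th (z : Cob Laz s) (c : ob X ⟶ U.td.K.Q (t + 1) (ob Y)) :
    U.td.cup (Φ D U X s z) c ≫ (U.th (s + t + 1) Y).hom = c ≫ (U.th (t + 1) Y).hom ≫
      wr (io (Am.map D.R (Cob.back s t)) ≫ ml _ (D.ev _ (Cob.map (Cob.front s t) z))) Y := by
  have h : ∀ A : T, (λ_ (A ⊗ Y)).inv ≫ (α_ _ A Y).inv = (λ_ A).inv ▷ Y := fun A => by monoidal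
  rw [UF.cup_th, Φ_th_assoc, reassoc_of% pt_inter, lam_inv_wl_assoc, io_comp, α_inv_wr_assoc,
    ← io_comp_assoc, h, ← wr_io, ← wr_io, ← wr_comp, ← wr_comp, Category.assoc, cnc_eq, ml_apply,
    ← pt_ev_map, wr_comp (f := pt _ _), wr_io, tensorHom_def', io_comp, io_comp, Category.assoc,
    wr_ex_assoc, ← io_comp_assoc (λ_ _).inv, ← leftUnitor_inv_naturality, io_comp_assoc,
    Category.assoc]

/-- The cup product with `Φ z` on the right. -/
theorem cup_Φ_th {V : Gr T} (c : V ⟶ U.td.K.Q (s + 1) (ob Y)) (z : Cob Laz t) :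
    U.td.cup c (Φ D U Y t z) ≫ (U.th (s + t + 1) Y).hom = c ≫ (U.th (s + 1) Y).hom ≫
      wr (io (Am.map D.R (Cob.front s t)) ≫ ml _ (D.ev _ (Cob.map (Cob.back s t) z))) Y := by
  have h : ∀ A : T, (A ◁ (λ_ Y).inv) ≫ (α_ A _ Y).inv = (ρ_ A).inv ▷ Y := fun A => by monoidal
  rw [UF.cup_th, Φ_th, wl_comp, io_comp, Category.assoc, α_inv_mid_assoc, wl_io,
    ← io_comp_assoc, h, ← wr_io, ← wr_io, ← wr_comp, ← wr_comp, cnc_eq, ml_eq,
    ← pt_ev_map, wl_comp, wl_io, tensorHom_def, io_comp, io_comp, Category.assoc,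
    wl_ex_assoc, ← io_comp_assoc (ρ_ _).inv, ← rightUnitor_inv_naturality, io_comp_assoc,
    Category.assoc]

theorem Φ_cup (z : Cob Laz s) (z' : Cob Laz t) :
    Φ D U X (s + t) (Cob.cup z z') = U.td.cup (Φ D U X s z) (Φ D U X t z') := by
  rw [← cancel_mono (U.th (s + t + 1) X).hom, Φ_cup_th, Φ_th, Φ_th_assoc, ← wr_comp,
    reassoc_of% pt_ev_map, pt_ml, ← map_mul, Cob.cup]

end Vale.Agent.P236SY
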