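import Vale.Agent.P236SY.CvT
import Vale.Agent.P236EL.LinkC

/-!
# P236, synthetic calculus: cochains of a complex with cells
-/

open CategoryTheory MonoidalCategory Limits Pretriangulated MonObj

namespace Vale.Agent.P236SY

open GData Vale.Agent.P251 Vale.Agent.P251.T Vale.Agent.P251.S Vale.Agent.P251.H Vale.Agent.P251.M
  Vale.Agent.P251.F Vale.Agent.P251.I TD Vale.Agent.P236EL
open Vale.Agent.P251.St (SHCat)

namespace TD

variable {O : Type*} {D : GData O} (E : TD D) {V W X Y Z : D.Cat} {s t : ℕ}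

/-- The cup product with a cochain of degree zero on the left. -/
def act (e : V ⟶ E.K.M.obj Z) (c : Z ⟶ E.K.Q (t + 1) W) : V ⟶ E.K.Q (t + 1) W :=
  e ≫ E.K.M.map c ≫ E.mo t W

theorem mu_mo (t : ℕ) (W : D.Cat) : E.K.mu _ ≫ E.mo t W = E.K.M.map (E.mo t W) ≫ E.mo t W := by
  induction t generalizing W with
  | zero => exact (E.mu_assoc W).symm
  | succ t ih => exact ih _

theorem cup_act (a : V ⟶ E.K.Q (s + 1) X) (e : X ⟶ E.K.M.obj Z) (c : Z ⟶ E.K.Q (t + 1) W) :
    E.cup (E.cup (t := 0) a e) c = E.cup a (E.act e c) := by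
  rw [cup_zero, cup, cup, act, Category.assoc, ← E.K.Qm_comp_assoc, Category.assoc,
    ← E.K.mu_nat_assoc, mu_mo, Functor.map_comp, Functor.map_comp, Category.assoc, Category.assoc]

theorem un_act (f : V ⟶ Z) (c : Z ⟶ E.K.Q (t + 1) W) : E.act (f ≫ E.K.un Z) c = f ≫ c := by
  rw [act, Category.assoc, ← E.K.un_nat_assoc, un_mo, Category.comp_id]

theorem act_mid (e : V ⟶ E.K.M.obj X) (f : X ⟶ Z) (c : Z ⟶ E.K.Q (t + 1) W) :
    E.act (e ≫ E.K.M.map f) c = E.act e (f ≫ c) := by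
  rw [act, act, Functor.map_comp, Category.assoc, Category.assoc]

theorem act_zero (e : V ⟶ E.K.M.obj Z) : E.act e (0 : Z ⟶ E.K.Q (t + 1) W) = 0 := by
  rw [act, Functor.map_zero, zero_comp, comp_zero]

theorem act_comp (e : V ⟶ E.K.M.obj Z) (c : Z ⟶ E.K.Q (t + 1) W) (f : W ⟶ X) :
    E.act e (c ≫ E.K.Qm (t + 1) f) = E.act e c ≫ E.K.Qm (t + 1) f := by
  rw [act, act, Functor.map_comp, Category.assoc, ← mo_nat, Category.assoc, Category.assoc]

variable {E}

/-- A cocycle times a coboundary. -/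
theorem cup_cb {a b k : ℤ} {c : V ⟶ E.K.Q (s + 1) X} {c' : X ⟶ E.K.Q (t + 1) W} (dc : Deg a c)
    (hc : ∀ u : X ⟶ E.K.Q t W, (c ≫ E.K.d (s + 1) X) ≫ E.K.Qm (s + 2) u = 0)
    (h : E.Cb b t c') (e : a + b = k) : E.Cb k (s + t) (E.cup c c') := by
  cases t with
  | zero =>
    rw [show c' = 0 from h, ← cupH_apply, map_zero]
    exact cb_zero _ _
  | succ t =>
    obtain ⟨u, du, rfl⟩ := h
    refine ⟨(-1 : ℤ) ^ s • E.cup c u, (E.deg_cup dc du e).zsmul _, ?_⟩
    have h1 := hc u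
    have h2 := E.cup_d c u
    rw [E.K.Qm_comp, ← E.K.Qm_succ, Category.assoc _ _ (E.aq' _ _ _), ← Category.assoc, h1,
      zero_comp, zero_add] at h2
    refine Eq.trans ?_ ((Preadditive.zsmul_comp _ _ _).trans (congrArg _ h2)).symm
    rw [smul_smul, ← pow_add, ← two_mul, pow_mul, neg_one_sq, one_pow, one_smul]

end TD

variable {T : SHCat}

namespace Cx

variable (C : Cx T) {J L : Type} [Fintype J] [Fintype L] {W Y Z : T.C} {s t : ℕ}

/-- The cochain with the components `F c` on the cells `e c`. -/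
noncomputable def psi (e : J → (ob C.Γ ⟶ C.Q 0 Z)) (s : ℕ) :
    (J → Cob Laz s) →+ (ob C.Γ ⟶ C.Q s Z) :=
  AddMonoidHom.mk' (fun F => ∑ c, C.E.cup (t := 0) (C.φ C.Γ s (F c)) (e c)) fun F F' => by
    simp only [Pi.add_apply, map_add, cup_add_left, Finset.sum_add_distrib]

variable {C} (e : J → (ob C.Γ ⟶ C.Q 0 Z))

theorem psi_apply (F : J → Cob Laz s) :
    C.psi e s F = ∑ c, C.E.cup (t := 0) (C.φ C.Γ s (F c)) (e c) := rfl

theorem psi_single [DecidableEq J] (c : J) (z : Cob Laz s) :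
    C.psi e s (Pi.single c z) = C.E.cup (t := 0) (C.φ C.Γ s z) (e c) := by
  rw [psi_apply, Finset.sum_eq_single c (fun b _ hb => by
    rw [Pi.single_eq_of_ne hb, map_zero, ← cupH_apply, map_zero, AddMonoidHom.zero_apply])
    (fun h => absurd (Finset.mem_univ c) h), Pi.single_eq_same]

theorem psi_one [DecidableEq J] (c : J) : C.psi e 0 (Pi.single c 1) = e c := by
  rw [psi_single, Φ_one, ← Category.id_comp (C.E.K.un _), un_cup, Category.id_comp]

theorem psi_comp (F : J → Cob Laz s) (f : ob Z ⟶ ob Y) :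
    C.psi e s F ≫ C.E.K.Qm (s + 1) f = C.psi (fun c => e c ≫ C.E.K.Qm 1 f) s F := by
  rw [psi_apply, psi_apply, Preadditive.sum_comp]
  exact Finset.sum_congr rfl fun c _ => (C.E.cup_comp (t := 0) _ _ f).symm

/-- The product on the left. -/
theorem cup_psi (z : Cob Laz s) (F : J → Cob Laz t) :
    C.E.cup (C.φ C.Γ s z) (C.psi e t F) = C.psi e (s + t) fun c => Cob.cup z (F c) := by
  rw [psi_apply, psi_apply, ← cupH_apply, map_sum]
  exact Finset.sum_congr rfl fun c _ => by rw [Φ_cup, cup_assoc, cupH_apply]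

theorem psi_cup_sum (F : J → Cob Laz s) (x : ob Z ⟶ C.Q t W) :
    C.E.cup (C.psi e s F) x = ∑ c, C.E.cup (C.φ C.Γ s (F c)) (C.E.act (e c) x) := by
  rw [psi_apply, ← cupH_apply, map_sum, AddMonoidHom.finsetSum_apply]
  exact Finset.sum_congr rfl fun c _ => C.E.cup_act _ _ x

theorem sum_cup_psi (F : L → Cob Laz s) (A : L → J → Cob Laz t) :
    ∑ k, C.E.cup (C.φ C.Γ s (F k)) (C.psi e t (A k)) =
      C.psi e (s + t) fun c => ∑ k, Cob.cup (F k) (A k c) := by
  rw [Finset.sum_congr rfl fun k _ => cup_psi e (F k) (A k), ← map_sum]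
  exact congrArg _ (funext fun c => Finset.sum_apply _ _ _)

/-- The composition with a cochain which is given by a matrix. -/
theorem psi_cup {e' : L → (ob C.Γ ⟶ C.Q 0 W)} {x : ob Z ⟶ C.Q t W} {A : J → L → Cob Laz t}
    (h : ∀ c, C.E.act (e c) x = C.psi e' t (A c)) (F : J → Cob Laz s) :
    C.E.cup (C.psi e s F) x = C.psi e' (s + t) fun k => ∑ c, Cob.cup (F c) (A c k) := by
  rw [psi_cup_sum, ← sum_cup_psi]
  exact Finset.sum_congr rfl fun c _ => by rw [h]

/-- The composition with a map which is given by a matrix. -/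
theorem psi_map {e' : L → (ob C.Γ ⟶ C.Q 0 W)} {f : ob Z ⟶ ob W} {A : J → L → Cob Laz 0}
    (h : ∀ c, e c ≫ C.E.K.Qm 1 f = C.psi e' 0 (A c)) (F : J → Cob Laz s) :
    C.psi e s F ≫ C.E.K.Qm (s + 1) f = C.psi e' s fun k => ∑ c, Cob.cup (F c) (A c k) := by
  rw [psi_comp, psi_apply]
  simp only [h]
  exact sum_cup_psi e' F A

theorem psi_th (F : J → Cob Laz s) : C.psi e s F ≫ (C.U.th (s + 1) Z).hom =
    ∑ c, e c ≫ (C.U.th 1 Z).hom ≫
      wr (io (Am.map C.D.R fun _ : Fin 1 => Fin.last s) ≫ ml _ (C.D.ev s (F c))) Z := by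
  rw [psi_apply, Preadditive.sum_comp]
  refine Finset.sum_congr rfl fun c _ => (Φ_cup_th C.D C.U (t := 0) (F c) (e c)).trans ?_
  have h1 : Cob.back s 0 = fun _ : Fin 1 => Fin.last s :=
    funext fun i => Fin.ext (by simp [Cob.back])
  rw [h1, show Cob.front s 0 = id from rfl, Cob.map_id]
  rfl

variable (C) in
/-- Cells with their dimensions (halved) and the reduced coaction. -/
structure Cells (e : J → (ob C.Γ ⟶ C.Q 0 Z)) (dim : J → ℤ) (θ : J → J → Cob Laz 1) : Prop where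
  wt : ∀ c c', Cob.IsWt (dim c - dim c') (θ c c')
  deg : ∀ c, Deg (-(2 * dim c)) (e c)
  de : ∀ c, e c ≫ C.E.K.d 1 (ob Z) = -C.psi e 1 (θ c)

/-- The edge from the first to the last vertex. -/
def edge (t : ℕ) : Fin 2 → Fin (t + 1) := ![0, Fin.last t]

namespace Cells

variable {e} {dim : J → ℤ} {θ : J → J → Cob Laz 1} (H : C.Cells e dim θ)
include H

theorem deg_psi {w a : ℤ} {F : J → Cob Laz s} (hF : ∀ c, Cob.IsWt (w - dim c) (F c))
    (h : a = -(2 * w)) : Deg a (C.psi e s F) :=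
  Deg.sum _ fun c _ => C.E.deg_cup (t := 0) (deg_Φ _ _ (hF c) rfl) (H.deg c) (by omega)

theorem psi_d (F : J → Cob Laz s) :
    C.psi e s F ≫ C.E.K.d (s + 1) (ob Z) = C.psi e (s + 1) (DD θ s F) := by
  have h : DD θ s F = (fun c => Cob.d s (F c)) +
      (-1 : ℤ) ^ (s + 1) • fun c' => ∑ c, Cob.cup (F c) (θ c c') := rfl
  rw [h, map_add, map_zsmul, ← sum_cup_psi, psi_apply, psi_apply, Preadditive.sum_comp,
    Finset.smul_sum, ← Finset.sum_add_distrib]
  refine Finset.sum_congr rfl fun c _ => ?_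
  rw [cup_d_zero, H.de, ← Φ_d, ← cupH_apply _ _ (-_), map_neg, cupH_apply, pow_succ, mul_neg_one,
    smul_neg, neg_smul]

theorem comp {a : ℤ} {f : ob Z ⟶ ob Y} (hf : Deg (-(2 * a)) f) :
    C.Cells (fun c => e c ≫ C.E.K.Qm 1 f) (fun c => dim c + a) θ where
  wt c c' := by simpa using H.wt c c'
  deg c := (H.deg c).comp (deg_Qm _ hf) (by ring)
  de c := by
    rw [Category.assoc, C.E.K.d_naturality, ← Category.assoc, H.de, Preadditive.neg_comp, psi_comp]

theorem red : C.Cells (fun c => e c ≫ C.E.K.Qm 1 (io (C.red Z))) dim θ := by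
  simpa using H.comp (a := 0) (deg_io (C.red Z))

theorem move {n : ℕ} (α : Fin 2 → Fin (n + 1)) (c : J) :
    e c ≫ (C.U.th 1 Z).hom ≫ wr (io (Am.map C.D.R fun _ : Fin 1 => α 0)) Z =
      e c ≫ (C.U.th 1 Z).hom ≫ wr (io (Am.map C.D.R fun _ : Fin 1 => α 1)) Z +
        ∑ c', e c' ≫ (C.U.th 1 Z).hom ≫ wr (io (Am.map C.D.R fun _ : Fin 1 => α 1) ≫
          ml _ (C.D.ev n (Cob.map α (θ c c')))) Z := by
  have h := congrArg (· ≫ (C.U.th 2 Z).hom ≫ wr (io (Am.map C.D.R α)) Z) (H.de c)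
  simp only [Category.assoc, Preadditive.neg_comp] at h
  rw [reassoc_of% UF.d_th, reassoc_of% psi_th, Fin.sum_univ_two, Preadditive.sum_comp,
    Fin.val_zero, Fin.val_one, pow_zero, pow_one, one_smul, neg_smul, one_smul,
    Preadditive.add_comp, Preadditive.neg_comp, Preadditive.comp_add, Preadditive.comp_add,
    Preadditive.comp_neg, Preadditive.comp_neg, ← wr_io, ← wr_io, ← wr_comp, ← wr_comp, ← io_comp,
    ← io_comp, ← Am.map_comp, ← Am.map_comp, add_neg_eq_iff_eq_add, eq_neg_add_iff_add_eq] at h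
  have h0 : α ∘ Fin.succAbove (0 : Fin 2) = fun _ : Fin 1 => α 1 :=
    funext fun i => by rw [Subsingleton.elim i 0]; rfl
  have h1 : α ∘ Fin.succAbove (1 : Fin 2) = fun _ : Fin 1 => α 0 :=
    funext fun i => by rw [Subsingleton.elim i 0]; rfl
  rw [h0, h1] at h
  refine h.symm.trans ((add_comm _ _).trans (congrArg _ (Finset.sum_congr rfl fun c' _ => ?_)))
  rw [Category.assoc, Category.assoc, ← wr_comp, Category.assoc, ml_map, ← io_comp_assoc,
    ← Am.map_comp, C.D.ev_map]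
  rfl

/-- The product on the right. -/
theorem psi_cup_φ [DecidableEq J] (F : J → Cob Laz s) (z : Cob Laz t) :
    C.E.cup (C.psi e s F) (C.φ Z t z) = C.psi e (s + t) fun c' =>
      Cob.cup (F c') z + ∑ c, Cob.cup (F c) (z * Cob.map (edge t) (θ c c')) := by
  have h0 : ∀ (n : ℕ) (c : J) (w : Cob Laz n), C.psi e n (Pi.single c w) ≫ (C.U.th (n + 1) Z).hom =
      e c ≫ (C.U.th 1 Z).hom ≫ wr (io (Am.map C.D.R fun _ : Fin 1 => Fin.last n) ≫
        ml _ (C.D.ev n w)) Z := fun n c w => by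
    rw [psi_th, Finset.sum_eq_single c (fun b _ hb => by
      rw [Pi.single_eq_of_ne hb, map_zero, map_zero, comp_zero, wr_zero, comp_zero, comp_zero])
      (fun h => absurd (Finset.mem_univ c) h), Pi.single_eq_same]
  have h1 : ∀ c, C.E.cup (C.psi e s (Pi.single c (F c))) (C.φ Z t z) =
      C.psi e (s + t) (Pi.single c (Cob.cup (F c) z) +
        ∑ c', Pi.single c' (Cob.cup (F c) (z * Cob.map (edge t) (θ c c')))) := fun c => by
    have h2 := H.move (Cob.back s t ∘ edge t) c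
    rw [← cancel_mono (C.U.th (s + t + 1) Z).hom, cup_Φ_th, reassoc_of% h0, ← wr_comp,
      Category.assoc, ml_map_assoc, ml_ml, C.D.ev_map, ← map_mul, ← io_comp_assoc, ← Am.map_comp,
      wr_comp, mul_comm]
    refine (Category.assoc _ _ _).symm.trans (((congrArg (· ≫ _) ((Category.assoc _ _ _).symm.trans
      ((Category.assoc _ _ _).trans h2)))).trans ?_) |> (congrArg (_ ≫ ·)
        (Category.assoc _ _ _).symm).trans
    rw [map_add, map_sum, Preadditive.add_comp, Preadditive.add_comp, Preadditive.sum_comp,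
      Preadditive.sum_comp, h0, wr_comp, Category.assoc, Category.assoc]
    refine congrArg₂ (· + ·) rfl (Finset.sum_congr rfl fun c' _ => ?_)
    rw [h0, Category.assoc, Category.assoc, ← wr_comp, Category.assoc, ml_ml, ← map_mul, Cob.cup,
      map_mul (Cob.map _), Cob.map_map, ← _root_.mul_assoc]
    rfl
  conv_lhs => rw [← Finset.univ_sum_single F, map_sum, ← cupH_apply, map_sum,
    AddMonoidHom.finsetSum_apply]
  rw [Finset.sum_congr rfl fun c _ => (C.E.cupH_apply _ _).trans (h1 c), ← map_sum]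
  congr 1
  funext c'
  simp only [Finset.sum_apply, Pi.add_apply, Finset.sum_add_distrib, Finset.univ_sum_single]
  rw [← Finset.sum_apply, Finset.univ_sum_single]

end Cells

end Cx

end Vale.Agent.P236SY
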