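import Vale.Agent.P236SY.Bd
import Mathlib.CategoryTheory.Preadditive.Yoneda.Basic

/-!
# P236, synthetic calculus: cocycles representing synthetic morphisms

* `E.Rep n s x c`: the cocycle `c : V ⟶ Q (s + 1) Z` represents `x` modulo `τ`;
* `E.Ob n s c y`: `y`, of stem `n - 1` and filtration `s + 2`, is the obstruction to the
  realization of the cocycle `c`.
-/

open CategoryTheory Limits

universe v u

namespace Vale.Agent.P236SY

open GData Vale.Agent.P251.S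

namespace TD

variable {O : Type u} {D : GData.{v} O} (E : TD D)

section Deg

variable {E} {X Y : D.Cat}

theorem deg_Qm (s : ℕ) {a : ℤ} {f : X ⟶ Y} (h : Deg a f) : Deg a (E.K.Qm s f) := by
  induction s generalizing X Y with
  | zero => exact h
  | succ s ih => exact ih (E.deg_M h)

variable (E)

theorem deg_lam (s : ℕ) (X : D.Cat) : Deg 0 (E.K.lam s X) := deg_Qm s (E.deg_un X)

theorem deg_d (s : ℕ) (X : D.Cat) : Deg 0 (E.K.d s X) := by
  induction s generalizing X with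
  | zero => exact E.deg_un X
  | succ s ih => exact (ih _).add ((E.deg_lam _ _).zsmul _)

theorem deg_q (s : ℕ) (X : D.Cat) : Deg s (E.K.q s X) := by
  induction s generalizing X with
  | zero => exact deg_id _
  | succ s ih => exact (deg_Qm (s + 1) (E.deg_ρ X)).comp (ih _) (by push_cast; ring)

end Deg

variable {V Z : D.Cat}

theorem exists_cocycle {s : ℕ} {a : ℤ} {e : V ⟶ E.K.M.obj (E.K.B s Z)} (de : Deg a e)
    (he : e ≫ E.K.k s Z ≫ E.K.un _ = 0) : ∃ c : V ⟶ E.K.Q (s + 1) Z, Deg (a - s) c ∧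
      c ≫ E.K.d (s + 1) Z = 0 ∧ c ≫ E.K.q s Z = e := by
  obtain ⟨c, h1, h2⟩ := E.K.exists_cocycle
    (F := preadditiveCoyoneda.obj (Opposite.op V)) s Z e he
  refine ⟨pr (a - s) c, deg_pr _ _, ?_, ?_⟩
  · rw [← pr_comp c (E.deg_d _ _) (add_zero _)]
    exact (congrArg (pr _) h1).trans (map_zero _)
  · rw [← pr_comp c (E.deg_q _ _) (sub_add_cancel a s)]
    exact (congrArg (pr _) h2).trans de.pr_self

theorem exists_cobdy {s : ℕ} {a : ℤ} {c : V ⟶ E.K.Q (s + 2) Z} (dc : Deg a c)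
    (hc : c ≫ E.K.d (s + 2) Z = 0) (e : V ⟶ E.K.M.obj (E.K.B s Z))
    (he : c ≫ E.K.q (s + 1) Z = e ≫ E.K.k s Z ≫ E.K.un _) :
    ∃ b : V ⟶ E.K.Q (s + 1) Z, Deg a b ∧ c = b ≫ E.K.d (s + 1) Z := by
  obtain ⟨b, h1, -⟩ := E.K.exists_cobdy
    (F := preadditiveCoyoneda.obj (Opposite.op V)) s Z c hc e he
  exact dc.left (E.deg_d _ _) h1.symm (add_zero a)

@[reassoc]
theorem d_q' (s : ℕ) (Z : D.Cat) :
    E.K.d (s + 1) Z ≫ E.K.q (s + 1) Z = E.K.q s Z ≫ E.K.k s Z ≫ E.K.un _ := E.K.d_q s Z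

/-- The cocycle `c` represents `x`. -/
structure Rep (n : ℤ) (s : ℕ) (x : E.so V ⟶ E.so Z) (c : V ⟶ E.K.Q (s + 1) Z) : Prop where
  deg : Deg (-(n + s)) c
  cyc : c ≫ E.K.d (s + 1) Z = 0
  ex : ∃ g : V ⟶ E.K.B s Z, Deg (-n) g ∧ x = E.cl s (by simp) g ∧
    g ≫ E.K.un _ = c ≫ E.K.q s Z

/-- `y` is the obstruction to the realization of the cocycle `c`. -/
structure Ob (n : ℤ) (s : ℕ) (c : V ⟶ E.K.Q (s + 1) Z) (y : E.so V ⟶ E.so Z) : Prop where
  deg : Deg (-(n + s)) c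
  cyc : c ≫ E.K.d (s + 1) Z = 0
  ex : ∃ w : V ⟶ E.K.B (s + 2) Z, Deg (-(n - 1)) w ∧ y = E.cl (s + 2) (by omega) w ∧
    w ≫ E.oc (s + 1) Z = c ≫ E.K.q s Z ≫ E.K.k s Z

/-- `c` is a coboundary of degree `a`. -/
def Cb (a : ℤ) : ∀ (s : ℕ), (V ⟶ E.K.Q (s + 1) Z) → Prop
  | 0, c => c = 0
  | s + 1, c => ∃ b : V ⟶ E.K.Q (s + 1) Z, Deg a b ∧ c = b ≫ E.K.d (s + 1) Z

variable {E} {n : ℤ} {s : ℕ} {x x' y y' : E.so V ⟶ E.so Z} {c c' : V ⟶ E.K.Q (s + 1) Z}

theorem cb_zero (a : ℤ) (s : ℕ) : E.Cb a s (0 : V ⟶ E.K.Q (s + 1) Z) := by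
  cases s with
  | zero => rfl
  | succ s => exact ⟨0, deg_zero _, zero_comp.symm⟩

theorem Cb.deg {a : ℤ} (h : E.Cb a s c) : Deg a c := by
  cases s with
  | zero => rw [show c = 0 from h]; exact deg_zero _
  | succ s => obtain ⟨b, hb, rfl⟩ := h; exact hb.comp (E.deg_d _ _) (add_zero _)

theorem Cb.cyc {a : ℤ} (h : E.Cb a s c) : c ≫ E.K.d (s + 1) Z = 0 := by
  cases s with
  | zero => rw [show c = 0 from h, zero_comp]
  | succ s => obtain ⟨b, hb, rfl⟩ := h; rw [Category.assoc, E.K.d_d, comp_zero]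

theorem Cb.add {a : ℤ} (h : E.Cb a s c) (h' : E.Cb a s c') : E.Cb a s (c + c') := by
  cases s with
  | zero => exact (congrArg₂ (· + ·) h h').trans (add_zero _)
  | succ s =>
    obtain ⟨b, hb, rfl⟩ := h
    obtain ⟨b', hb', rfl⟩ := h'
    exact ⟨b + b', hb.add hb', (Preadditive.add_comp _ _ _ _ _ _).symm⟩

theorem Cb.zsmul {a : ℤ} (h : E.Cb a s c) (k : ℤ) : E.Cb a s (k • c) := by
  cases s with
  | zero => exact (congrArg (k • ·) h).trans (smul_zero _)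
  | succ s =>
    obtain ⟨b, hb, rfl⟩ := h
    exact ⟨k • b, hb.zsmul k, (Preadditive.zsmul_comp _ _ _).symm⟩

theorem Cb.neg {a : ℤ} (h : E.Cb a s c) : E.Cb a s (-c) := by simpa using h.zsmul (-1)

theorem Cb.q_k {a : ℤ} (h : E.Cb a s c) : c ≫ E.K.q s Z ≫ E.K.k s Z = 0 := by
  cases s with
  | zero => rw [show c = 0 from h, zero_comp]
  | succ s =>
    obtain ⟨b, -, rfl⟩ := h
    rw [Category.assoc, d_q'_assoc, E.K.un_k, comp_zero, comp_zero, comp_zero]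

theorem Dg.exists_rep (hx : E.Dg n s x) : ∃ c, E.Rep n s x c := by
  obtain ⟨g, hg, rfl⟩ := hx.exists s (by simp)
  obtain ⟨c, h1, h2, h3⟩ := E.exists_cocycle (hg.comp (E.deg_un _) (add_zero _))
    (by rw [Category.assoc, E.K.un_k_assoc, zero_comp, comp_zero])
  exact ⟨c, h1.cast (by ring), h2, g, hg, rfl, h3.symm⟩

namespace Rep

theorem dg (h : E.Rep n s x c) : E.Dg n s x := by
  obtain ⟨g, hg, rfl, -⟩ := h.ex
  exact dg_cl _ _ hg

theorem add (h : E.Rep n s x c) (h' : E.Rep n s x' c') : E.Rep n s (x + x') (c + c') := by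
  obtain ⟨g, hg, rfl, e⟩ := h.ex
  obtain ⟨g', hg', rfl, e'⟩ := h'.ex
  exact ⟨h.deg.add h'.deg, by rw [Preadditive.add_comp, h.cyc, h'.cyc, add_zero], g + g',
    hg.add hg', (map_add _ _ _).symm, by rw [Preadditive.add_comp, e, e', Preadditive.add_comp]⟩

theorem zsmul (h : E.Rep n s x c) (k : ℤ) : E.Rep n s (k • x) (k • c) := by
  obtain ⟨g, hg, rfl, e⟩ := h.ex
  exact ⟨h.deg.zsmul k, by rw [Preadditive.zsmul_comp, h.cyc, smul_zero], k • g, hg.zsmul k,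
    (map_zsmul _ _ _).symm, by rw [Preadditive.zsmul_comp, e, Preadditive.zsmul_comp]⟩

theorem usmul (h : E.Rep n s x c) (k : ℤˣ) : E.Rep n s (k • x) (k • c) := h.zsmul k

theorem neg (h : E.Rep n s x c) : E.Rep n s (-x) (-c) := by simpa using h.zsmul (-1)

theorem sub (h : E.Rep n s x c) (h' : E.Rep n s x' c') : E.Rep n s (x - x') (c - c') := by
  simpa only [sub_eq_add_neg] using h.add h'.neg

theorem cast {m : ℤ} (h : E.Rep n s x c) (e : n = m) : E.Rep m s x c := e ▸ h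

end Rep

theorem Cb.rep (h : E.Cb (-(n + s)) s c) : E.Rep n s 0 c := by
  refine ⟨h.deg, h.cyc, ?_⟩
  cases s with
  | zero => exact ⟨0, deg_zero _, (map_zero _).symm, by rw [show c = 0 from h]; simp⟩
  | succ s =>
    obtain ⟨b, hb, rfl⟩ := h
    refine ⟨b ≫ E.K.q s Z ≫ E.K.k s Z,
      hb.comp ((E.deg_q _ _).comp (E.deg_k _ _) rfl) (by push_cast; ring), ?_, ?_⟩
    · symm
      rw [E.cl_eq_zero_oc (by push_cast; rfl), Category.assoc, Category.assoc, k_oc, comp_zero,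
        comp_zero]
    · rw [Category.assoc, Category.assoc, Category.assoc, d_q']

theorem rep_zero (n : ℤ) (s : ℕ) : E.Rep n s (0 : E.so V ⟶ E.so Z) 0 := (cb_zero _ s).rep

theorem Rep.sum {ι : Type*} (S : Finset ι) {x : ι → (E.so V ⟶ E.so Z)}
    {c : ι → (V ⟶ E.K.Q (s + 1) Z)} (h : ∀ i ∈ S, E.Rep n s (x i) (c i)) :
    E.Rep n s (∑ i ∈ S, x i) (∑ i ∈ S, c i) := by
  classical
  induction S using Finset.induction_on with
  | empty => exact rep_zero n s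
  | insert a S ha ih =>
    rw [Finset.sum_insert ha, Finset.sum_insert ha]
    exact (h a (Finset.mem_insert_self _ _)).add (ih fun i hi => h i (Finset.mem_insert_of_mem hi))

/-- Change of the cocycle by a coboundary. -/
theorem Rep.cob (h : E.Rep n s x c) (h' : E.Cb (-(n + s)) s (c' - c)) : E.Rep n s x c' := by
  simpa using h.add h'.rep

theorem Dg.rep_τ {t : ℤ} (hy : E.Dg n t y) (e : t = s + 1) : E.Rep n s (y ≫ E.τ _) 0 := by
  subst e
  obtain ⟨g, hg, rfl⟩ := hy.exists (s + 1) (by omega)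
  refine ⟨deg_zero _, zero_comp, g ≫ E.oc s Z, hg.comp (E.deg_oc _ _) (add_zero _), ?_, by simp⟩
  rw [cl_oc]
  exact E.cl_τ (by omega) _ _ g

/-- A class represented by a coboundary is divisible by `τ`. -/
theorem Rep.div (h : E.Rep n s x c) (hc : E.Cb (-(n + s)) s c) :
    ∃ y, E.Dg n (s + 1) y ∧ x = y ≫ E.τ _ := by
  obtain ⟨g, hg, rfl, e⟩ := (h.cob (c' := 0) (by simpa using hc.neg)).ex
  rw [zero_comp] at e
  obtain ⟨w, hw⟩ := E.exists_oc g e
  obtain ⟨w, dw, rfl⟩ := hg.left (E.deg_oc _ _) hw (add_zero _)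
  exact ⟨E.cl (s + 1) (by omega) w, dg_cl _ _ dw, by rw [cl_oc, E.cl_τ (j := s) (by omega)]⟩

/-- Classes with cohomologous cocycles agree modulo `τ`. -/
theorem Rep.eq_add (h : E.Rep n s x c) (h' : E.Rep n s x' c') (hc : E.Cb (-(n + s)) s (c - c')) :
    ∃ y, E.Dg n (s + 1) y ∧ x = x' + y ≫ E.τ _ := by
  obtain ⟨y, hy, e⟩ := (h.sub h').div hc
  exact ⟨y, hy, by rw [← e, add_sub_cancel]⟩

/-- The cocycle is determined up to a coboundary. -/
theorem Rep.uniq (h : E.Rep n s x c) (h' : E.Rep n s x c') : E.Cb (-(n + s)) s (c - c') := by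
  have h0 := h.sub h'
  rw [sub_self] at h0
  obtain ⟨g, hg, e, e'⟩ := h0.ex
  cases s with
  | zero =>
    rw [eq_comm, E.cl_eq_zero_neg (by simp)] at e
    rw [e, zero_comp, E.K.q_zero, Category.comp_id] at e'
    exact e'.symm
  | succ s =>
    rw [eq_comm, E.cl_eq_zero_oc (by push_cast; rfl)] at e
    obtain ⟨w, rfl⟩ := E.exists_k g e
    exact E.exists_cobdy h0.deg h0.cyc w (by rw [← e', Category.assoc])

/-- A class which is divisible by `τ` is represented by coboundaries. -/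
theorem Rep.cb_of_τ {t : ℤ} (h : E.Rep n s x c) (hy : E.Dg n t y) (e : t = s + 1)
    (hx : x = y ≫ E.τ _) : E.Cb (-(n + s)) s c := by
  subst hx
  simpa only [sub_zero] using h.uniq (hy.rep_τ e)

theorem Rep.cb_of_zero (h : E.Rep n s 0 c) : E.Cb (-(n + s)) s c := by
  simpa using h.uniq (rep_zero n s)

theorem exists_ob (dc : Deg (-(n + s)) c) (hc : c ≫ E.K.d (s + 1) Z = 0) : ∃ y, E.Ob n s c y := by
  obtain ⟨w, hw⟩ := E.exists_oc (c ≫ E.K.q s Z ≫ E.K.k s Z) (by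
    rw [Category.assoc, Category.assoc, ← d_q', reassoc_of% hc, zero_comp])
  obtain ⟨w, dw, hw⟩ := (dc.comp ((E.deg_q _ _).comp (E.deg_k _ _) rfl) rfl).left (E.deg_oc _ _) hw
    (show -(n - 1) + 0 = _ by ring)
  exact ⟨_, dc, hc, w, dw, rfl, hw.symm⟩

namespace Ob

theorem dg (h : E.Ob n s c y) : E.Dg (n - 1) (s + 2) y := by
  obtain ⟨w, hw, rfl, -⟩ := h.ex
  exact dg_cl _ _ hw

theorem τ (h : E.Ob n s c y) : y ≫ E.τ _ = 0 := by
  obtain ⟨w, hw, rfl, e⟩ := h.ex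
  rw [E.cl_τ (j := s + 1) (by ring) _ (by omega), ← E.cl_oc (s + 1) (by omega), e,
    E.cl_eq_zero_oc rfl, Category.assoc, Category.assoc, k_oc, comp_zero, comp_zero]

theorem add (h : E.Ob n s c y) (h' : E.Ob n s c' y') : E.Ob n s (c + c') (y + y') := by
  obtain ⟨g, hg, rfl, e⟩ := h.ex
  obtain ⟨g', hg', rfl, e'⟩ := h'.ex
  exact ⟨h.deg.add h'.deg, by rw [Preadditive.add_comp, h.cyc, h'.cyc, add_zero], g + g',
    hg.add hg', (map_add _ _ _).symm, by rw [Preadditive.add_comp, e, e', Preadditive.add_comp]⟩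

theorem zsmul (h : E.Ob n s c y) (k : ℤ) : E.Ob n s (k • c) (k • y) := by
  obtain ⟨g, hg, rfl, e⟩ := h.ex
  exact ⟨h.deg.zsmul k, by rw [Preadditive.zsmul_comp, h.cyc, smul_zero], k • g, hg.zsmul k,
    (map_zsmul _ _ _).symm, by rw [Preadditive.zsmul_comp, e, Preadditive.zsmul_comp]⟩

theorem usmul (h : E.Ob n s c y) (k : ℤˣ) : E.Ob n s (k • c) (k • y) := h.zsmul k

theorem neg (h : E.Ob n s c y) : E.Ob n s (-c) (-y) := by simpa using h.zsmul (-1)

theorem sub (h : E.Ob n s c y) (h' : E.Ob n s c' y') : E.Ob n s (c - c') (y - y') := by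
  simpa only [sub_eq_add_neg] using h.add h'.neg

theorem cast {m : ℤ} (h : E.Ob n s c y) (e : n = m) : E.Ob m s c y := e ▸ h

theorem eq_zero (h : E.Ob n s c y) (hc : c ≫ E.K.q s Z ≫ E.K.k s Z = 0) : y = 0 := by
  obtain ⟨w, -, rfl, e⟩ := h.ex
  rw [E.cl_eq_zero_oc (s := s + 1) (by push_cast; ring), e, hc]

theorem uniq (h : E.Ob n s c y) (h' : E.Ob n s c' y') {a : ℤ} (hc : E.Cb a s (c - c')) :
    y = y' := sub_eq_zero.1 ((h.sub h').eq_zero hc.q_k)

/-- If the obstruction vanishes, the cocycle is realized. -/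
theorem rep (h : E.Ob n s c 0) : ∃ x, E.Rep n s x c := by
  obtain ⟨w, -, e, e'⟩ := h.ex
  rw [eq_comm, E.cl_eq_zero_oc (s := s + 1) (by push_cast; ring)] at e
  obtain ⟨g, hg⟩ := E.exists_un (c ≫ E.K.q s Z) (by rw [Category.assoc, ← e', e])
  obtain ⟨g, dg, hg⟩ := (h.deg.comp (E.deg_q _ _) rfl).left (E.deg_un _) hg
    (show -n + 0 = _ by ring)
  exact ⟨_, h.deg, h.cyc, g, dg, rfl, hg.symm⟩

end Ob

theorem Rep.ob (h : E.Rep n s x c) : E.Ob n s c 0 := by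
  obtain ⟨g, -, -, e⟩ := h.ex
  exact ⟨h.deg, h.cyc, 0, deg_zero _, (map_zero _).symm, by
    rw [zero_comp, ← reassoc_of% e, E.K.un_k, comp_zero]⟩

/-- The `τ`-torsion consists of obstructions. -/
theorem Dg.exists_ob {m t : ℤ} (hy : E.Dg m t y) (h : y ≫ E.τ _ = 0) (hm : m = n - 1)
    (ht : t = s + 2) : ∃ c, E.Ob n s c y := by
  subst hm ht
  obtain ⟨w, dw, rfl⟩ := hy.exists (s + 2) (by omega)
  rw [E.cl_τ (j := s + 1) (by ring) _ (by omega), ← E.cl_oc (s + 1) (by omega),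
    E.cl_eq_zero_oc rfl] at h
  obtain ⟨e, he⟩ := E.exists_k _ h
  obtain ⟨e, de, he⟩ := (dw.comp (E.deg_oc _ _) (add_zero _)).left (E.deg_k _ _) he
    (show -n + 1 = _ by ring)
  obtain ⟨c, h1, h2, h3⟩ := E.exists_cocycle de (by rw [← reassoc_of% he, oc_un, comp_zero])
  exact ⟨c, h1.cast (by ring), h2, w, dw, rfl, by rw [he, reassoc_of% h3]⟩

variable (E V Z) in
/-- The `E₂`-term vanishes in stem `n` and filtration `s`. -/
def Van (n : ℤ) (s : ℕ) : Prop := ∀ c : V ⟶ E.K.Q (s + 1) Z, Deg (-(n + s)) c →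
  c ≫ E.K.d (s + 1) Z = 0 → E.Cb (-(n + s)) s c

theorem Van.div (h : E.Van V Z n s) (hx : E.Dg n s x) : ∃ y, E.Dg n (s + 1) y ∧ x = y ≫ E.τ _ := by
  obtain ⟨c, hc⟩ := hx.exists_rep
  exact hc.div (h c hc.deg hc.cyc)

theorem Van.τ_inj {m t : ℤ} (h : E.Van V Z n s) (hy : E.Dg m t y) (h0 : y ≫ E.τ _ = 0)
    (hm : m = n - 1) (ht : t = s + 2) : y = 0 := by
  obtain ⟨c, hc⟩ := hy.exists_ob h0 hm ht
  exact hc.eq_zero (h c hc.deg hc.cyc).q_k

theorem div_of_van (k : ℕ) (h : ∀ r, s ≤ r → r < s + k → E.Van V Z n r) (hx : E.Dg n s x) :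
    ∃ y, E.Dg n (s + k) y ∧ x = y ≫ E.tp k _ := by
  induction k with
  | zero => exact ⟨x, hx.cast rfl (by simp), (Category.comp_id x).symm⟩
  | succ k ih =>
    obtain ⟨y, hy, rfl⟩ := ih fun r h1 h2 => h r h1 (by omega)
    obtain ⟨y', hy', rfl⟩ := (h (s + k) (by omega) (by omega)).div (hy.cast rfl (by simp))
    exact ⟨y', hy'.cast rfl (by push_cast; ring), by rw [tp_succ, Category.assoc, τ_comm]⟩

end TD

end Vale.Agent.P236SY
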