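import Vale.Agent.P236SY.Dict

/-!
# P236, synthetic calculus: cocycles of tensor products, and the action of the sphere
-/

open CategoryTheory MonoidalCategory Limits Pretriangulated MonObj

namespace Vale.Agent.P236SY

open GData Vale.Agent.P251 Vale.Agent.P251.T Vale.Agent.P251.S Vale.Agent.P251.H Vale.Agent.P251.M
  Vale.Agent.P251.F Vale.Agent.P251.I TD
open Vale.Agent.P251.St (SHCat)

namespace TD

variable {O : Type*} {D : GData O} {E : TD D}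

/-- Compatibility of a functor with the ring. -/
structure CF.Rg (Φ : E.CF) where
  /-- the exchange -/
  m : ∀ X, Φ.obj (E.K.M.obj X) ⟶ E.K.M.obj (Φ.obj X)
  m_nat : ∀ {X Y : D.Cat} (f : X ⟶ Y), Φ.map (E.K.M.map f) ≫ m Y = m X ≫ E.K.M.map (Φ.map f)
  m_un : ∀ X, Φ.map (E.K.un X) ≫ m X = E.K.un (Φ.obj X)
  m_ρ : ∀ X, m X ≫ E.K.ρ (Φ.obj X) = Φ.map (E.K.ρ X) ≫ Φ.ν X
  m_mu : ∀ X, Φ.map (E.K.mu X) ≫ m X = m (E.K.M.obj X) ≫ E.K.M.map (m X) ≫ E.K.mu (Φ.obj X)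
  deg_m : ∀ X, Deg 0 (m X)

namespace CF.Rg

attribute [reassoc] m_nat m_un m_ρ m_mu

variable {Φ : E.CF} (P : Φ.Rg)

/-- The iterated exchange. -/
def ms : ∀ (s : ℕ) (X : D.Cat), Φ.obj (E.K.Q s X) ⟶ E.K.Q s (Φ.obj X)
  | 0, _ => 𝟙 _
  | s + 1, X => ms s (E.K.M.obj X) ≫ E.K.Qm s (P.m X)

theorem ms_succ (s : ℕ) (X : D.Cat) :
    P.ms (s + 1) X = P.ms s (E.K.M.obj X) ≫ E.K.Qm s (P.m X) := rfl

theorem deg_ms (s : ℕ) (X : D.Cat) : Deg 0 (P.ms s X) := by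
  induction s generalizing X with
  | zero => exact deg_id _
  | succ s ih => exact (ih _).comp (deg_Qm s (P.deg_m X)) rfl

@[reassoc]
theorem ms_nat (s : ℕ) {X Y : D.Cat} (f : X ⟶ Y) :
    Φ.map (E.K.Qm s f) ≫ P.ms s Y = P.ms s X ≫ E.K.Qm s (Φ.map f) := by
  induction s generalizing X Y with
  | zero => exact (Category.comp_id _).trans (Category.id_comp _).symm
  | succ s ih =>
    rw [ms_succ, ms_succ, E.K.Qm_succ, reassoc_of% ih, ← E.K.Qm_comp, P.m_nat, E.K.Qm_comp,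
      Category.assoc]
    rfl

theorem ms_lam (s : ℕ) (X : D.Cat) :
    Φ.map (E.K.lam s X) ≫ P.ms (s + 1) X = P.ms s X ≫ E.K.lam s (Φ.obj X) := by
  rw [ms_succ, CobarData.lam, ms_nat_assoc, ← E.K.Qm_comp, P.m_un]
  rfl

@[reassoc]
theorem ms_d (s : ℕ) (X : D.Cat) :
    Φ.map (E.K.d s X) ≫ P.ms (s + 1) X = P.ms s X ≫ E.K.d s (Φ.obj X) := by
  induction s generalizing X with
  | zero => exact P.ms_lam 0 X
  | succ s ih =>
    rw [E.K.d_succ, E.K.d_succ, map_add, map_zsmul, Preadditive.add_comp, Preadditive.comp_add,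
      Preadditive.zsmul_comp, Preadditive.comp_zsmul, ms_lam, P.ms_succ (s + 1), reassoc_of% ih,
      ← E.K.d_naturality, ← Category.assoc]
    rfl

@[reassoc]
theorem ms_q (s : ℕ) (X : D.Cat) : P.ms (s + 1) X ≫ E.K.q s (Φ.obj X) =
    Φ.map (E.K.q s X) ≫ P.m (E.K.B s X) ≫ E.K.M.map (Φ.νs s X) := by
  induction s generalizing X with
  | zero =>
    rw [E.K.q_zero, E.K.q_zero, Φ.map_id, νs_zero, CategoryTheory.Functor.map_id]
    exact (Category.assoc _ _ _)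
  | succ s ih =>
    have h := E.K.q_naturality s (Φ.ν X)
    rw [Bm_eq s (Φ.deg_ν X), mul_zero, Int.negOnePow_zero, one_smul] at h
    rw [E.K.q_succ, E.K.q_succ, ms_succ, Category.assoc, ← E.K.Qm_comp_assoc, P.m_ρ,
      E.K.Qm_comp_assoc, h, ← ms_nat_assoc, reassoc_of% ih, Φ.map_comp, νs_succ, Functor.map_comp,
      Category.assoc]

@[reassoc]
theorem m_k (s : ℕ) (X : D.Cat) : P.m (E.K.B s X) ≫ E.K.M.map (Φ.νs s X) ≫ E.K.k s (Φ.obj X) =
    Φ.map (E.K.k s X) ≫ Φ.νs (s + 1) X := by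
  induction s generalizing X with
  | zero => rw [νs_zero, CategoryTheory.Functor.map_id, Category.id_comp, νs_one]; exact P.m_ρ X
  | succ s ih =>
    have h := E.k_nat s (Φ.deg_ν X)
    rw [Int.negOnePow_zero, one_smul] at h
    have h' := ih (E.K.G.obj X)
    rw [Φ.νs_succ s X, Functor.map_comp, Category.assoc, E.K.k_succ, ← h, reassoc_of% h',
      Φ.νs_succ (s + 1) X]
    rfl

variable {V Z : D.Cat} {n a : ℤ} {s : ℕ} {x : E.so V ⟶ E.so Z} {c : V ⟶ E.K.Q (s + 1) Z}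

theorem cyc (h : c ≫ E.K.d (s + 1) Z = 0) :
    (Φ.map c ≫ P.ms (s + 1) Z) ≫ E.K.d (s + 1) _ = 0 := by
  rw [Category.assoc, ← ms_d, ← Φ.map_comp_assoc, h, map_zero, zero_comp]

theorem cb (h : E.Cb a s c) : E.Cb a s (Φ.map c ≫ P.ms (s + 1) Z) := by
  cases s with
  | zero => rw [show c = 0 from h, map_zero, zero_comp]; exact cb_zero _ _
  | succ s =>
    obtain ⟨b, hb, rfl⟩ := h
    exact ⟨Φ.map b ≫ P.ms _ Z, (Φ.deg hb).comp (P.deg_ms _ _) (add_zero _), by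
      rw [Φ.map_comp, Category.assoc, Category.assoc, ms_d]⟩

theorem rep (h : E.Rep n s x c) : E.Rep n s (Φ.S x) (Φ.map c ≫ P.ms (s + 1) Z) := by
  obtain ⟨g, hg, rfl, e⟩ := h.ex
  refine ⟨(Φ.deg h.deg).comp (P.deg_ms _ _) (add_zero _), P.cyc h.cyc, Φ.map g ≫ Φ.νs s Z,
    (Φ.deg hg).comp (Φ.deg_νs _ _) (add_zero _), Φ.S_cl _ _ g, ?_⟩
  rw [Category.assoc, Category.assoc, ms_q, ← Φ.map_comp_assoc, ← e, Φ.map_comp_assoc,
    m_un_assoc, E.K.un_nat]

theorem ob (h : E.Ob n s c x) : E.Ob n s (Φ.map c ≫ P.ms (s + 1) Z) (Φ.S x) := by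
  obtain ⟨g, hg, rfl, e⟩ := h.ex
  refine ⟨(Φ.deg h.deg).comp (P.deg_ms _ _) (add_zero _), P.cyc h.cyc, Φ.map g ≫ Φ.νs _ Z,
    (Φ.deg hg).comp (Φ.deg_νs _ _) (add_zero _), Φ.S_cl _ _ g, ?_⟩
  rw [Category.assoc, Category.assoc, ms_q_assoc, m_k, νs_oc, ← Φ.map_comp_assoc, e,
    Φ.map_comp, Φ.map_comp, Category.assoc, Category.assoc]

end CF.Rg

end TD

variable {T : SHCat}

namespace UF

variable {R : T.C} [MonObj R] (U : UF R)

/-- `- ⊗ W` is compatible with the ring. -/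
@[reducible] noncomputable def rR (W : T.C) : (U.cR W).Rg where
  m X := io (α_ R X.obj W).hom
  m_nat f := mid_α _ _ f
  m_un X := by
    change wr (io _) _ ≫ io _ = io _
    rw [wr_io, ← io_comp, unitMap, unitMap]
    congr 1
    monoidal
  m_ρ X := (wr_α _ _ _).symm
  m_mu X := by
    change wr (io _) _ ≫ io _ = io _ ≫ wl _ (io _) ≫ io _
    rw [wr_io, wl_io, ← io_comp, ← io_comp, ← io_comp, mulMap, mulMap]
    congr 1
    monoidal
  deg_m _ := deg_io _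

/-- `W ⊗ -` is compatible with the ring. -/
@[reducible] noncomputable def rL (W : T.C) : (U.cL W).Rg where
  m X := io (swp W R X.obj)
  m_nat f := swp_nat₃ _ _ f
  m_un X := by
    change wl _ (io _) ≫ io _ = io _
    rw [wl_io, ← io_comp]
    exact congrArg io (unit_swp _ _ _)
  m_ρ X := (swp_nat₂ _ _ _).symm
  m_mu X := by
    change wl _ (io _) ≫ io _ = io _ ≫ wl _ (io _) ≫ io _
    rw [wl_io, wl_io, ← io_comp, ← io_comp, ← io_comp, mulMap, mulMap]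
    congr 1
    simp only [swp, MonoidalCategory.whiskerLeft_comp, Category.assoc]
    rw [associator_inv_naturality_middle_assoc, ← comp_whiskerRight_assoc,
      BraidedCategory.braiding_naturality_right, BraidedCategory.braiding_tensor_right_hom]
    monoidal
  deg_m _ := deg_io _

theorem rR_th (W : T.C) (n : ℕ) (X : T.C) : (U.rR W).ms n (ob X) ≫ (U.th n (X ⊗ W)).hom =
    wr (U.th n X).hom W ≫ io (α_ _ X W).hom := by
  induction n generalizing X with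
  | zero =>
    rw [th_zero, th_zero, wr_io, ← io_comp]
    exact (Category.id_comp _).trans (congrArg io (by monoidal))
  | succ n ih =>
    have h := U.th_nat n (io (α_ R X W).hom)
    have h' := ih (R ⊗ X)
    rw [CF.Rg.ms_succ, th_succ, th_succ, Category.assoc, reassoc_of% h, reassoc_of% h', wr_comp,
      Category.assoc, wl_io, wr_io, ← io_comp, ← io_comp, ← io_comp]
    congr 2
    monoidal

theorem rL_th (W : T.C) (n : ℕ) (X : T.C) : (U.rL W).ms n (ob X) ≫ (U.th n (W ⊗ X)).hom =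
    wl W (U.th n X).hom ≫ io (swp W _ X) := by
  induction n generalizing X with
  | zero =>
    rw [th_zero, th_zero, wl_io, ← io_comp]
    refine (Category.id_comp _).trans (congrArg io ?_)
    simpa using (unit_swp (𝟙 (𝟙_ T.C)) W X).symm
  | succ n ih =>
    have h := U.th_nat n (io (swp W R X))
    have h' := ih (R ⊗ X)
    rw [CF.Rg.ms_succ, th_succ, th_succ, Category.assoc, reassoc_of% h, reassoc_of% h', wl_comp,
      Category.assoc, wl_io, wl_io, ← io_comp, ← io_comp, ← io_comp]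
    congr 2
    change _ = _ ≫ swp W (Am R n ⊗ R) X
    simp only [swp, BraidedCategory.braiding_tensor_right_hom]
    monoidal

end UF

namespace Cx

variable (C : Cx T) {V W X Y Z : T.C} {n m : ℤ} {s t : ℕ}

/-- `c ⊗ W` for a cochain `c` -/
noncomputable def cr (W : T.C) (c : ob X ⟶ C.Q s Y) : ob (X ⊗ W) ⟶ C.Q s (Y ⊗ W) :=
  wr c W ≫ (C.U.rR W).ms (s + 1) (ob Y)

/-- `W ⊗ c` for a cochain `c` -/
noncomputable def cl (W : T.C) (c : ob X ⟶ C.Q s Y) : ob (W ⊗ X) ⟶ C.Q s (W ⊗ Y) :=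
  wl W c ≫ (C.U.rL W).ms (s + 1) (ob Y)

variable {C}

theorem rep_sr {x : C.o X ⟶ C.o Y} {c : ob X ⟶ C.Q s Y} (h : C.E.Rep n s x c) (W : T.C) :
    C.E.Rep n s (C.U.sr W x) (C.cr W c) := (C.U.rR W).rep h

theorem rep_sl {x : C.o X ⟶ C.o Y} {c : ob X ⟶ C.Q s Y} (h : C.E.Rep n s x c) (W : T.C) :
    C.E.Rep n s (C.U.sl W x) (C.cl W c) := (C.U.rL W).rep h

theorem ob_sr {x : C.o X ⟶ C.o Y} {c : ob X ⟶ C.Q s Y} (h : C.E.Ob n s c x) (W : T.C) :
    C.E.Ob n s (C.cr W c) (C.U.sr W x) := (C.U.rR W).ob h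

theorem ob_sl {x : C.o X ⟶ C.o Y} {c : ob X ⟶ C.Q s Y} (h : C.E.Ob n s c x) (W : T.C) :
    C.E.Ob n s (C.cl W c) (C.U.sl W x) := (C.U.rL W).ob h

theorem cr_comp (c : ob X ⟶ C.Q s Y) (f : ob Y ⟶ ob Z) :
    C.cr W (c ≫ C.E.K.Qm (s + 1) f) = C.cr W c ≫ C.E.K.Qm (s + 1) (wr f W) := by
  rw [cr, cr, wr_comp, Category.assoc, Category.assoc]
  exact congrArg _ ((C.U.rR W).ms_nat (s + 1) f)

theorem cl_comp (c : ob X ⟶ C.Q s Y) (f : ob Y ⟶ ob Z) :
    C.cl W (c ≫ C.E.K.Qm (s + 1) f) = C.cl W c ≫ C.E.K.Qm (s + 1) (wl W f) := by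
  rw [cl, cl, wl_comp, Category.assoc, Category.assoc]
  exact congrArg _ ((C.U.rL W).ms_nat (s + 1) f)

theorem comp_cr (f : ob V ⟶ ob X) (c : ob X ⟶ C.Q s Y) : C.cr W (f ≫ c) = wr f W ≫ C.cr W c := by
  rw [cr, cr, wr_comp, Category.assoc]

theorem comp_cl (f : ob V ⟶ ob X) (c : ob X ⟶ C.Q s Y) : C.cl W (f ≫ c) = wl W f ≫ C.cl W c := by
  rw [cl, cl, wl_comp, Category.assoc]

theorem cr_φ (z : Cob Laz s) : C.cr W (C.φ X s z) = C.φ (X ⊗ W) s z := by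
  rw [← cancel_mono (C.U.th (s + 1) (X ⊗ W)).hom, cr, Category.assoc, UF.rR_th, ← wr_comp_assoc,
    Φ_th, Φ_th, wr_comp, Category.assoc, wr_α, wr_io, ← io_comp_assoc]
  congr 2
  monoidal

theorem cl_φ (z : Cob Laz s) : C.cl W (C.φ X s z) = C.φ (W ⊗ X) s z := by
  rw [← cancel_mono (C.U.th (s + 1) (W ⊗ X)).hom, cl, Category.assoc, UF.rL_th, ← wl_comp_assoc,
    Φ_th, Φ_th, wl_comp, Category.assoc, swp_nat₂, wl_io, ← io_comp_assoc]
  congr 2
  simpa using unit_swp (𝟙 (𝟙_ T.C)) W X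

/-- Naturality of the reduction for cochains. -/
theorem red_cr (c : ob X ⟶ C.Q s Y) :
    io (C.red X) ≫ C.cr C.M c = c ≫ C.E.K.Qm (s + 1) (io (C.red Y)) := by
  rw [← cancel_mono (C.U.th (s + 1) _).hom, cr, ← red_nat_assoc, Category.assoc, Category.assoc,
    Category.assoc, UF.rR_th, UF.th_nat, ← red_nat_assoc, wl_io, ← io_comp, red, red]
  congr 3
  monoidal

end Cx

end Vale.Agent.P236SY
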