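import Vale.Agent.P236SY.GrTens
import Vale.Agent.P236SY.Mul

/-!
# P236, synthetic calculus: the tower data of a ring object
-/

set_option linter.unusedSectionVars false

open CategoryTheory MonoidalCategory Limits Pretriangulated MonObj

universe v u

namespace Vale.Agent.P236SY

open GData Vale.Agent.P251.T Vale.Agent.P251.S Vale.Agent.P251.H

section Swp

variable {T : Type u} [Category.{v} T] [MonoidalCategory T] [SymmetricCategory T]

/-- The exchange of the first two factors. -/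
def swp (A B X : T) : A ⊗ (B ⊗ X) ⟶ B ⊗ (A ⊗ X) :=
  (α_ A B X).inv ≫ ((β_ A B).hom ▷ X) ≫ (α_ B A X).hom

@[reassoc (attr := simp)]
theorem swp_swp (A B X : T) : swp A B X ≫ swp B A X = 𝟙 _ := by
  simp only [swp, Category.assoc, Iso.hom_inv_id_assoc]
  rw [← comp_whiskerRight_assoc, SymmetricCategory.symmetry]
  simp

theorem swp_aug {I : T} (e : I ⟶ 𝟙_ T) (A X : T) :
    swp A I X ≫ (e ▷ (A ⊗ X)) ≫ (λ_ _).hom = A ◁ ((e ▷ X) ≫ (λ_ X).hom) := by
  simp only [swp, Category.assoc]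
  rw [← associator_naturality_left_assoc, ← comp_whiskerRight_assoc,
    ← BraidedCategory.braiding_naturality_right, braiding_tensorUnit_right]
  monoidal

theorem unit_swp {R : T} (e : 𝟙_ T ⟶ R) (A X : T) :
    (A ◁ ((λ_ X).inv ≫ (e ▷ X))) ≫ swp A R X = (λ_ _).inv ≫ (e ▷ (A ⊗ X)) := by
  simp only [swp, MonoidalCategory.whiskerLeft_comp, Category.assoc]
  rw [associator_inv_naturality_middle_assoc, ← comp_whiskerRight_assoc,
    BraidedCategory.braiding_naturality_right, braiding_tensorUnit_right]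
  monoidal

theorem swp_β (W I X : T) :
    swp W I X ≫ (I ◁ (β_ W X).hom) = (β_ W (I ⊗ X)).hom ≫ (α_ I X W).hom := by
  rw [BraidedCategory.braiding_tensor_right_hom]
  simp [swp]

theorem swp_unit (I X : T) : swp (𝟙_ T) I X ≫ (I ◁ (λ_ X).hom) = (λ_ (I ⊗ X)).hom := by
  rw [swp, braiding_tensorUnit_left]
  monoidal

theorem swp_tensor (W W' I X : T) : swp (W ⊗ W') I X ≫ (I ◁ (α_ W W' X).hom) =
    (α_ W W' (I ⊗ X)).hom ≫ (W ◁ swp W' I X) ≫ swp W I (W' ⊗ X) := by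
  rw [swp, swp, swp, BraidedCategory.braiding_tensor_left_hom]
  monoidal

theorem swp_mid (A I X Z : T) : (swp A I X ▷ Z) ≫ (α_ I (A ⊗ X) Z).hom ≫ (I ◁ (α_ A X Z).hom) =
    (α_ A (I ⊗ X) Z).hom ≫ (A ◁ (α_ I X Z).hom) ≫ swp A I (X ⊗ Z) := by
  rw [swp, swp]
  monoidal

theorem swp_cyc (I Z J X : T) : (α_ I Z (J ⊗ X)).hom ≫ (I ◁ swp Z J X) =
    swp (I ⊗ Z) J X ≫ (J ◁ (α_ I Z X).hom) ≫ swp J I (Z ⊗ X) := by
  rw [reassoc_of% swp_tensor I Z J X, swp_swp, Category.comp_id]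

end Swp

variable {T : Type u} [Category.{v} T] [Preadditive T] [HasZeroObject T] [HasShift T ℤ]
  [∀ n : ℤ, (shiftFunctor T n).Additive] [Pretriangulated T] [MonoidalCategory T]
  [SymmetricCategory T] [TensorTriangulated T]

@[reassoc]
theorem swp_nat₃ (A B : T) {X Y : T} (f : ob X ⟶ ob Y) :
    wl A (wl B f) ≫ io (swp A B Y) = io (swp A B X) ≫ wl B (wl A f) := by
  simp only [swp, io_comp, Category.assoc]
  rw [α_inv_wl_assoc, wl_ex_assoc, wl_α]

@[reassoc]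
theorem α_inv_wr (Y Z : T) {A B : T} (f : ob A ⟶ ob B) :
    wr f (Y ⊗ Z) ≫ io (α_ B Y Z).inv = io (α_ A Y Z).inv ≫ wr (wr f Y) Z := by
  rw [← cancel_epi (io (α_ A Y Z).hom), ← wr_α_assoc]
  simp

@[reassoc]
theorem α_inv_mid (X Z : T) {A B : T} (f : ob A ⟶ ob B) :
    wl X (wr f Z) ≫ io (α_ X B Z).inv = io (α_ X A Z).inv ≫ wr (wl X f) Z := by
  rw [← cancel_epi (io (α_ X A Z).hom), ← mid_α_assoc]
  simp

@[reassoc]
theorem swp_nat₁ {A A' : T} (f : ob A ⟶ ob A') (B X : T) :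
    wr f (B ⊗ X) ≫ io (swp A' B X) = io (swp A B X) ≫ wl B (wr f X) := by
  simp only [swp, io_comp, Category.assoc]
  rw [α_inv_wr_assoc, ← wr_io, ← wr_comp_assoc, wr_β, wr_comp_assoc, mid_α, wr_io]

@[reassoc]
theorem swp_nat₂ (A : T) {B B' : T} (f : ob B ⟶ ob B') (X : T) :
    wl A (wr f X) ≫ io (swp A B' X) = io (swp A B X) ≫ wr f (A ⊗ X) := by
  simp only [swp, io_comp, Category.assoc]
  rw [α_inv_mid_assoc, ← wr_io, ← wr_comp_assoc, wl_β, wr_comp_assoc, wr_α, wr_io]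

/-- `X ⊗ -` on the graded category. -/
@[reducible] noncomputable def wlF (X : T) : Gr T ⥤ Gr T where
  obj Y := ob (X ⊗ Y.obj)
  map f := wl X f
  map_id _ := wl_id X _
  map_comp f g := wl_comp X f g

/-- The sign twisted form of `X ⊗ -`. -/
@[reducible] noncomputable def wlT (X : T) : Gr T ⥤ Gr T where
  obj Y := ob (X ⊗ Y.obj)
  map f := wl X (tw f)
  map_id Y := by rw [(deg_id Y).tw_eq, Int.negOnePow_zero, one_smul]; exact wl_id X _
  map_comp f g := by rw [tw_comp]; exact wl_comp X _ _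

/-- `wl X` as an additive map. -/
noncomputable def wlH (X : T) (A B : Gr T) : (A ⟶ B) →+ (ob (X ⊗ A.obj) ⟶ ob (X ⊗ B.obj)) :=
  AddMonoidHom.mk' (wl X) (wl_add X)

/-- `wr · X` as an additive map. -/
noncomputable def wrH (X : T) (A B : Gr T) : (A ⟶ B) →+ (ob (A.obj ⊗ X) ⟶ ob (B.obj ⊗ X)) :=
  AddMonoidHom.mk' (fun f => wr f X) (wr_add X)

theorem DT.split {a b : ℤ} {X Y Z : Gr T} {f : X ⟶ Y} {g : Y ⟶ Z} {h : Z ⟶ X}
    (H : DT a b f g h) (r : Y ⟶ X) (hr : f ≫ r = 𝟙 _) :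
    ∃ σ : Z ⟶ Y, σ ≫ g = 𝟙 _ ∧ g ≫ σ = 𝟙 _ - r ≫ f := by
  obtain ⟨σ, hσ⟩ := H.yo (𝟙 _ - r ≫ f) (by simp [reassoc_of% hr])
  have h3 : h = 0 := by rw [← Category.comp_id h, ← hr, reassoc_of% H.zero₃, zero_comp]
  refine ⟨σ, ?_, hσ.symm⟩
  obtain ⟨y, hy⟩ := H.rot.yo (σ ≫ g - 𝟙 _) (by simp [← reassoc_of% hσ, H.zero])
  rw [← sub_eq_zero, hy, h3, zero_comp]

/-- A fibre of the unit of a ring object. -/
structure UF (R : T) [MonObj R] where
  /-- the fibre -/
  I : T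
  /-- the augmentation -/
  ε : I ⟶ 𝟙_ T
  /-- the boundary map -/
  dR : R ⟶ I⟦(1 : ℤ)⟧
  dist : Dist ε η[R] dR

theorem exists_uf (R : T) [MonObj R] : Nonempty (UF R) := by
  obtain ⟨I, e, d, h⟩ := distinguished_cocone_triangle₁ (η[R])
  exact ⟨⟨I, e, d, h⟩⟩

namespace UF

variable {R : T} [MonObj R] (U : UF R)

theorem dt (X : T) : DT 0 0 (io ((U.ε ▷ X) ≫ (λ_ X).hom)) (io (unitMap R X))
    (wr (sm 1 U.dR) X) :=
  (DT.wr X (dt_of_dist U.dist)).iso (Iso.refl _) (ioI (λ_ X).symm) (Iso.refl _) (deg_id _)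
    (deg_io _) (deg_id _) (by simp [wr_io, io_comp]) (by simp [wr_io, io_comp, unitMap])
    (by simp) rfl rfl

/-- The cobar data on the graded category. -/
@[reducible] noncomputable def K : CobarData (Gr T) where
  M := wlF R
  un Y := io (unitMap R Y.obj)
  un_nat f := by
    change f ≫ io _ = io _ ≫ wl R f
    rw [unitMap, unitMap, io_comp, io_comp, Category.assoc, ← wl_ex, lam_inv_wl_assoc]
  mu Y := io (mulMap R Y.obj)
  mu_nat f := by
    change wl R (wl R f) ≫ io _ = io _ ≫ wl R f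
    rw [mulMap, mulMap, io_comp, io_comp, α_inv_wl_assoc, wl_ex, Category.assoc]
  left_unit Y := by rw [← io_comp, unitMap_mulMap, io_id]
  right_unit Y := by
    change wl R (io _) ≫ io _ = _
    rw [wl_io, ← io_comp, whiskerLeft_unitMap_mulMap, io_id]
  G := wlT U.I
  ρ Y := wr (sm 1 U.dR) Y.obj
  ρ_nat {X Y} f := by
    change wl R f ≫ wr _ _ = wr _ _ ≫ wl U.I (tw f)
    refine ind f (by simp) (fun a f hf => ?_)
      (fun a b ha hb => by rw [map_add, wl_add U.I, Preadditive.comp_add, ← ha, ← hb,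
        ← Preadditive.add_comp, ← wl_add])
    rw [hf.tw_eq, Units.smul_def, wl_zsmul, Preadditive.comp_zsmul,
      interchange (deg_sm 1 U.dR) hf, _root_.one_mul, ← Units.smul_def, smul_smul, Int.units_mul_self,
      one_smul]
  additiveM := ⟨wl_add R _ _⟩
  additiveG := ⟨fun {_ _ f g} => by
    change wl _ (tw (f + g)) = wl _ (tw f) + wl _ (tw g)
    rw [map_add, wl_add]⟩
  un_ρ Y := (U.dt Y.obj).zero₂
  split Y := (DT.wl R (U.dt Y.obj).rot).split (io (mulMap R Y.obj)) (by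
    rw [wl_io, ← io_comp, whiskerLeft_unitMap_mulMap, io_id])

/-- The tower data. -/
@[reducible] noncomputable def td : TD (shD T) where
  K := U.K
  fm := wlH U.I _ _
  fm_id _ := wl_id _ _
  fm_comp f g := wl_comp _ f g
  G_map _ := rfl
  deg_fm h := Deg.wl _ h
  deg_M h := Deg.wl _ h
  ε X := io ((U.ε ▷ X.obj) ≫ (λ_ X.obj).hom)
  ε_nat f := by
    change wl U.I f ≫ _ = _
    rw [io_comp, io_comp, wl_ex_assoc, wl_lam, Category.assoc]
  deg_ε _ := deg_io _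
  deg_un _ := deg_io _
  deg_mu _ := deg_io _
  deg_ρ _ := Deg.wr _ (deg_sm _ _)
  σ X := io (swp U.I U.I X.obj)
  σ_σ X := by rw [← io_comp, swp_swp, io_id]
  σ_ε X := by
    change io _ ≫ io _ = wl _ (io _)
    rw [← io_comp, wl_io, swp_aug]
  σ_nat f := swp_nat₃ _ _ f
  deg_σ _ := deg_io _
  sR X := ioI ⟨swp U.I R X.obj, swp R U.I X.obj, swp_swp _ _ _, swp_swp _ _ _⟩
  sR_nat f := swp_nat₃ _ _ f
  deg_sR _ := deg_io _
  sR_un X := by
    change wl _ (io _) ≫ io _ = io _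
    rw [wl_io, ← io_comp]
    exact congrArg io (unit_swp _ _ _)
  sR_ρ X := (swp_nat₂ _ _ _).symm
  mu_assoc X := by
    change wl _ (io _) ≫ io _ = io _ ≫ io _
    rw [wl_io, ← io_comp, ← io_comp]
    congr 1
    have h := congrArg (· ▷ X.obj) (MonObj.mul_assoc R)
    simp only [comp_whiskerRight] at h
    simp only [mulMap, MonoidalCategory.whiskerLeft_comp, Category.assoc]
    rw [associator_inv_naturality_middle_assoc, associator_inv_naturality_left_assoc, h]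
    monoidal
  Tri f g h := ∃ a b, DT a b f g h
  tri_F := fun ⟨a, b, H⟩ => ⟨a, b, DT.wl _ H⟩
  tri_M := fun ⟨a, b, H⟩ => ⟨a, b, DT.wl _ H⟩
  tri_rot := fun ⟨_, _, H⟩ => ⟨_, _, H.rot⟩
  tri_zero := fun ⟨_, _, H⟩ => H.zero
  tri_co := fun ⟨_, _, H⟩ => H.co
  tri_yo := fun ⟨_, _, H⟩ => H.yo
  tri_unit X := ⟨0, 0, U.dt X.obj⟩

/-- `W ⊗ -` is compatible with the tower. -/
@[reducible] noncomputable def cL (W : T) : U.td.CF where
  obj X := ob (W ⊗ X.obj)
  map := wlH W _ _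
  map_id _ := wl_id _ _
  map_comp f g := wl_comp _ f g
  deg h := Deg.wl _ h
  ν X := io (swp W U.I X.obj)
  ν_nat f := swp_nat₃ _ _ f
  ν_ε X := by
    change io _ ≫ io _ = wl _ (io _)
    rw [← io_comp, wl_io, swp_aug]
  deg_ν _ := deg_io _
  tri := fun ⟨a, b, H⟩ => ⟨a, b, DT.wl _ H⟩

/-- `- ⊗ W` is compatible with the tower. -/
@[reducible] noncomputable def cR (W : T) : U.td.CF where
  obj X := ob (X.obj ⊗ W)
  map := wrH W _ _
  map_id _ := wr_id _ _
  map_comp f g := wr_comp _ f g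
  deg h := Deg.wr _ h
  ν X := io (α_ U.I X.obj W).hom
  ν_nat f := mid_α _ _ f
  ν_ε X := by
    change io _ ≫ io _ = wr (io _) _
    rw [← io_comp, wr_io]
    congr 1
    monoidal
  deg_ν _ := deg_io _
  tri := fun ⟨a, b, H⟩ => ⟨a, b, DT.wr _ H⟩

end UF

end Vale.Agent.P236SY
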