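import Vale.Agent.P236SY.Psi

/-!
# P236, synthetic calculus: split triangles and the boundary formula
-/

open CategoryTheory MonoidalCategory Limits Pretriangulated MonObj

namespace Vale.Agent.P236SY

open GData Vale.Agent.P251 Vale.Agent.P251.T Vale.Agent.P251.S Vale.Agent.P251.H Vale.Agent.P251.M
  Vale.Agent.P251.F Vale.Agent.P251.I TD
open Vale.Agent.P251.St (SHCat)

namespace TD

variable {O : Type*} {D : GData O} {E : TD D} {V X Y Z : D.Cat} {a b c : ℤ} {f : X ⟶ Y} {g : Y ⟶ Z}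

theorem d_one (Y : D.Cat) : E.K.d 1 Y = E.K.un (E.K.M.obj Y) - E.K.M.map (E.K.un Y) := by
  rw [sub_eq_add_neg, ← neg_one_zsmul, ← pow_one (-1 : ℤ)]
  rfl

theorem Ses.cell (S : E.Ses Z a b f g) (hs : a + b + c = -1) {h : Z ⟶ E.K.G.obj X}
    (dh : Deg (-c) h) {φ : Y ⟶ E.K.M.obj X} (dφ : Deg a φ) (h1 : f ≫ φ = E.K.un X) {e : ℤˣ}
    (h2 : g ≫ h = e • φ ≫ E.K.ρ X) {x : Z ⟶ E.K.Q 2 X} (hx : E.Rep c 1 (E.up h) x) :
    ∃ (u : ℤˣ) (y : Z ⟶ E.K.Q 1 Y), Deg b y ∧ y ≫ E.K.Qm 1 g = u • E.K.un Z ∧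
      y ≫ E.K.d 1 Y = x ≫ E.K.Qm 2 f := by
  have h3 : E.K.M.map f ≫ E.K.M.map φ ≫ E.K.mu X = 𝟙 _ := by
    rw [← Functor.map_comp_assoc, h1, E.K.right_unit]
  obtain ⟨y₀, dy₀, hy₀⟩ := S.surj (s := 0) (E.deg_un Z)
  have hy₀ : y₀ ≫ E.K.M.map g = E.K.un Z := hy₀.symm
  obtain ⟨y, dy, hy, hy'⟩ : ∃ y : Z ⟶ E.K.M.obj Y, Deg b y ∧
      y ≫ E.K.M.map g = E.K.un Z ∧ y ≫ E.K.M.map φ ≫ E.K.mu X = 0 :=
    ⟨y₀ - y₀ ≫ E.K.M.map φ ≫ E.K.mu X ≫ E.K.M.map f, (dy₀.cast (zero_add b)).sub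
      (dy₀.comp ((E.deg_M dφ).comp ((E.deg_mu _).comp (E.deg_M S.deg₁) rfl) rfl) (by omega)),
      by simp only [Preadditive.sub_comp, Category.assoc, ← Functor.map_comp, S.zero,
        Functor.map_zero, comp_zero, sub_zero, hy₀],
      by simp only [Preadditive.sub_comp, Category.assoc, h3, Category.comp_id, sub_self]⟩
  have h4 : (y ≫ E.K.d 1 Y) ≫ E.K.Qm 2 g = 0 := by
    rw [Category.assoc, ← E.K.d_naturality]
    exact (Category.assoc _ _ _).symm.trans ((congrArg (· ≫ _) hy).trans (E.K.d_d 0 _))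
  obtain ⟨z, dz, hz⟩ := S.ex (s := 1) (dy.comp (E.deg_d 1 _) (add_zero _)) h4
  have h5 : z = -y ≫ E.K.M.map φ := by
    have h6 : E.K.Qm 2 f ≫ E.K.M.map (E.K.M.map φ ≫ E.K.mu X) = 𝟙 _ :=
      (E.K.M.map_comp _ _).symm.trans ((congrArg _ h3).trans (E.K.M.map_id _))
    rw [← Category.comp_id z, ← h6, ← reassoc_of% hz, d_one, Preadditive.sub_comp,
      Preadditive.comp_sub, ← E.K.un_nat, Category.assoc, reassoc_of% hy', zero_comp, zero_sub,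
      ← Functor.map_comp, ← E.K.un_nat_assoc, E.K.left_unit, Category.comp_id]
  have h8 : E.Rep c 1 (E.up h) (-e • z) := by
    refine ⟨(dz.cast (by omega)).usmul _, ?_, h, dh, rfl, ?_⟩
    · rw [Linear.units_smul_comp, S.cyc (by rw [← hz, Category.assoc, E.K.d_d, comp_zero]),
        smul_zero]
    · rw [E.K.q_succ, E.K.q_zero, Category.comp_id, h5, smul_neg, Units.neg_smul, neg_neg,
        E.K.un_nat, ← hy, Category.assoc, ← Functor.map_comp, h2, Units.smul_def,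
        Units.smul_def, Functor.map_zsmul, Preadditive.comp_zsmul, Preadditive.zsmul_comp,
        Functor.map_comp, Category.assoc]
      rfl
  obtain ⟨v, dv, hv⟩ := hx.uniq h8
  refine ⟨-e, -e • y + v ≫ E.K.Qm 1 f, (dy.usmul _).add (dv.comp (deg_Qm 1 S.deg₁) (by omega)),
    ?_, ?_⟩
  · rw [Preadditive.add_comp, Category.assoc, ← E.K.Qm_comp, S.zero, E.K.Qm_zero', comp_zero,
      add_zero, Linear.units_smul_comp]
    exact congrArg _ hy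
  · rw [Preadditive.add_comp, Linear.units_smul_comp, hz, Category.assoc, E.K.d_naturality,
      ← Category.assoc, ← hv, ← Linear.units_smul_comp, ← Preadditive.add_comp, add_sub_cancel]

theorem Ses.bd_rep (S : E.Ses V a b f g) (hs : a + b + c = -1) {k : E.so Z ⟶ E.so X}
    {w : Z ⟶ E.K.Q 2 X} (hw : E.Rep c 1 k w) {y₀ : Z ⟶ E.K.Q 1 Y} (dy₀ : Deg b y₀) {u : ℤˣ}
    (h1 : y₀ ≫ E.K.Qm 1 g = u • E.K.un Z) (h2 : y₀ ≫ E.K.d 1 Y = w ≫ E.K.Qm 2 f) {s : ℕ}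
    {n m : ℤ} {x : E.so V ⟶ E.so Z} {z : V ⟶ E.K.Q (s + 1) Z} {y : V ⟶ E.K.Q (s + 1) Y}
    {z' : V ⟶ E.K.Q (s + 2) X} (hx : E.Rep n s x z) (dy : Deg (-(n + s) + b) y)
    (hy : y ≫ E.K.Qm (s + 1) g = z) (hy' : y ≫ E.K.d (s + 1) _ = z' ≫ E.K.Qm (s + 2) f)
    (e : n + c = m) : E.Rep m (s + 1) (x ≫ k) ((u * (s * (c + 1) : ℤ).negOnePow) • z') := by
  obtain ⟨v, dv, hv⟩ := S.ex (dy.sub ((E.deg_cup (t := 0) hx.deg dy₀ rfl).usmul u)) (by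
    rw [Preadditive.sub_comp, hy, Linear.units_smul_comp, ← E.cup_comp (t := 0), h1,
      Units.smul_def u (E.K.un _), ← cupH_apply, map_zsmul, cupH_apply, cup_un, ← Units.smul_def,
      smul_smul, Int.units_mul_self, one_smul, sub_self])
  have h3 : z' = (u * (s : ℤ).negOnePow) • E.cup (t := 1) z w + v ≫ E.K.d _ _ := by
    rw [← sub_eq_zero]
    apply S.inj
    rw [Preadditive.sub_comp, ← hy', Preadditive.add_comp, Category.assoc, ← E.K.d_naturality,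
      ← reassoc_of% hv, Preadditive.sub_comp, Linear.units_smul_comp, Linear.units_smul_comp,
      cup_d_zero, hx.cyc, ← cupH_apply _ 0, map_zero, AddMonoidHom.zero_apply, zero_add, h2,
      E.cup_comp (t := 1), mul_smul, Units.smul_def (s : ℤ).negOnePow, Int.coe_negOnePow_natCast,
      add_sub_cancel, sub_self]
  refine (hx.comp hw e).cob ⟨(u * (s * (c + 1) : ℤ).negOnePow) • v,
    (dv.cast (by push_cast; omega)).usmul _, ?_⟩
  rw [h3, smul_add, smul_smul, _root_.mul_mul_mul_comm, Int.units_mul_self, _root_.one_mul,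
    ← Int.negOnePow_add, show (s : ℤ) * (c + 1) + s = s * c + 2 * s by ring, Int.negOnePow_add,
    Int.negOnePow_two_mul, _root_.mul_one, add_sub_cancel_left, Linear.units_smul_comp]

end TD

variable {T : SHCat}

namespace Cx

variable (C : Cx T)

/-- A distinguished triangle whose third map is `τ k`; `a`, `b`, `c` are the stems. -/
structure ST (a b c : ℤ) {X Y Z : T.C} (f : ob X ⟶ ob Y) (g : ob Y ⟶ ob Z) (k : C.o Z ⟶ C.o X) :
    Prop where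
  sum : a + b + c = -1
  ex : ∃ h : ob Z ⟶ C.E.K.G.obj (ob X), DT (-a) (-b) f g (h ≫ C.E.ε (ob X)) ∧ Deg (-c) h ∧
    k = C.E.up h

variable {C} {a b c n : ℤ} {X Y Z : T.C} {f : ob X ⟶ ob Y} {g : ob Y ⟶ ob Z} {k : C.o Z ⟶ C.o X}

/-- The cone of a class of filtration one. -/
theorem exists_st (hk : C.E.Dg n 1 k) :
    ∃ (Y : T.C) (f : ob X ⟶ ob Y) (g : ob Y ⟶ ob Z), C.ST 0 (-(n + 1)) n f g k := by
  obtain ⟨Y, f, g, h, dh, e, H, -⟩ := C.U.exists_stri hk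
  exact ⟨Y, f, g, by ring, h, H.cast rfl (by ring), dh, e⟩

theorem st_of_dt {t : ob Z ⟶ ob X} (H : DT (-a) (-b) f g t) (h0 : t ≫ C.E.K.un (ob X) = 0)
    (e : a + b + c = -1) : ∃ k, C.ST a b c f g k ∧ C.E.ι t = k ≫ C.E.τ _ := by
  obtain ⟨h, hh⟩ := C.E.exists_oc (s := 0) t h0
  obtain ⟨h, dh, rfl⟩ := H.deg₃.left (C.E.deg_oc 0 _) hh (show -c + 0 = _ by omega)
  exact ⟨_, ⟨e, h, H, dh, rfl⟩, (C.E.up_τ h).symm⟩

namespace ST

variable (H : C.ST a b c f g k)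
include H

theorem stri : C.E.STri a b c (C.E.ι f) (C.E.ι g) k := by
  obtain ⟨h, W, dh, rfl⟩ := H.ex
  exact ⟨f, g, h, ⟨_, _, W⟩, W.deg₁, W.deg₂, dh, rfl, rfl, rfl⟩

theorem dt : ∃ t, DT (-a) (-b) f g t ∧ C.E.ι t = k ≫ C.E.τ _ := by
  obtain ⟨h, W, -, rfl⟩ := H.ex
  exact ⟨_, W, (C.E.up_τ h).symm⟩

theorem deg₁ : Deg (-a) f := H.dt.choose_spec.1.deg₁

theorem deg₂ : Deg (-b) g := H.dt.choose_spec.1.deg₂

theorem dg₃ : C.E.Dg c 1 k := H.stri.dg₃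

theorem ses (V : Gr T.C) : C.E.Ses V a b f g := H.stri.ses V

theorem fc₂ (h₁ : C.Fc X) (h₃ : C.Fc Z) : C.Fc Y := Fc.dt H.dt.choose_spec.1 h₁ h₃

theorem tors₂ [C.G.Tors X] [C.G.Tors Z] : C.G.Tors Y := Gam.Tors.dt₂ H.dt.choose_spec.1

theorem conv₂ {V : Gr T.C} (h₁ : C.E.Conv V (ob X)) (h₃ : C.E.Conv V (ob Z)) :
    C.E.Conv V (ob Y) := Conv.tgt ⟨_, _, H.dt.choose_spec.1⟩ H.deg₁ H.deg₂ h₁ h₃

theorem usmul₁ (e : ℤˣ) : C.ST a b c (e • f) g k := by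
  obtain ⟨h, W, dh, rfl⟩ := H.ex
  exact ⟨H.sum, h, W.usmul₁ e, dh, rfl⟩

theorem usmul₂ (e : ℤˣ) : C.ST a b c f (e • g) k := by
  obtain ⟨h, W, dh, rfl⟩ := H.ex
  exact ⟨H.sum, h, W.usmul₂ e, dh, rfl⟩

theorem usmul₃ (e : ℤˣ) : C.ST a b c f g (e • k) := by
  obtain ⟨h, W, dh, rfl⟩ := H.ex
  exact ⟨H.sum, e • h, by rw [Linear.units_smul_comp]; exact W.usmul₃ e, dh.usmul e,
    (map_zsmul _ _ _).symm⟩

theorem wr (W : T.C) : C.ST a b c (wr f W) (wr g W) (C.U.sr W k) := by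
  obtain ⟨h, D, dh, rfl⟩ := H.ex
  refine ⟨H.sum, (C.U.cR W).map h ≫ (C.U.cR W).ν _, ?_,
    (Deg.wr W dh).comp (deg_io _) (add_zero _), (C.U.cR W).S_up h⟩
  rw [Category.assoc, (C.U.cR W).ν_ε, ← (C.U.cR W).map_comp]
  exact DT.wr W D

theorem wl (W : T.C) : C.ST a b c (wl W f) (wl W g) (C.U.sl W k) := by
  obtain ⟨h, D, dh, rfl⟩ := H.ex
  refine ⟨H.sum, (C.U.cL W).map h ≫ (C.U.cL W).ν _, ?_,
    (Deg.wl W dh).comp (deg_io _) (add_zero _), (C.U.cL W).S_up h⟩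
  rw [Category.assoc, (C.U.cL W).ν_ε, ← (C.U.cL W).map_comp]
  exact DT.wl W D

/-- The cell attached by `k`, with a prescribed cocycle. -/
theorem cell {x : ob Z ⟶ C.Q 1 X} (hx : C.E.Rep c 1 k x) : ∃ (u : ℤˣ) (y : ob Z ⟶ C.Q 0 Y),
    Deg b y ∧ y ≫ C.E.K.Qm 1 g = u • C.E.K.un (ob Z) ∧
      y ≫ C.E.K.d 1 (ob Y) = x ≫ C.E.K.Qm 2 f := by
  have hs := H.sum
  have S := H.ses (ob Z)
  obtain ⟨h, D, dh, rfl⟩ := H.ex
  obtain ⟨φ, e, dφ, h1, h2⟩ := D.rot'.fill (C.U.dt X) (u := h) (w := 𝟙 _) (m := a) dh (deg_id _)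
    (Category.comp_id _) (by omega) (by omega)
  exact S.cell hs dh dφ (h1.trans (Category.id_comp _)) h2 hx

/-- The boundary formula: composition with `k` is the connecting homomorphism. -/
theorem bd_rep : ∃ u : ℤˣ, ∀ {V : Gr T.C} {s : ℕ} {n m : ℤ} {x : C.E.so V ⟶ C.o Z}
    {z : V ⟶ C.Q s Z} {y : V ⟶ C.Q s Y} {z' : V ⟶ C.Q (s + 1) X}, C.E.Rep n s x z →
      Deg (-(n + s) + b) y → y ≫ C.E.K.Qm (s + 1) g = z →
      y ≫ C.E.K.d (s + 1) _ = z' ≫ C.E.K.Qm (s + 2) f → n + c = m →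
      C.E.Rep m (s + 1) (x ≫ k) ((u * (s * (c + 1) : ℤ).negOnePow) • z') := by
  obtain ⟨w, hw⟩ := H.dg₃.exists_rep (s := 1)
  obtain ⟨u, y₀, dy₀, h1, h2⟩ := H.cell hw
  exact ⟨u, fun hx dy hy hy' e => (H.ses _).bd_rep H.sum hw dy₀ h1 h2 hx dy hy hy' e⟩

end ST

end Cx

end Vale.Agent.P236SY
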