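import Vale.Agent.P236SY.Fun

/-!
# P236, synthetic calculus: symmetric objects and the interchange law

`E.Sym X`: all the ways of dropping one factor `B (s + 1) X ⟶ B s X` agree.
-/

open CategoryTheory Limits

universe v u

namespace Vale.Agent.P236SY

open GData Vale.Agent.P251.S

namespace TD

variable {O : Type u} {D : GData.{v} O} (E : TD D)

/-- The inner and the outer structure maps agree. -/
def Sym (X : D.Cat) : Prop := ∀ s, E.Fm s (E.ε X) = E.oc s X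

variable {E}

theorem Sym.fm {X : D.Cat} (h : E.Sym X) : E.fm (E.ε X) = E.ε (E.K.G.obj X) := h 1

theorem Sym.G {X : D.Cat} (h : E.Sym X) : E.Sym (E.K.G.obj X) := fun s => by
  rw [← h.fm]
  exact h (s + 1)

theorem Sym.B {X : D.Cat} (h : E.Sym X) (k : ℕ) : E.Sym (E.K.B k X) := by
  induction k generalizing X with
  | zero => exact h
  | succ k ih => exact ih h.G

theorem sym_of (P : D.Cat → Prop) (h1 : ∀ X, P X → P (E.K.G.obj X))
    (h2 : ∀ X, P X → E.fm (E.ε X) = E.ε (E.K.G.obj X)) {X : D.Cat} (hX : P X) : E.Sym X := by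
  intro s
  induction s generalizing X with
  | zero => rfl
  | succ s ih => rw [Fm_succ, h2 X hX, ih (h1 X hX), oc_succ]

@[reassoc]
theorem Sym.mid {W : D.Cat} (h : E.Sym W) (s t : ℕ) :
    E.Fm s (E.oc t W) ≫ E.ad s t W = E.ad s (t + 1) W ≫ E.oc (s + t) W := by
  rw [← h, ← h]
  exact E.ad_nat s t (E.ε W)

variable (E)

@[reassoc]
theorem νs_ε (t : ℕ) (W : D.Cat) : E.cF.νs t W ≫ E.Fm t (E.ε W) = E.ε (E.K.B t W) := by
  have h := CF.νs_θ (Φ := E.cF) (Ψ := E.cI) E.ε (fun X => by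
    change E.σ X ≫ E.fm (E.ε X) = E.ε _ ≫ 𝟙 _
    rw [← E.σ_ε, σ_σ_assoc, Category.comp_id]) t W
  rwa [CF.cI_νs, Category.comp_id] at h

/-- The exchange of two blocks of factors. -/
def perm : ∀ (s t : ℕ) (W : D.Cat), E.K.B s (E.K.B t W) ⟶ E.K.B t (E.K.B s W)
  | 0, _, _ => 𝟙 _
  | s + 1, t, W => E.Fm s (E.cF.νs t W) ≫ perm s t (E.K.G.obj W)

theorem perm_succ (s t : ℕ) (W : D.Cat) :
    E.perm (s + 1) t W = E.Fm s (E.cF.νs t W) ≫ E.perm s t (E.K.G.obj W) := rfl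

variable {E}

theorem Sym.perm {W : D.Cat} (hW : E.Sym W) (s t : ℕ) {m : ℕ} (h : m ≤ t + s) (h' : m ≤ s + t)
    (hm : m < s + t ∨ s = 0) :
    E.perm s t W ≫ E.ad t s W ≫ E.dr h W = E.ad s t W ≫ E.dr h' W := by
  induction s generalizing W m with
  | zero => rw [E.zero_ad t (by omega), dr_dr, ad_zero, Category.id_comp]; exact Category.id_comp _
  | succ s ih =>
    have h1 : m ≤ s + t := by omega
    have key : E.perm s t (E.K.G.obj W) ≫ E.ad t s (E.K.G.obj W) ≫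
        E.dr (show s + t ≤ t + s + 1 by omega) W = E.ad s (t + 1) W ≫ E.oc (s + t) W := by
      rcases Nat.eq_zero_or_pos s with rfl | hs
      · have h2 := ih hW.G (m := 0 + t) (by omega) le_rfl (Or.inr rfl)
        rw [dr_self, Category.comp_id, ← E.dr_G _ (by omega)] at h2
        rw [ad_succ, ← h2, Category.assoc, Category.assoc, ← E.dr_one _ (Nat.le_succ _), dr_dr]
      · obtain ⟨n, hn⟩ : ∃ n, s + t = n + 1 := ⟨s + t - 1, by omega⟩
        have h2 := ih hW.G (m := n) (by omega) (by omega) (Or.inl (by omega))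
        rw [← E.dr_G _ (by omega), ← E.dr_G _ (by omega)] at h2
        rw [← E.dr_dr (show n + 1 ≤ t + s + 1 by omega) hn.le, reassoc_of% h2, dr_dr, ad_succ,
          E.dr_one]
    rw [perm_succ, Category.assoc, ad_succ, ← E.dr_dr (show s + t ≤ t + s + 1 by omega) h1,
      reassoc_of% key, ← hW.mid_assoc, ← Fm_comp_assoc, ← hW t, νs_ε, hW.B t s,
      E.oc_ad_assoc s t (by omega), dr_dr]

namespace CF

variable {Φ Ψ : E.CF}

theorem νs_perm {t : ℕ} (y : ∀ X, Φ.obj X ⟶ E.K.B t (Ψ.obj X))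
    (h2 : ∀ X, Φ.ν X ≫ E.fm (y X) ≫ E.cF.νs t (Ψ.obj X) = y (E.K.G.obj X) ≫ E.Fm t (Ψ.ν X))
    (s : ℕ) (X : D.Cat) : Φ.νs s X ≫ E.Fm s (y X) ≫ E.perm s t (Ψ.obj X) =
      y (E.K.B s X) ≫ E.Fm t (Ψ.νs s X) := by
  induction s generalizing X with
  | zero =>
    rw [νs_zero, νs_zero, Fm_id, Category.id_comp]
    rfl
  | succ s ih =>
    have h := ih (E.K.G.obj X)
    have hn : ∀ {V W : D.Cat} (f : V ⟶ W), E.Fm s (E.Fm t f) ≫ E.perm s t W =
        E.perm s t V ≫ E.Fm t (E.Fm s f) := by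
      clear h ih
      induction s with
      | zero => exact fun f => (Category.comp_id _).trans (Category.id_comp _).symm
      | succ s ih =>
        intro V W f
        rw [perm_succ, perm_succ, Fm_succ, ← Fm_comp_assoc]
        erw [E.cF.νs_nat]
        rw [Fm_comp_assoc, Category.assoc]
        exact congrArg _ (ih _)
    rw [νs_succ, νs_succ, perm_succ, Category.assoc, Fm_succ, ← Fm_comp_assoc, ← Fm_comp_assoc,
      Category.assoc, h2, Fm_comp_assoc, hn, reassoc_of% h, Fm_comp]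

/-- The interchange law for a natural transformation of positive filtration. -/
theorem S_inter {b : ℤ} {t : ℕ} (y : ∀ X, Φ.obj X ⟶ E.K.B t (Ψ.obj X))
    (h1 : ∀ {X Y : D.Cat} {a : ℤ} {f : X ⟶ Y}, Deg a f →
      Φ.map f ≫ y Y = (a * b).negOnePow • y X ≫ E.Fm t (Ψ.map f))
    (h2 : ∀ X, Φ.ν X ≫ E.fm (y X) ≫ E.cF.νs t (Ψ.obj X) = y (E.K.G.obj X) ≫ E.Fm t (Ψ.ν X))
    {X Y : E.Syn} (hY : E.Sym (Ψ.obj Y.obj)) {n s : ℤ} {x : X ⟶ Y} (hx : E.Dg n s x) (j : ℤ)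
    (hj : j.toNat ≤ t) : Φ.S x ≫ E.cl j hj (y Y.obj) =
      (n * b).negOnePow • E.cl j hj (y X.obj) ≫ Ψ.S x := by
  obtain ⟨g, hg, rfl⟩ := hx
  rw [Φ.S_cl (V := X.obj) (Z := Y.obj), Ψ.S_cl (V := X.obj) (Z := Y.obj),
    E.cl_comp rfl le_rfl hj (by omega), E.cl_comp (add_comm j s) hj le_rfl (by omega),
    Units.smul_def, ← map_zsmul]
  refine E.cl_congr _ _ (Nat.sub_le _ 1) (show s.toNat + t - 1 ≤ _ by omega) (by omega) ?_
  rw [Category.assoc, Category.assoc, Category.assoc,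
    ← hY.perm s.toNat t (by omega) _ (by omega), reassoc_of% νs_perm y h2, reassoc_of% h1 hg,
    neg_mul, Int.negOnePow_neg, Units.smul_def, Fm_comp]
  simp only [Preadditive.zsmul_comp, Category.assoc]

end CF

/-! ### The tautological classes -/

variable (E)

/-- The class of filtration `k` of the identity of `B k Z`. -/
def jk (k : ℕ) (Z : D.Cat) : E.so (E.K.B k Z) ⟶ E.so Z := E.cl k (by simp) (𝟙 (E.K.B k Z))

theorem dg_jk (k : ℕ) (Z : D.Cat) : E.Dg 0 k (E.jk k Z) := dg_cl _ _ (deg_id _)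

theorem cl_jk {V Z : D.Cat} {i j : ℤ} (k : ℕ) (e : i + k = j) {s : ℕ} (h : i.toNat ≤ s)
    (h' : j.toNat ≤ s + k) (x : V ⟶ E.K.B s (E.K.B k Z)) :
    E.cl i h x ≫ E.jk k Z = E.cl j h' (x ≫ E.ad s k Z) := by
  rw [jk, E.cl_comp e h _ h', Fm_id, Category.id_comp]

theorem ι_jk {V Z : D.Cat} (k : ℕ) (x : V ⟶ E.K.B k Z) :
    E.ι x ≫ E.jk k Z = E.cl k (by simp) x := by
  rw [jk, ι_cl, Category.comp_id]

variable {E}

/-- In positive filtration the composition with `jk` is injective. -/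
theorem jk_inj {P : E.Syn} {Z : D.Cat} {k : ℕ} {n s : ℤ} {x : P ⟶ E.so (E.K.B k Z)}
    (hx : E.Dg n s x) (hs : 1 ≤ s) (h : x ≫ E.jk k Z = 0) : x = 0 := by
  obtain ⟨r, rfl⟩ : ∃ r : ℕ, s = r + 1 := ⟨(s - 1).toNat, by omega⟩
  obtain ⟨g, -, rfl⟩ := hx.exists (r + 1) (by omega)
  rw [E.cl_jk (V := P.obj) k rfl _ (by omega),
    E.cl_eq_zero _ (show r + k ≤ r + 1 + k by omega) (by omega), Category.assoc, ← oc_ad,
    ← Category.assoc, ← zero_comp (f := E.ad r k Z), cancel_mono] at h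
  exact (E.cl_eq_zero_oc rfl _).2 h

/-- In nonnegative filtration the composition with `jk` is surjective. -/
theorem jk_surj {P : E.Syn} {Z : D.Cat} (k : ℕ) {n s t : ℤ} {y : P ⟶ E.so Z}
    (hy : E.Dg n t y) (hs : 0 ≤ s) (e : s + k = t) :
    ∃ x : P ⟶ E.so (E.K.B k Z), E.Dg n s x ∧ y = x ≫ E.jk k Z := by
  obtain ⟨g, hg, rfl⟩ := hy.exists (s.toNat + k) (by omega)
  have hi : Deg (-0) (asIso (E.ad s.toNat k Z)).inv := Deg.inv (E.deg_ad _ _ _)
  refine ⟨E.cl (V := P.obj) s le_rfl (g ≫ inv (E.ad s.toNat k Z)),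
    dg_cl _ _ (hg.comp hi (by omega)), ?_⟩
  rw [E.cl_jk k e _ (by omega), Category.assoc, IsIso.inv_hom_id, Category.comp_id]

/-- A class of filtration `k + 1` is a class of filtration one followed by `jk`. -/
theorem Dg.exists_up_jk {X Y : E.Syn} {n s : ℤ} {x : X ⟶ Y} (hx : E.Dg n s x) (k : ℕ)
    (e : 1 + k = s) : ∃ h : X.obj ⟶ E.K.G.obj (E.K.B k Y.obj), Deg (-n) h ∧
      x = E.up h ≫ E.jk k Y.obj := by
  obtain ⟨y, hy, rfl⟩ := jk_surj (Z := Y.obj) k hx (zero_le_one) e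
  obtain ⟨h, hh, rfl⟩ := hy.exists_up
  exact ⟨h, hh, rfl⟩

end TD

end Vale.Agent.P236SY
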