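import Vale.Agent.P236SY.Cx

/-!
# P236, synthetic calculus: torsion objects are symmetric
-/

open CategoryTheory MonoidalCategory Limits Pretriangulated MonObj

namespace Vale.Agent.P236SY

open GData Vale.Agent.P251 Vale.Agent.P251.T Vale.Agent.P251.S Vale.Agent.P251.H Vale.Agent.P251.M
  Vale.Agent.P251.F Vale.Agent.P251.I TD
open Vale.Agent.P251.St (SHCat)

variable {T : SHCat}

/-- The maps whose degree has the parity of `a` vanish. -/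
def Par (P N : T.C) (a : ℤ) : Prop := ∀ (b : ℤ) (f : ob P ⟶ ob N), Even (b - a) → Deg b f → f = 0

theorem inl_mul (A R : T.C) [MonObj A] [MonObj R] :
    (inlM A R ▷ (A ⊗ R)) ≫ μ[A ⊗ R] = (α_ A A R).inv ≫ μ[A] ▷ R := by
  have h1 : ((A ◁ η[R]) ▷ (A ⊗ R)) ≫ tensorμ A R A R =
      tensorμ A (𝟙_ T.C) A R ≫ ((A ⊗ A) ◁ (η[R] ▷ R)) := by
    simpa only [id_tensorHom_id, id_tensorHom, tensorHom_id, id_whiskerRight] using
      tensorμ_natural (𝟙 A) η[R] (𝟙 A) (𝟙 R)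
  change (inlM A R ▷ (A ⊗ R)) ≫ tensorμ A R A R ≫ (μ[A] ⊗ₘ μ[R]) = _
  rw [inlM, comp_whiskerRight, Category.assoc, reassoc_of% h1, tensorHom_def',
    ← MonoidalCategory.whiskerLeft_comp_assoc, MonObj.one_mul, tensorμ, braiding_tensorUnit_left]
  monoidal

theorem io_ext {J : Type} {X : J → T.C} {Y N : T.C} (g : ∀ j, X j ⟶ Y) [IsIso (Sigma.desc g)]
    {a : ℤ} {f : ob Y ⟶ ob N} (hf : Deg a f) (h : ∀ j, io (g j) ≫ f = 0) : f = 0 := by
  obtain ⟨f, rfl⟩ := Deg.exists_sm hf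
  have h1 : Sigma.desc g ≫ f = 0 := Sigma.hom_ext _ _ fun j => sm_inj (by
    rw [Sigma.ι_desc_assoc, ← io_sm, h, comp_zero, sm_zero])
  rw [(cancel_epi (Sigma.desc g)).1 (h1.trans comp_zero.symm), sm_zero]

theorem Par.basis {A R P N : T.C} [MonObj A] [MonObj R] {J : Type}
    (b : GBasis (stdEven T.C) (inlM A R) J) (Mo : ModStr A N) {a : ℤ} (h : Par P N a) :
    Par (R ⊗ P) N a := by
  intro k f hk hf
  have := b.isIsoY P
  have hF : Deg k (io (α_ A R P).hom ≫ wl A f ≫ io Mo.act) :=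
    (deg_io _).comp ((Deg.wl A hf).comp (deg_io _) rfl) (by omega)
  have h1 : io (α_ A R P).hom ≫ wl A f ≫ io Mo.act = 0 := io_ext
      (fun j => ((inlM A R ⊗ₘ b.w j) ≫ μ) ▷ P) hF fun j => by
    have h2 : io (b.w j ▷ P) ≫ io (α_ A R P).hom ≫ wl A f ≫ io Mo.act = 0 := by
      rw [← cancel_epi (wrI (gS T.C (b.k j)) P).inv, ← cancel_epi (io (λ_ P).inv), comp_zero,
        comp_zero]
      exact h (-(2 * b.k j) + k) _ (by obtain ⟨r, hr⟩ := hk; exact ⟨r - b.k j, by omega⟩)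
        ((deg_io _).comp ((Deg.wr P (deg_gS _).inv).comp ((deg_io _).comp hF rfl) rfl) (by omega))
    have h3 : (((α_ A A R).inv ≫ μ[A] ▷ R) ▷ P) ≫ (α_ A R P).hom = ((α_ A (A ⊗ R) P).hom ≫
        (A ◁ (α_ A R P).hom) ≫ (α_ A A (R ⊗ P)).inv) ≫ μ[A] ▷ (R ⊗ P) := by monoidal
    rw [tensorHom_def', Category.assoc, inl_mul, comp_whiskerRight, io_comp, Category.assoc,
      ← io_comp_assoc _ (α_ A R P).hom, h3, io_comp, Category.assoc, ← wl_ex_assoc,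
      ← io_comp (μ[A] ▷ N), Mo.mul_act, io_comp, io_comp, io_comp, io_comp, Category.assoc,
      Category.assoc, wl_α_assoc, io_inv_hom_assoc, ← io_comp_assoc ((A ◁ b.w j) ▷ P),
      associator_naturality_middle, io_comp, Category.assoc, ← wl_io, ← wl_io, ← wl_io,
      ← wl_comp_assoc, ← wl_comp_assoc, ← wl_comp_assoc, Category.assoc, Category.assoc, h2,
      wl_zero, zero_comp, comp_zero]
  have h4 := congrArg (io (λ_ _).inv ≫ io (η[A] ▷ (R ⊗ P)) ≫ io (α_ A R P).inv ≫ ·) h1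
  simp only [io_inv_hom_assoc, comp_zero] at h4
  rwa [← wl_ex_assoc, lam_inv_wl_assoc, ← io_comp, Mo.one_act, io_inv_hom, Category.comp_id] at h4

namespace Cx

variable (C : Cx T)

theorem par_I {P W : T.C} {a : ℤ} (h : Par P (Am C.D.R 1 ⊗ W) a) :
    Par (C.U.I ⊗ P) (Am C.D.R 1 ⊗ W) (a + 1) := by
  intro k f hk hf
  obtain ⟨b, -⟩ := C.hD.basis
  have h1 := h.basis b ((ModStr.self _).tensorRight W) (1 + k) (C.E.K.ρ (ob P) ≫ f)
    (by obtain ⟨r, hr⟩ := hk; exact ⟨r + 1, by omega⟩) ((C.E.deg_ρ _).comp hf rfl)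
  obtain ⟨g, rfl⟩ := C.E.tri_yo (C.E.tri_rot (C.E.tri_rot (C.E.tri_unit (ob P)))) f h1
  rw [← cancel_mono (C.U.th 1 W).inv, Category.assoc, zero_comp]
  exact ε_comp_Q (s := 0) _

theorem fm_ε_Γ : C.E.fm (C.E.ε (ob C.Γ)) = C.E.ε (C.E.K.G.obj (ob C.Γ)) := by
  have h0 : Par C.Γ (Am C.D.R 1 ⊗ C.Γ) 1 := fun b f hb hf => by
    rw [← cancel_mono (C.U.th 1 C.Γ).inv, zero_comp]
    exact odd_Γ (s := 0) (a := b) (by obtain ⟨r, hr⟩ := hb; exact ⟨r, by omega⟩)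
      (hf.comp (C.U.deg_th _ _).inv (by omega))
  obtain ⟨g, hg⟩ := C.E.exists_k (s := 0)
    (C.E.fm (C.E.ε (ob C.Γ)) - C.E.ε (C.E.K.G.obj (ob C.Γ)))
    (by rw [Preadditive.sub_comp, oc_zero, C.E.ε_nat, sub_self])
  obtain ⟨g, dg, hg⟩ := ((C.E.deg_fm (C.E.deg_ε _)).sub (C.E.deg_ε _)).left (C.E.deg_k 0 _) hg
    (show -1 + 1 = 0 by norm_num)
  have h1 := C.par_I (C.par_I h0) (-1) (g ≫ (C.U.th 1 C.Γ).hom) (by decide)
    (dg.comp (C.U.deg_th _ _) rfl)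
  rw [← zero_comp (f := (C.U.th 1 C.Γ).hom), cancel_mono] at h1
  rwa [h1, zero_comp, sub_eq_zero] at hg

theorem fm_ε (X : T.C) [C.G.Tors X] : C.E.fm (C.E.ε (ob X)) = C.E.ε (C.E.K.G.obj (ob X)) := by
  have h1 : C.E.fm (C.E.ε (ob (C.Γ ⊗ X))) = C.E.ε (C.E.K.G.obj (ob (C.Γ ⊗ X))) := by
    have h2 := (C.U.cR X).ν_nat (C.E.ε (ob C.Γ))
    rw [C.fm_ε_Γ, ← (C.U.cR X).ν_ε, ← (C.U.cR X).ν_ε, C.E.fm_comp, Category.assoc,
      ← C.E.ε_nat] at h2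
    have h3 := (cancel_epi (io (α_ C.U.I (C.U.I ⊗ C.Γ) X).hom)).1 h2
    have : IsIso (wl C.U.I (io (α_ C.U.I C.Γ X).hom)) := by rw [wl_io]; infer_instance
    exact ((cancel_epi (wl C.U.I (io (α_ C.U.I C.Γ X).hom))).1 h3).symm
  have : IsIso (C.E.fm (C.E.fm (io (C.G.lam X)))) := by
    change IsIso (wl _ (wl _ (io _)))
    rw [wl_io, wl_io]
    infer_instance
  rw [← cancel_epi (C.E.fm (C.E.fm (io (C.G.lam X)))), ← C.E.fm_comp, C.E.ε_nat, C.E.ε_nat,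
    C.E.fm_comp, h1]

/-- Torsion objects are symmetric. -/
theorem sym (X : T.C) [h : C.G.Tors X] : C.E.Sym (ob X) :=
  sym_of (fun X => C.G.Tors X.obj) (fun X _ => C.G.tors_right _ X.obj)
    (fun X _ => C.fm_ε X.obj) h

/-- The interchange law. -/
theorem inter {W W' A B : T.C} [C.G.Tors (W' ⊗ B)] {n s m t : ℤ} {y : C.o W ⟶ C.o W'}
    (hy : C.E.Dg m t y) {x : C.o A ⟶ C.o B} (hx : C.E.Dg n s x) :
    C.U.sl W x ≫ C.U.sr B y = (n * m).negOnePow • C.U.sr A y ≫ C.U.sl W' x :=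
  UF.inter (C.sym _) hy hx

end Cx

end Vale.Agent.P236SY
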