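import Vale.Agent.P236SY.TD
import Mathlib.GroupTheory.QuotientGroup.Basic

/-!
# P236, synthetic calculus: the synthetic category

A synthetic morphism of filtration `s` from `V` to `Z` is a morphism `V ⟶ B s Z` modulo the kernel
of the structure map `B s Z ⟶ B (s - 1) Z`.
-/

open CategoryTheory Limits

universe v u

namespace Vale.Agent.P236SY

open GData Vale.Agent.P251.S

namespace TD

variable {O : Type u} {D : GData.{v} O} (E : TD D)

/-- The kernel of the structure map. -/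
def ker (s : ℕ) (V Z : D.Cat) : AddSubgroup (V ⟶ E.K.B s Z) :=
  (Preadditive.rightComp V (E.dr (Nat.sub_le s 1) Z)).ker

theorem mem_ker {s : ℕ} {V Z : D.Cat} {x : V ⟶ E.K.B s Z} :
    x ∈ E.ker s V Z ↔ x ≫ E.dr (Nat.sub_le s 1) Z = 0 := Iff.rfl

/-- The synthetic morphisms of filtration `s`. -/
abbrev Sy (s : ℕ) (V Z : D.Cat) : Type v := (V ⟶ E.K.B s Z) ⧸ E.ker s V Z

section cmp

variable {s t u : ℕ} {V Z U : D.Cat}

/-- The composition on representatives. -/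
def cmp (h : u ≤ s + t) (x : V ⟶ E.K.B s Z) (y : Z ⟶ E.K.B t U) : V ⟶ E.K.B u U :=
  x ≫ E.Fm s y ≫ E.ad s t U ≫ E.dr h U

theorem cmp_left (h : u ≤ s + t) {x : V ⟶ E.K.B s Z} (y : Z ⟶ E.K.B t U)
    (hx : x ∈ E.ker s V Z) : E.cmp h x y ∈ E.ker u V U := by
  rw [mem_ker] at hx ⊢
  simp only [cmp, Category.assoc, dr_dr]
  rw [← E.dr_dr (show s - 1 + t ≤ s + t by omega) (show u - 1 ≤ s - 1 + t by omega),
    ← E.dr_ad_assoc (Nat.sub_le s 1), dr_nat_assoc, reassoc_of% hx, zero_comp]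

theorem cmp_right (h : u ≤ s + t) (x : V ⟶ E.K.B s Z) {y : Z ⟶ E.K.B t U}
    (hy : y ∈ E.ker t Z U) : E.cmp h x y ∈ E.ker u V U := by
  rw [mem_ker] at hy ⊢
  simp only [cmp, Category.assoc, dr_dr]
  cases t with
  | zero =>
    rw [dr_self, Category.comp_id] at hy
    rw [hy, map_zero, zero_comp, comp_zero]
  | succ t =>
    cases s with
    | zero =>
      rw [E.zero_ad _ (by omega), dr_dr, Fm_zero,
        ← E.dr_dr (Nat.sub_le (t + 1) 1) (show u - 1 ≤ t + 1 - 1 by omega), reassoc_of% hy,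
        zero_comp, comp_zero]
    | succ s =>
      obtain ⟨w, rfl⟩ := E.exists_k y ((congrArg (y ≫ ·) (E.dr_one t _ U).symm).trans hy)
      rw [← E.dr_dr (show s + (t + 1) ≤ s + 1 + (t + 1) by omega)
        (show u - 1 ≤ s + (t + 1) by omega), ← oc_ad_assoc, oc_nat_assoc, Fm_comp,
        Category.assoc, reassoc_of% E.oc_null s (E.Fm s w) (E.ε_B s (E.ε_M _)), zero_comp,
        comp_zero]

/-- The composition with a fixed left factor. -/
def cmpL (h : u ≤ s + t) (x : V ⟶ E.K.B s Z) : E.Sy t Z U →+ E.Sy u V U :=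
  QuotientAddGroup.map _ _ (AddMonoidHom.mk' (E.cmp h x) fun y y' => by
    simp only [cmp, map_add, Preadditive.add_comp, Preadditive.comp_add])
    fun _ hy => E.cmp_right h x hy

/-- The composition of synthetic morphisms. -/
def cmpQ (h : u ≤ s + t) : E.Sy s V Z →+ E.Sy t Z U →+ E.Sy u V U :=
  QuotientAddGroup.lift _ (AddMonoidHom.mk' (E.cmpL h) fun x x' => by
    ext y
    change (QuotientAddGroup.mk (E.cmp h (x + x') y) : E.Sy u V U) =
      QuotientAddGroup.mk (E.cmp h x y) + QuotientAddGroup.mk (E.cmp h x' y)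
    rw [← QuotientAddGroup.mk_add]
    simp only [cmp, Preadditive.add_comp])
    fun x hx => by
      ext y
      exact (QuotientAddGroup.eq_zero_iff _).2 (E.cmp_left h y hx)

theorem cmpQ_mk (h : u ≤ s + t) (x : V ⟶ E.K.B s Z) (y : Z ⟶ E.K.B t U) :
    E.cmpQ h (QuotientAddGroup.mk x) (QuotientAddGroup.mk y) =
      QuotientAddGroup.mk (E.cmp h x y) := rfl

theorem mk_eq {x y : V ⟶ E.K.B s Z}
    (h : x ≫ E.dr (Nat.sub_le s 1) Z = y ≫ E.dr (Nat.sub_le s 1) Z) :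
    (QuotientAddGroup.mk x : E.Sy s V Z) = QuotientAddGroup.mk y :=
  QuotientAddGroup.eq_iff_sub_mem.2 (by rw [mem_ker, Preadditive.sub_comp, h, sub_self])

end cmp

/-- The graded data of the synthetic category. -/
def syD : GData.{v} D.Cat where
  G i V Z := E.Sy i.toNat V Z
  grp _ _ _ := inferInstance
  c h := E.cmpQ (by omega)
  one X := (QuotientAddGroup.mk (𝟙 X) : E.Sy 0 X X)
  one_c {i X Y} h f := by
    obtain ⟨f, rfl⟩ := QuotientAddGroup.mk_surjective f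
    refine (E.cmpQ_mk (s := 0) (by omega) (𝟙 X) f).trans (congrArg _ ?_)
    rw [cmp, E.zero_ad _ (by omega), dr_dr, dr_self, Category.comp_id, Category.id_comp, Fm_zero]
  c_one {i X Y} h f := by
    obtain ⟨f, rfl⟩ := QuotientAddGroup.mk_surjective f
    refine (E.cmpQ_mk (t := 0) (by omega) f (𝟙 Y)).trans (congrArg _ ?_)
    rw [cmp, Fm_id, ad_zero, Category.id_comp, Category.id_comp]
    exact (congrArg (f ≫ ·) (E.dr_self _ _ Y)).trans (Category.comp_id f)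
  assoc {i j k ij jk l X Y Z W} h₁ h₂ h₃ h₄ f g h := by
    obtain ⟨f, rfl⟩ := QuotientAddGroup.mk_surjective f
    obtain ⟨g, rfl⟩ := QuotientAddGroup.mk_surjective g
    obtain ⟨h, rfl⟩ := QuotientAddGroup.mk_surjective h
    refine E.mk_eq (x := E.cmp _ (E.cmp _ f g) h) (y := E.cmp _ f (E.cmp _ g h)) ?_
    simp only [cmp, Category.assoc, dr_dr, Fm_comp]
    rw [← dr_nat_assoc, E.dr_ad_assoc _ _ (by omega), dr_dr,
      E.mid_dr _ _ _ _ (by omega) (by omega), E.ad_assoc_assoc _ _ _ (by omega), dr_dr,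
      ad_nat_assoc]

/-- The synthetic category. -/
abbrev Syn : Type u := E.syD.Cat

/-- An object as an object of the synthetic category. -/
abbrev so (X : D.Cat) : E.Syn := ⟨X⟩

variable {V Z U : D.Cat}

/-- The synthetic morphism of filtration `i` represented by `x : V ⟶ B s Z`, `i ≤ s`. -/
def cl (i : ℤ) {s : ℕ} (h : i.toNat ≤ s) : (V ⟶ E.K.B s Z) →+ (E.so V ⟶ E.so Z) :=
  (of (D := E.syD) (X := E.so V) (Y := E.so Z) i).comp
    ((QuotientAddGroup.mk' (E.ker i.toNat V Z)).comp (Preadditive.rightComp V (E.dr h Z)))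

theorem cl_apply (i : ℤ) {s : ℕ} (h : i.toNat ≤ s) (x : V ⟶ E.K.B s Z) :
    E.cl i h x = of (D := E.syD) (X := E.so V) (Y := E.so Z) i
      (QuotientAddGroup.mk (x ≫ E.dr h Z) : E.Sy i.toNat V Z) := rfl

theorem cl_eq_zero {i : ℤ} {s m : ℕ} (h : i.toNat ≤ s) (h' : m ≤ s) (hm : m = i.toNat - 1)
    {x : V ⟶ E.K.B s Z} : E.cl i h x = 0 ↔ x ≫ E.dr h' Z = 0 := by
  subst hm
  refine (of_eq_zero (D := E.syD) (X := E.so V) (Y := E.so Z)).trans ?_
  refine (QuotientAddGroup.eq_zero_iff (x ≫ E.dr h Z)).trans ?_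
  rw [mem_ker, Category.assoc, dr_dr]

theorem cl_dr (i : ℤ) {s n : ℕ} (h : i.toNat ≤ s) (h' : s ≤ n) (x : V ⟶ E.K.B n Z) :
    E.cl i h (x ≫ E.dr h' Z) = E.cl i (h.trans h') x := by
  rw [cl_apply, cl_apply, Category.assoc, dr_dr]

theorem cl_oc (i : ℤ) {s : ℕ} (h : i.toNat ≤ s) (x : V ⟶ E.K.B (s + 1) Z) :
    E.cl i h (x ≫ E.oc s Z) = E.cl i (h.trans (Nat.le_succ s)) x := by
  rw [← E.dr_one s (Nat.le_succ s), cl_dr]

theorem cl_congr {i : ℤ} {s t m : ℕ} (h : i.toNat ≤ s) (h' : i.toNat ≤ t) (k : m ≤ s)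
    (k' : m ≤ t) (hm : i.toNat - 1 ≤ m) {x : V ⟶ E.K.B s Z} {y : V ⟶ E.K.B t Z}
    (e : x ≫ E.dr k Z = y ≫ E.dr k' Z) : E.cl i h x = E.cl i h' y := by
  rw [cl_apply, cl_apply]
  refine congrArg _ (E.mk_eq ?_)
  rw [Category.assoc, Category.assoc, dr_dr, dr_dr, ← E.dr_dr k hm, ← E.dr_dr k' hm,
    reassoc_of% e]

theorem cl_comp {i j k : ℤ} (e : i + j = k) {s t : ℕ} (h : i.toNat ≤ s) (h' : j.toNat ≤ t)
    (h'' : k.toNat ≤ s + t) (x : V ⟶ E.K.B s Z) (y : Z ⟶ E.K.B t U) :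
    E.cl i h x ≫ E.cl j h' y = E.cl k h'' (x ≫ E.Fm s y ≫ E.ad s t U) := by
  refine (of_comp (D := E.syD) (X := E.so V) (Y := E.so Z) (Z := E.so U) e _ _).trans ?_
  refine congrArg _ (E.mk_eq (x := E.cmp _ (x ≫ E.dr h Z) (y ≫ E.dr h' U))
    (y := (x ≫ E.Fm s y ≫ E.ad s t U) ≫ E.dr h'' U) ?_)
  simp only [cmp, Category.assoc, dr_dr, Fm_comp]
  rw [E.mid_dr _ _ _ _ (by omega) (by omega), ← dr_nat_assoc, E.dr_ad_assoc _ _ (by omega), dr_dr]

theorem exists_cl {i : ℤ} {x : E.so V ⟶ E.so Z} (hx : Deg i x) :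
    ∃ g : V ⟶ E.K.B i.toNat Z, x = E.cl i le_rfl g := by
  obtain ⟨g, rfl⟩ := hx
  obtain ⟨g, rfl⟩ := QuotientAddGroup.mk_surjective g
  exact ⟨g, by rw [cl_apply, dr_self, Category.comp_id]⟩

theorem deg_cl (i : ℤ) {s : ℕ} (h : i.toNat ≤ s) (x : V ⟶ E.K.B s Z) : Deg i (E.cl i h x) :=
  ⟨_, rfl⟩

/-- A morphism as a synthetic morphism of filtration zero. -/
def ι : (V ⟶ Z) →+ (E.so V ⟶ E.so Z) := E.cl (Z := Z) 0 (s := 0) le_rfl

theorem ι_eq (f : V ⟶ Z) : E.ι f = E.cl (Z := Z) 0 (s := 0) le_rfl f := rfl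

@[simp] theorem ι_id (X : D.Cat) : E.ι (𝟙 X) = 𝟙 (E.so X) := by
  have h : 𝟙 X ≫ E.dr (show 0 ≤ 0 from le_rfl) X = 𝟙 X := by rw [dr_self]; exact Category.id_comp _
  exact congrArg (fun g : X ⟶ E.K.B 0 X => of (D := E.syD) (X := E.so X) (Y := E.so X) 0
    (QuotientAddGroup.mk g : E.Sy 0 X X)) h

theorem cl_ι (i : ℤ) {s : ℕ} (h : i.toNat ≤ s) (x : V ⟶ E.K.B s Z) (f : Z ⟶ U) :
    E.cl i h x ≫ E.ι f = E.cl i h (x ≫ E.Fm s f) := by
  rw [ι_eq, E.cl_comp (t := 0) (add_zero i) h le_rfl h, ad_zero, Category.comp_id]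

theorem ι_cl (i : ℤ) {s : ℕ} (h : i.toNat ≤ s) (f : V ⟶ Z) (x : Z ⟶ E.K.B s U) :
    E.ι f ≫ E.cl i h x = E.cl i h (f ≫ x) := by
  rw [ι_eq, E.cl_comp (s := 0) (zero_add i) le_rfl h (by omega), E.zero_ad _ (by omega),
    ← Category.assoc, cl_dr]
  rfl

@[reassoc]
theorem ι_comp (f : V ⟶ Z) (g : Z ⟶ U) : E.ι (f ≫ g) = E.ι f ≫ E.ι g := by
  rw [E.ι_eq g, ι_cl]
  rfl

theorem ι_eq_zero {f : V ⟶ Z} : E.ι f = 0 ↔ f = 0 := by
  rw [ι_eq, E.cl_eq_zero (s := 0) (m := 0) le_rfl le_rfl rfl, dr_self, Category.comp_id]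

theorem ι_inj {f g : V ⟶ Z} (h : E.ι f = E.ι g) : f = g := by
  rw [← sub_eq_zero, ← E.ι_eq_zero, map_sub, h, sub_self]

/-- An isomorphism as a synthetic isomorphism. -/
@[simps]
def ιI (e : V ≅ Z) : E.so V ≅ E.so Z where
  hom := E.ι e.hom
  inv := E.ι e.inv
  hom_inv_id := by rw [← ι_comp, e.hom_inv_id, ι_id]
  inv_hom_id := by rw [← ι_comp, e.inv_hom_id, ι_id]

/-- The central element `τ` of filtration `-1`. -/
def τ (X : E.Syn) : X ⟶ X := E.cl (Z := X.obj) (-1) (s := 0) le_rfl (𝟙 X.obj)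

theorem cl_τ {i j : ℤ} (e : i - 1 = j) {s : ℕ} (h : i.toNat ≤ s) (h' : j.toNat ≤ s)
    (x : V ⟶ E.K.B s Z) : E.cl i h x ≫ E.τ _ = E.cl j h' x := by
  rw [τ, E.cl_comp (t := 0) (show i + -1 = j by omega) h le_rfl h', Fm_id, ad_zero,
    Category.id_comp, Category.comp_id]

theorem τ_cl {i j : ℤ} (e : i - 1 = j) {s : ℕ} (h : i.toNat ≤ s) (h' : j.toNat ≤ s)
    (x : V ⟶ E.K.B s Z) : E.τ _ ≫ E.cl i h x = E.cl j h' x := by
  rw [τ, E.cl_comp (s := 0) (show -1 + i = j by omega) le_rfl h (by omega),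
    E.zero_ad _ (by omega), Category.id_comp, Fm_zero, cl_dr]

@[reassoc]
theorem τ_comm {X Y : E.Syn} (x : X ⟶ Y) : E.τ X ≫ x = x ≫ E.τ Y := by
  refine ind x (by simp) (fun i g hg => ?_) (fun a b ha hb => by simp [ha, hb])
  obtain ⟨g, rfl⟩ := E.exists_cl (V := X.obj) (Z := Y.obj) hg
  exact (E.τ_cl rfl le_rfl (by omega) g).trans (E.cl_τ rfl le_rfl (by omega) g).symm

end TD

end Vale.Agent.P236SY
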