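import Vale.Agent.P236SY.GD
import Vale.Agent.P251.S.Cobar

/-!
# P236, synthetic calculus: abstract Adams towers

`TD D`: on a graded category, cobar data `K` together with the augmentation `ε : G X ⟶ X` of the
fibre of the unit, the exchange of factors, and a class of exact triangles.
-/

open CategoryTheory Limits

universe v u

namespace Vale.Agent.P236SY

open GData Vale.Agent.P251.S

/-- Tower data on a graded category. -/
structure TD {O : Type u} (D : GData.{v} O) where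
  /-- the cobar data; `K.G` is the sign twisted form of the functor `fm` -/
  K : CobarData D.Cat
  /-- the functor `I ⊗ -` on morphisms -/
  fm : ∀ {X Y : D.Cat}, (X ⟶ Y) →+ (K.G.obj X ⟶ K.G.obj Y)
  fm_id : ∀ X, fm (𝟙 X) = 𝟙 _
  fm_comp : ∀ {X Y Z : D.Cat} (f : X ⟶ Y) (g : Y ⟶ Z), fm (f ≫ g) = fm f ≫ fm g
  G_map : ∀ {X Y : D.Cat} (f : X ⟶ Y), K.G.map f = fm (tw f)
  deg_fm : ∀ {X Y : D.Cat} {a : ℤ} {f : X ⟶ Y}, Deg a f → Deg a (fm f)
  deg_M : ∀ {X Y : D.Cat} {a : ℤ} {f : X ⟶ Y}, Deg a f → Deg a (K.M.map f)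
  /-- the augmentation -/
  ε : ∀ X, K.G.obj X ⟶ X
  ε_nat : ∀ {X Y : D.Cat} (f : X ⟶ Y), fm f ≫ ε Y = ε X ≫ f
  deg_ε : ∀ X, Deg 0 (ε X)
  deg_un : ∀ X, Deg 0 (K.un X)
  deg_mu : ∀ X, Deg 0 (K.mu X)
  deg_ρ : ∀ X, Deg 1 (K.ρ X)
  /-- the exchange of two factors -/
  σ : ∀ X, K.G.obj (K.G.obj X) ⟶ K.G.obj (K.G.obj X)
  σ_σ : ∀ X, σ X ≫ σ X = 𝟙 _
  σ_ε : ∀ X, σ X ≫ ε (K.G.obj X) = fm (ε X)
  σ_nat : ∀ {X Y : D.Cat} (f : X ⟶ Y), fm (fm f) ≫ σ Y = σ X ≫ fm (fm f)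
  deg_σ : ∀ X, Deg 0 (σ X)
  /-- the exchange of the fibre and the ring -/
  sR : ∀ X, K.G.obj (K.M.obj X) ≅ K.M.obj (K.G.obj X)
  sR_nat : ∀ {X Y : D.Cat} (f : X ⟶ Y),
    fm (K.M.map f) ≫ (sR Y).hom = (sR X).hom ≫ K.M.map (fm f)
  deg_sR : ∀ X, Deg 0 (sR X).hom
  sR_un : ∀ X, fm (K.un X) ≫ (sR X).hom = K.un (K.G.obj X)
  sR_ρ : ∀ X, (sR X).hom ≫ K.ρ (K.G.obj X) = fm (K.ρ X) ≫ σ X
  mu_assoc : ∀ X, K.M.map (K.mu X) ≫ K.mu X = K.mu (K.M.obj X) ≫ K.mu X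
  /-- the exact triangles -/
  Tri : ∀ {X Y Z : D.Cat}, (X ⟶ Y) → (Y ⟶ Z) → (Z ⟶ X) → Prop
  tri_F : ∀ {X Y Z : D.Cat} {f : X ⟶ Y} {g : Y ⟶ Z} {h : Z ⟶ X}, Tri f g h →
    Tri (fm f) (fm g) (fm h)
  tri_M : ∀ {X Y Z : D.Cat} {f : X ⟶ Y} {g : Y ⟶ Z} {h : Z ⟶ X}, Tri f g h →
    Tri (K.M.map f) (K.M.map g) (K.M.map h)
  tri_rot : ∀ {X Y Z : D.Cat} {f : X ⟶ Y} {g : Y ⟶ Z} {h : Z ⟶ X}, Tri f g h → Tri g h f
  tri_zero : ∀ {X Y Z : D.Cat} {f : X ⟶ Y} {g : Y ⟶ Z} {h : Z ⟶ X}, Tri f g h → f ≫ g = 0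
  tri_co : ∀ {X Y Z : D.Cat} {f : X ⟶ Y} {g : Y ⟶ Z} {h : Z ⟶ X}, Tri f g h →
    ∀ {P : D.Cat} (x : P ⟶ Y), x ≫ g = 0 → ∃ y, x = y ≫ f
  tri_yo : ∀ {X Y Z : D.Cat} {f : X ⟶ Y} {g : Y ⟶ Z} {h : Z ⟶ X}, Tri f g h →
    ∀ {P : D.Cat} (x : Y ⟶ P), f ≫ x = 0 → ∃ y, x = g ≫ y
  tri_unit : ∀ X, Tri (ε X) (K.un X) (K.ρ X)

namespace TD

attribute [reassoc] TD.fm_comp TD.ε_nat TD.σ_nat TD.sR_nat TD.sR_un TD.sR_ρ TD.mu_assoc
attribute [reassoc (attr := simp)] TD.σ_σ TD.σ_ε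
attribute [simp] TD.fm_id

variable {O : Type u} {D : GData.{v} O} (E : TD D)

/-- The iterates of `fm`. -/
def Fm : ∀ (s : ℕ) {X Y : D.Cat}, (X ⟶ Y) →+ (E.K.B s X ⟶ E.K.B s Y)
  | 0, _, _ => AddMonoidHom.id _
  | s + 1, _, _ => (Fm s).comp E.fm

section

variable {X Y Z : D.Cat}

@[simp] theorem Fm_zero (f : X ⟶ Y) : E.Fm 0 f = f := rfl

theorem Fm_succ (s : ℕ) (f : X ⟶ Y) : E.Fm (s + 1) f = E.Fm s (E.fm f) := rfl

@[simp] theorem Fm_id (s : ℕ) (X : D.Cat) : E.Fm s (𝟙 X) = 𝟙 _ := by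
  induction s generalizing X with
  | zero => rfl
  | succ s ih => rw [Fm_succ, fm_id, ih]

@[reassoc]
theorem Fm_comp (s : ℕ) (f : X ⟶ Y) (g : Y ⟶ Z) : E.Fm s (f ≫ g) = E.Fm s f ≫ E.Fm s g := by
  induction s generalizing X Y Z with
  | zero => rfl
  | succ s ih => rw [Fm_succ, fm_comp, ih]; rfl

variable {E} in
theorem deg_Fm (s : ℕ) {a : ℤ} {f : X ⟶ Y} (h : Deg a f) : Deg a (E.Fm s f) := by
  induction s generalizing X Y with
  | zero => exact h
  | succ s ih => exact ih (E.deg_fm h)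

variable {E} in
theorem tri_Fm (s : ℕ) {f : X ⟶ Y} {g : Y ⟶ Z} {h : Z ⟶ X} (H : E.Tri f g h) :
    E.Tri (E.Fm s f) (E.Fm s g) (E.Fm s h) := by
  induction s generalizing X Y Z with
  | zero => exact H
  | succ s ih => exact ih (E.tri_F H)

variable {E} in
theorem Bm_eq (s : ℕ) {a : ℤ} {f : X ⟶ Y} (h : Deg a f) :
    E.K.Bm s f = (s * a : ℤ).negOnePow • E.Fm s f := by
  induction s generalizing X Y with
  | zero => rw [Nat.cast_zero, zero_mul, Int.negOnePow_zero, one_smul]; rfl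
  | succ s ih =>
    rw [CobarData.Bm_succ, E.G_map, ih (E.deg_fm (by rw [h.tw_eq]; exact h.usmul _)), h.tw_eq,
      Units.smul_def a.negOnePow, map_zsmul, map_zsmul, ← Units.smul_def, smul_smul,
      ← Int.negOnePow_add, Fm_succ]
    congr 2
    push_cast
    ring

@[reassoc (attr := simp)]
theorem ε_un (X : D.Cat) : E.ε X ≫ E.K.un X = 0 := E.tri_zero (E.tri_unit X)

@[simp] theorem ε_M (X : D.Cat) : E.ε (E.K.M.obj X) = 0 := by
  rw [← Category.comp_id (E.ε _), ← E.K.left_unit, ε_un_assoc, zero_comp]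

@[simp] theorem M_ε (X : D.Cat) : E.K.M.map (E.ε X) = 0 := by
  rw [← Category.comp_id (E.K.M.map _), ← E.K.right_unit, ← Functor.map_comp_assoc, ε_un,
    Functor.map_zero, zero_comp]

theorem ε_G (h : E.ε X = 0) : E.ε (E.K.G.obj X) = 0 := by
  rw [← Category.id_comp (E.ε _), ← E.σ_σ, Category.assoc, σ_ε, h, map_zero, comp_zero]

theorem ε_B (s : ℕ) (h : E.ε X = 0) : E.ε (E.K.B s X) = 0 := by
  induction s generalizing X with
  | zero => exact h
  | succ s ih => exact ih (E.ε_G h)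

end

/-- The outer structure map of the tower. -/
def oc : ∀ (s : ℕ) (X : D.Cat), E.K.B (s + 1) X ⟶ E.K.B s X
  | 0, X => E.ε X
  | s + 1, X => oc s (E.K.G.obj X)

theorem oc_zero (X : D.Cat) : E.oc 0 X = E.ε X := rfl

theorem oc_succ (s : ℕ) (X : D.Cat) : E.oc (s + 1) X = E.oc s (E.K.G.obj X) := rfl

@[reassoc]
theorem oc_nat (s : ℕ) {X Y : D.Cat} (f : X ⟶ Y) :
    E.Fm (s + 1) f ≫ E.oc s Y = E.oc s X ≫ E.Fm s f := by
  induction s generalizing X Y with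
  | zero => exact E.ε_nat f
  | succ s ih => exact ih (E.fm f)

theorem deg_oc (s : ℕ) (X : D.Cat) : Deg 0 (E.oc s X) := by
  induction s generalizing X with
  | zero => exact E.deg_ε X
  | succ s ih => exact ih _

theorem deg_k (s : ℕ) (X : D.Cat) : Deg 1 (E.K.k s X) := by
  induction s generalizing X with
  | zero => exact E.deg_ρ X
  | succ s ih => exact ih _

theorem tri_oc (s : ℕ) (X : D.Cat) : E.Tri (E.oc s X) (E.K.un (E.K.B s X)) (E.K.k s X) := by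
  induction s generalizing X with
  | zero => exact E.tri_unit X
  | succ s ih => exact ih _

theorem oc_null (s : ℕ) {X Y : D.Cat} (f : E.K.B s X ⟶ Y) (h : E.ε Y = 0) : E.oc s X ≫ f = 0 := by
  induction s generalizing X with
  | zero => rw [oc_zero, ← E.ε_nat, h, comp_zero]
  | succ s ih => exact ih f

@[reassoc (attr := simp)]
theorem k_oc (s : ℕ) (X : D.Cat) : E.K.k s X ≫ E.oc s X = 0 :=
  E.tri_zero (E.tri_rot (E.tri_rot (E.tri_oc s X)))

@[reassoc (attr := simp)]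
theorem oc_un (s : ℕ) (X : D.Cat) : E.oc s X ≫ E.K.un _ = 0 := E.tri_zero (E.tri_oc s X)

theorem exists_k {s : ℕ} {P X : D.Cat} (x : P ⟶ E.K.B (s + 1) X) (h : x ≫ E.oc s X = 0) :
    ∃ w, x = w ≫ E.K.k s X := E.tri_co (E.tri_rot (E.tri_rot (E.tri_oc s X))) x h

theorem exists_oc {s : ℕ} {P X : D.Cat} (x : P ⟶ E.K.B s X) (h : x ≫ E.K.un _ = 0) :
    ∃ y, x = y ≫ E.oc s X := E.tri_co (E.tri_oc s X) x h

theorem exists_un {s : ℕ} {P X : D.Cat} (w : P ⟶ E.K.M.obj (E.K.B s X))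
    (h : w ≫ E.K.k s X = 0) : ∃ x, w = x ≫ E.K.un _ := E.tri_co (E.tri_rot (E.tri_oc s X)) w h

/-- The composite of outer structure maps. -/
def dr {m n : ℕ} (h : m ≤ n) (X : D.Cat) : E.K.B n X ⟶ E.K.B m X :=
  Nat.leRec (motive := fun n _ => (E.K.B n X ⟶ E.K.B m X)) (𝟙 _) (fun k _ g => E.oc k X ≫ g) h

@[simp] theorem dr_self (m : ℕ) (h : m ≤ m) (X : D.Cat) : E.dr h X = 𝟙 _ := Nat.leRec_self _ _

theorem dr_succ {m n : ℕ} (h : m ≤ n) (h' : m ≤ n + 1) (X : D.Cat) :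
    E.dr h' X = E.oc n X ≫ E.dr h X := Nat.leRec_succ _ _ _

theorem dr_one (n : ℕ) (h : n ≤ n + 1) (X : D.Cat) : E.dr h X = E.oc n X := by
  rw [E.dr_succ le_rfl, dr_self, Category.comp_id]

@[reassoc (attr := simp)]
theorem dr_dr {l m n : ℕ} (h : m ≤ n) (h' : l ≤ m) (X : D.Cat) :
    E.dr h X ≫ E.dr h' X = E.dr (h'.trans h) X := by
  induction n, h using Nat.le_induction with
  | base => rw [dr_self, Category.id_comp]
  | succ n h ih => rw [E.dr_succ h, Category.assoc, ih, E.dr_succ (h'.trans h)]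

@[reassoc]
theorem dr_nat {m n : ℕ} (h : m ≤ n) {X Y : D.Cat} (f : X ⟶ Y) :
    E.Fm n f ≫ E.dr h Y = E.dr h X ≫ E.Fm m f := by
  induction n, h using Nat.le_induction with
  | base => rw [dr_self, dr_self, Category.id_comp, Category.comp_id]
  | succ n h ih => rw [E.dr_succ h, E.dr_succ h, oc_nat_assoc, ih, Category.assoc]

theorem dr_G {m n : ℕ} (h : m ≤ n) (h' : m + 1 ≤ n + 1) (X : D.Cat) :
    E.dr h' X = E.dr h (E.K.G.obj X) := by
  induction n, h using Nat.le_induction with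
  | base => rw [dr_self, dr_self]
  | succ n h ih => rw [E.dr_succ (Nat.succ_le_succ h), E.dr_succ h, ih]; rfl

theorem deg_dr {m n : ℕ} (h : m ≤ n) (X : D.Cat) : Deg 0 (E.dr h X) := by
  induction n, h using Nat.le_induction with
  | base => rw [dr_self]; exact deg_id _
  | succ n h ih => rw [E.dr_succ h]; exact (E.deg_oc n X).comp ih rfl

/-- The identification of `B s (B t X)` with `B (s + t) X`. -/
def ad (s : ℕ) : ∀ (t : ℕ) (X : D.Cat), E.K.B s (E.K.B t X) ⟶ E.K.B (s + t) X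
  | 0, _ => 𝟙 _
  | t + 1, X => ad s t (E.K.G.obj X)

@[simp] theorem ad_zero (s : ℕ) (X : D.Cat) : E.ad s 0 X = 𝟙 _ := rfl

theorem ad_succ (s t : ℕ) (X : D.Cat) : E.ad s (t + 1) X = E.ad s t (E.K.G.obj X) := rfl

theorem deg_ad (s t : ℕ) (X : D.Cat) : Deg 0 (E.ad s t X) := by
  induction t generalizing X with
  | zero => exact deg_id _
  | succ t ih => exact ih _

instance isIso_ad (s t : ℕ) (X : D.Cat) : IsIso (E.ad s t X) := by
  induction t generalizing X with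
  | zero => exact IsIso.id _
  | succ t ih => exact ih _

@[reassoc]
theorem ad_nat (s t : ℕ) {X Y : D.Cat} (f : X ⟶ Y) :
    E.Fm s (E.Fm t f) ≫ E.ad s t Y = E.ad s t X ≫ E.Fm (s + t) f := by
  induction t generalizing X Y with
  | zero => rw [ad_zero, ad_zero, Category.id_comp]; exact Category.comp_id _
  | succ t ih => exact ih (E.fm f)

theorem zero_ad (t : ℕ) (h : 0 + t ≤ t) (X : D.Cat) : E.ad 0 t X = E.dr h X := by
  induction t generalizing X with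
  | zero => rw [dr_self]; rfl
  | succ t ih =>
    rw [ad_succ, ih (by omega)]
    exact (E.dr_G (m := 0 + t) (n := t) (by omega) h X).symm

@[reassoc]
theorem oc_ad (s t : ℕ) (h : s + t ≤ s + 1 + t) (X : D.Cat) :
    E.oc s (E.K.B t X) ≫ E.ad s t X = E.ad (s + 1) t X ≫ E.dr h X := by
  induction t generalizing X with
  | zero => rw [ad_zero, ad_zero, Category.id_comp, Category.comp_id]; exact (E.dr_one s h X).symm
  | succ t ih =>
    rw [ad_succ, ad_succ, E.dr_G (m := s + t) (n := s + 1 + t) (by omega) h]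
    exact ih _ _

@[reassoc]
theorem dr_ad {a n : ℕ} (h : a ≤ n) (t : ℕ) (h' : a + t ≤ n + t) (X : D.Cat) :
    E.dr h (E.K.B t X) ≫ E.ad a t X = E.ad n t X ≫ E.dr h' X := by
  induction n, h using Nat.le_induction with
  | base => rw [dr_self, dr_self, Category.id_comp, Category.comp_id]
  | succ n h ih =>
    rw [E.dr_succ h, Category.assoc, ih (by omega), E.oc_ad_assoc n t (by omega), dr_dr]

@[reassoc]
theorem ad_assoc (s t u : ℕ) (h : s + (t + u) ≤ s + t + u) (X : D.Cat) :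
    E.Fm s (E.ad t u X) ≫ E.ad s (t + u) X =
      E.ad s t (E.K.B u X) ≫ E.ad (s + t) u X ≫ E.dr h X := by
  induction u generalizing X with
  | zero => simp
  | succ u ih =>
    rw [ad_succ, ad_succ, E.dr_G (m := s + (t + u)) (n := s + t + u) (by omega) h]
    exact ih _ _

/-- Dropping a middle factor or the outer factor. -/
theorem mid_oc (s t : ℕ) (X : D.Cat) {m : ℕ} (h : m ≤ s + t) (h' : m ≤ s + (t + 1))
    (hm : m < s + t ∨ s = 0) : E.Fm s (E.oc t X) ≫ E.ad s t X ≫ E.dr h X =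
      E.ad s (t + 1) X ≫ E.dr h' X := by
  induction s generalizing m with
  | zero =>
    rw [E.zero_ad t (by omega), E.zero_ad (t + 1) (by omega), dr_dr, dr_dr, Fm_zero,
      ← E.dr_succ]
  | succ s ih =>
    have h1 : m ≤ s + t := by omega
    have key : E.oc s _ ≫ (E.Fm s (E.oc t X) ≫ E.ad s t X -
        E.ad s (t + 1) X ≫ E.dr (Nat.le_succ (s + t)) X) = 0 := by
      rcases Nat.eq_zero_or_pos s with rfl | hs
      · rw [← ih le_rfl _ (Or.inr rfl), dr_self, Category.comp_id, sub_self, comp_zero]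
      · obtain ⟨n, hn⟩ : ∃ n, s + t = n + 1 := ⟨s + t - 1, by omega⟩
        obtain ⟨w, hw⟩ := E.exists_k ((E.Fm s (E.oc t X) ≫ E.ad s t X -
          E.ad s (t + 1) X ≫ E.dr (Nat.le_succ (s + t)) X) ≫ E.dr hn.ge X) (by
            rw [Category.assoc, ← E.dr_one n (Nat.le_succ n), dr_dr, Preadditive.sub_comp,
              Category.assoc, Category.assoc, dr_dr, ih _ (by omega) (Or.inl (by omega)),
              sub_self])
        have h2 := congrArg (fun z => E.oc s _ ≫ z ≫ E.dr hn.le X) hw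
        simp only [Category.assoc, dr_dr, dr_self, Category.comp_id] at h2
        rw [h2, reassoc_of% E.oc_null s w (E.ε_M _), zero_comp]
    rw [← E.dr_dr (show s + t ≤ s + 1 + t by omega) h1, ← oc_ad_assoc, oc_nat_assoc,
      ← E.dr_dr (show s + (t + 1) ≤ s + 1 + (t + 1) by omega) (h1.trans (Nat.le_succ _)),
      ← oc_ad_assoc, ← E.dr_dr (Nat.le_succ (s + t)) h1]
    rw [Preadditive.comp_sub, sub_eq_zero] at key
    rw [reassoc_of% key]

theorem mid_dr (s : ℕ) {b n : ℕ} (hb : b ≤ n) (X : D.Cat) {m : ℕ} (h : m ≤ s + b)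
    (h' : m ≤ s + n) (hm : m < s + b ∨ s = 0) :
    E.Fm s (E.dr hb X) ≫ E.ad s b X ≫ E.dr h X = E.ad s n X ≫ E.dr h' X := by
  induction n, hb using Nat.le_induction with
  | base => rw [dr_self, Fm_id, Category.id_comp]
  | succ n hb ih =>
    rw [E.dr_succ hb, Fm_comp, Category.assoc, ih (by omega), E.mid_oc s n X _ h' (by omega)]

/-- The kernel of an inner structure map is contained in the kernel of the outer one. -/
theorem oc_of_in {s : ℕ} {P X : D.Cat} (x : P ⟶ E.K.B (s + 1) X) (h : x ≫ E.Fm s (E.ε X) = 0) :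
    x ≫ E.oc s X = 0 := by
  cases s with
  | zero => exact h
  | succ s =>
    obtain ⟨w, rfl⟩ := E.tri_co (E.tri_rot (E.tri_rot (tri_Fm (s + 1) (E.tri_unit X)))) x h
    rw [Category.assoc, oc_succ, oc_nat, ← Category.assoc w, ← Category.comp_id (E.oc s _),
      E.oc_null s _ (E.ε_B s (E.ε_M X)), comp_zero, zero_comp]

/-- The image of an isomorphism. -/
def FmI (s : ℕ) {X Y : D.Cat} (e : X ≅ Y) : E.K.B s X ≅ E.K.B s Y where
  hom := E.Fm s e.hom
  inv := E.Fm s e.inv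
  hom_inv_id := by rw [← Fm_comp, e.hom_inv_id, Fm_id]
  inv_hom_id := by rw [← Fm_comp, e.inv_hom_id, Fm_id]

/-- Moving the ring outside. -/
def sRs : ∀ (s : ℕ) (X : D.Cat), E.K.B s (E.K.M.obj X) ≅ E.K.M.obj (E.K.B s X)
  | 0, _ => Iso.refl _
  | s + 1, X => E.FmI s (E.sR X) ≪≫ sRs s (E.K.G.obj X)

theorem sRs_succ (s : ℕ) (X : D.Cat) :
    (E.sRs (s + 1) X).hom = E.Fm s (E.sR X).hom ≫ (E.sRs s (E.K.G.obj X)).hom := rfl

theorem deg_sRs (s : ℕ) (X : D.Cat) : Deg 0 (E.sRs s X).hom := by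
  induction s generalizing X with
  | zero => exact deg_id _
  | succ s ih => exact (deg_Fm s (E.deg_sR X)).comp (ih _) rfl

@[reassoc]
theorem sRs_nat (s : ℕ) {X Y : D.Cat} (f : X ⟶ Y) :
    E.Fm s (E.K.M.map f) ≫ (E.sRs s Y).hom = (E.sRs s X).hom ≫ E.K.M.map (E.Fm s f) := by
  induction s generalizing X Y with
  | zero => exact (Category.comp_id _).trans (Category.id_comp _).symm
  | succ s ih =>
    rw [sRs_succ, sRs_succ, Fm_succ, ← Fm_comp_assoc, E.sR_nat, Fm_comp_assoc, ih, Category.assoc]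
    rfl

@[simp] theorem M_Fm_ε (s : ℕ) (X : D.Cat) : E.K.M.map (E.Fm s (E.ε X)) = 0 := by
  rw [← cancel_epi (E.sRs s _).hom, ← sRs_nat, M_ε, map_zero, zero_comp, comp_zero]

theorem k_nat (s : ℕ) {X Y : D.Cat} {a : ℤ} {f : X ⟶ Y} (hf : Deg a f) :
    E.K.k s X ≫ E.Fm (s + 1) f = a.negOnePow • E.K.M.map (E.Fm s f) ≫ E.K.k s Y := by
  induction s generalizing X Y with
  | zero =>
    have h := E.K.ρ_nat f
    rw [E.G_map, hf.tw_eq, Units.smul_def, map_zsmul, ← Units.smul_def,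
      Linear.comp_units_smul] at h
    exact ((smul_smul _ _ _).trans (by rw [Int.units_mul_self, one_smul]; rfl)).symm.trans
      (congrArg (a.negOnePow • ·) h.symm)
  | succ s ih => exact ih (E.deg_fm hf)

theorem in_of_oc {s : ℕ} {P X : D.Cat} (x : P ⟶ E.K.B (s + 1) X) (h : x ≫ E.oc s X = 0) :
    x ≫ E.Fm s (E.ε X) = 0 := by
  obtain ⟨w, rfl⟩ := E.exists_k x h
  cases s with
  | zero => exact h
  | succ s =>
    rw [Category.assoc, CobarData.k_succ, E.k_nat s (E.deg_ε X), M_Fm_ε, zero_comp, smul_zero,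
      comp_zero]

end TD

end Vale.Agent.P236SY
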